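import Vale.Agent.P073.H233.Tail3E

/-!
# P073, block H193 ([CELL3], part a): drawn cells before the collapse

* `LAtC`: the four alternatives of `H233.LAt` with a general cost;
* `cellPre_of_boxes`: `H233.CellPre` from finitely many boxes;
* `CellOK3.mono`: monotone in the constant;
* `CellOK3.lat`: the local Lipschitz estimate on a drawn cell on which `h` is Lipschitz (clause
  `lip` for the drawn cells which do not belong to `Z`).
-/

open Set Metric Topology Filter MeasureTheory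
open scoped ENNReal

namespace Vale.Agent.P073.H193

open _root_.P073.PA691 _root_.P073.TM
open Vale.Agent.P073.St (V)
open Vale.Agent.P073.AB (Idx squ)
open Vale.Agent.P073.H73 (onSeg Mesh Adapted sqr)
open Vale.Agent.P073.H233 (BdT fInt ZS cp LAt CellPre CellOK3 Adm)
open Vale.Agent.P073
open Vale.Agent.P073.H155 (vv ce)
open Vale.Agent.P073.H471
open _root_.P073 (ConHomeo coneSetAt)
open _root_.P073.H142 (FStar Num)
open _root_.P073.H880 (dsum)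
open _root_.P073.H950 (bsum bsum_nonneg Tiny)
open _root_.P073.Net (len dyc dyo)

variable {Ω Λ : Set V} {M : Mesh Ω} {w : V} {K : BoxCx Λ w} {S : Rad K} {W : Wid K S}
  {B : Boxes W} {X : H233.PSet K} {p C₁ C₂ : ℝ} {v : V} {z : Idx} {𝓢 : Finset (Idx × Fin 3)}
  {kf : Idx × Fin 3 → M.κ} {b : M.κ → (edges M).ε → ℝ}

/-! ### Local estimates with a general cost -/

/-- local estimate of the alive coordinates of `f` on `A` near `x`, with the cost `c` -/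
def LAtC (B : Boxes W) (X : H233.PSet K) (c : V → ℝ) (A : Set V) (f : V → V) (x : V) : Prop :=
  (∀ᶠ x' in 𝓝[A] x, ‖f x' - f x‖ ≤ c x') ∨
  (∃ s ∈ X.s, f x ∈ interior (Zs W s) ∧
    ∀ᶠ x' in 𝓝[A] x, ∀ j, j ≠ K.nrm s → |f x' j - f x j| ≤ c x') ∨
  (∃ i ∈ X.e, f x ∈ interior (B.E i) ∧
    ∀ᶠ x' in 𝓝[A] x, |f x' (K.dir i) - f x (K.dir i)| ≤ c x') ∨
  ∃ i ∈ X.w, f x ∈ interior (Zv W i)

section LAtC

variable {A : Set V} {f : V → V} {x : V} {c c' : V → ℝ} {L : ℝ}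

theorem LAtC.mono (H : LAtC B X c A f x) (h : ∀ᶠ x' in 𝓝[A] x, c x' ≤ c' x') :
    LAtC B X c' A f x := by
  rcases H with H | ⟨s, hs, h1, h2⟩ | ⟨i, hi, h1, h2⟩ | H
  · left
    filter_upwards [H, h] with x' h3 h4 using h3.trans h4
  · refine Or.inr (Or.inl ⟨s, hs, h1, ?_⟩)
    filter_upwards [h2, h] with x' h3 h4 j hj using (h3 j hj).trans h4
  · refine Or.inr (Or.inr (Or.inl ⟨i, hi, h1, ?_⟩))
    filter_upwards [h2, h] with x' h3 h4 using h3.trans h4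
  · exact Or.inr (Or.inr (Or.inr H))

theorem LAtC.anti {A' : Set V} (H : LAtC B X c A f x) (h : A' ⊆ A) : LAtC B X c A' f x := by
  have hle := nhdsWithin_mono x h
  rcases H with H | ⟨s, hs, h1, h2⟩ | ⟨i, hi, h1, h2⟩ | H
  · exact Or.inl (Filter.Eventually.filter_mono hle H)
  · exact Or.inr (Or.inl ⟨s, hs, h1, h2.filter_mono hle⟩)
  · exact Or.inr (Or.inr (Or.inl ⟨i, hi, h1, h2.filter_mono hle⟩))
  · exact Or.inr (Or.inr (Or.inr H))

theorem LAtC.lat (H : LAtC B X c A f x) (h : ∀ᶠ x' in 𝓝[A] x, c x' ≤ L * ‖x' - x‖) :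
    LAt B X L A f x := by
  have H' := H.mono (c' := fun x' => L * ‖x' - x‖) h
  exact H'

/-- all coordinates -/
theorem LAtC.full (h : ∀ᶠ x' in 𝓝[A] x, ∀ j, |f x' j - f x j| ≤ c x') :
    LAtC B X c A f x := by
  left
  filter_upwards [h] with x' hx'
  have h0 : 0 ≤ c x' := (abs_nonneg _).trans (hx' 0)
  refine (pi_norm_le_iff_of_nonneg h0).2 fun j => ?_
  rw [Pi.sub_apply, Real.norm_eq_abs]
  exact hx' j

end LAtC

/-! ### Assembly -/

/-- **assembly before the collapse**: the change of the alive coordinates is bounded by the levels of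
finitely many boxes -/
theorem cellPre_of_boxes {i : M.ι} (hQ : M.Q i = dyc v z.1 z.2) (H : BdT v z 𝓢)
    (hkf : ∀ s ∈ 𝓢, M.F (kf s) = squ v s) {T : ∀ k, FStar (edges M) k} {J : Type*} [Fintype J]
    {om : J → ℝ} {κ : J → Type*} [∀ j, Fintype (κ j)] {u : ∀ j, κ j → V → ℝ}
    (hK : ∀ j, ∃ Kb : V → ℝ, Piece M p i v z 𝓢 kf T b C₁ C₂ (om j) Kb ∧
      ∀ x ∈ M.Q i, ∀ᶠ y in 𝓝[M.Q i] x, om j * dsum (u j) x y ≤ Kb x * ‖y - x‖)
    {a e : ℝ} (ha : 0 ≤ a) (he : 0 < e) {f : V → V}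
    (hf : ∀ x ∈ M.Q i,
      LAtC B X (fun y => a * ∑ j, om j * dsum (u j) x y + e * ‖y - x‖) (M.Q i) f x) :
    ∃ Kb : J → V → ℝ, CellPre B X M p i v z 𝓢 kf T b C₁ C₂ Kb om a e f := by
  choose Kb h1 h2 using hK
  refine ⟨Kb, ⟨hQ, H, hkf, h1, ha, he, fun x hx => (hf x hx).lat ?_⟩⟩
  have h3 : ∀ᶠ y in 𝓝[M.Q i] x, ∀ j, om j * dsum (u j) x y ≤ Kb j x * ‖y - x‖ :=
    eventually_all.2 fun j => h2 j x hx
  filter_upwards [h3] with y h5
  rw [add_mul, mul_assoc, Finset.sum_mul]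
  have h6 := Finset.sum_le_sum fun j (_ : j ∈ Finset.univ) => h5 j
  have h7 := mul_le_mul_of_nonneg_left h6 ha
  linarith

/-! ### Monotonicity in the constant -/

theorem G_mono {k : M.κ} (T : FStar (edges M) k) {b : (edges M).ε → ℝ}
    (hb : ∀ e, (edges M).seg e ⊆ M.F k → 0 ≤ b e) {C : ℝ} (hC : C₁ ≤ C) (x : V) :
    T.G C₁ b x ≤ T.G C b x := by
  unfold FStar.G
  refine _root_.P073.H155.cm_le.2 ⟨_root_.P073.H155.cm_nonneg _ _ _ _ x, fun j hj hx => ?_⟩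
  refine le_trans ?_ (_root_.P073.H155.le_cm hj hx)
  rw [T.ab_eq, T.ab_eq]
  unfold FStar.con
  refine mul_le_mul_of_nonneg_right hC ?_
  refine add_nonneg (div_nonneg (hb _ (T.C.sub _)) (norm_nonneg _))
    (div_nonneg (Finset.sum_nonneg fun e he => hb e ?_) T.rho_pos.le)
  exact ((edges M).fin_face k).mem_toFinset.1 he

theorem G_nonneg {k : M.κ} (T : FStar (edges M) k) (b : (edges M).ε → ℝ) (C : ℝ) (x : V) :
    0 ≤ T.G C b x := _root_.P073.H155.cm_nonneg _ _ _ _ x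

theorem Piece.mono (hp : 0 < p) {i : M.ι} {T : ∀ k, FStar (edges M) k} {om : ℝ} {Kb : V → ℝ}
    (H : Piece M p i v z 𝓢 kf T b C₁ C₂ om Kb)
    (hb : ∀ s ∈ 𝓢, ∀ e, (edges M).seg e ⊆ M.F (kf s) → 0 ≤ b (kf s) e)
    (hC₂ : 0 ≤ C₂) {C₁' C₂' : ℝ} (h1 : C₁ ≤ C₁') (h2 : C₂ ≤ C₂') :
    Piece M p i v z 𝓢 kf T b C₁' C₂' om Kb where
  usc := H.usc
  nonneg := H.nonneg
  int := by
    refine H.int.trans (mul_le_mul_right (add_le_add (Finset.sum_le_sum fun s hs => ?_)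
      (ENNReal.ofReal_le_ofReal (add_le_add (mul_le_mul_of_nonneg_left ?_ (by positivity))
        le_rfl))) _)
    · refine mul_le_mul_right ?_ _
      unfold fInt
      refine lintegral_mono fun x => ENNReal.ofReal_le_ofReal ?_
      refine Real.rpow_le_rpow (mul_nonneg zero_le_two (G_nonneg _ _ _ _)) ?_ hp.le
      exact mul_le_mul_of_nonneg_left (G_mono _ (hb s hs) h1 _) zero_le_two
    · unfold ZS
      refine Finset.sum_le_sum fun s hs => mul_le_mul_of_nonneg_left ?_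
        (Real.rpow_nonneg (by positivity) _)
      have h3 := bsum_nonneg (hb s hs)
      refine Real.rpow_le_rpow (by positivity) ?_ hp.le
      have := mul_le_mul_of_nonneg_right h2 h3
      linarith
  sup := fun L hL hG hB => by
    refine H.sup L hL (fun s hs x hx => le_trans ?_ (hG s hs x hx))
      (fun s hs => le_trans ?_ (hB s hs))
    · exact mul_le_mul_of_nonneg_left (G_mono _ (hb s hs) h1 _) zero_le_two
    · have := mul_le_mul_of_nonneg_right h2 (bsum_nonneg (hb s hs))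
      linarith

theorem CellPre.mono' (hp : 0 < p) {i : M.ι} {T : ∀ k, FStar (edges M) k}
    {J : Type*} [Fintype J] {Kb : J → V → ℝ} {om : J → ℝ} {a e : ℝ} {f : V → V}
    (H : CellPre B X M p i v z 𝓢 kf T b C₁ C₂ Kb om a e f)
    (hb : ∀ s ∈ 𝓢, ∀ e, (edges M).seg e ⊆ M.F (kf s) → 0 ≤ b (kf s) e)
    (hC₂ : 0 ≤ C₂) {C₁' C₂' : ℝ} (h1 : C₁ ≤ C₁') (h2 : C₂ ≤ C₂') :
    CellPre B X M p i v z 𝓢 kf T b C₁' C₂' Kb om a e f where
  hQ := H.hQ
  bd := H.bd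
  hkf := H.hkf
  piece := fun j => (H.piece j).mono hp hb hC₂ h1 h2
  a0 := H.a0
  e0 := H.e0
  lip := H.lip

/-- **monotone in the constants** -/
theorem CellOK3.mono {i : M.ι} {h f : V → V} {A D₀ lam : ℝ} {ε : M.κ → ℝ}
    {εL : (edges M).ε → ℝ} (H : CellOK3 B X p h f C₁ A D₀ ε εL lam i) (hp : 0 < p)
    (hC₁ : 0 ≤ C₁) {C A' : ℝ} (hC : C₁ ≤ C) (hA : A ≤ A') :
    CellOK3 B X p h f C A' D₀ ε εL lam i := by
  obtain ⟨v, z, 𝓢, kf, T, b, J, _, Kb, om, a, e, H, hJ, hb, hr⟩ := H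
  exact ⟨v, z, 𝓢, kf, T, b, J, _, Kb, om, a, e,
    CellPre.mono' hp H (fun s hs => (hb s hs).nonneg) hC₁ hC hC, hJ.trans hA, hb, hr⟩

/-! ### The clause `lip` for the drawn cells -/

/-- the constant of `CellOK3.lat` -/
noncomputable def latC (p A C₁ D₀ : ℝ) : ℝ :=
  3 * D₀ * (A * (cs p * (26 * C₁ + 12 * C₁ + 1)) + 1)

theorem latC_pos (hp : 2 < p) {A C₁ D₀ : ℝ} (hA : 0 ≤ A) (hC₁ : 0 ≤ C₁) (hD₀ : 1 ≤ D₀) :
    0 < latC p A C₁ D₀ := by
  have := (cs_pos hp).le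
  unfold latC
  have h1 : 0 ≤ A * (cs p * (26 * C₁ + 12 * C₁ + 1)) := by positivity
  have h2 : 0 < 3 * D₀ := by linarith
  nlinarith

/-- **the sup estimate on a drawn cell** -/
theorem CellPre.sup_le (hp : 2 < p) {i : M.ι} {T : ∀ k, FStar (edges M) k} {J : Type*} [Fintype J]
    {Kb : J → V → ℝ} {om : J → ℝ} {a e : ℝ} {f : V → V}
    (H : CellPre B X M p i v z 𝓢 kf T b C₁ C₂ Kb om a e f) (hC₁ : 0 ≤ C₁) (hC₂ : 0 ≤ C₂)
    {B' : ℝ} (hB : 0 ≤ B') (hb : ∀ s ∈ 𝓢, ∀ e, (edges M).seg e ⊆ M.F (kf s) →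
      b (kf s) e ≤ B' * ‖(edges M).b e - (edges M).a e‖)
    (hom : ∀ j, om j * 2 ^ z.1 ≤ B') (he : e ≤ B') (x : V) :
    a * ∑ j, Kb j x + e ≤
      (a * (Fintype.card J * (cs p * (26 * C₁ + 12 * C₂ + 1))) + 1) * B' := by
  have hcs := (cs_pos hp).le
  have h1 : ∀ j, Kb j x ≤ cs p * ((26 * C₁ + 12 * C₂ + 1) * B') := by
    intro j
    refine ((H.piece j).sup (lsup C₁ C₂ B') (by unfold lsup; positivity) (fun s hs y _ => ?_)
      (fun s hs => ?_) x).trans ?_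
    · have h2 := G_le_sup (T (kf s)) (H.hkf s hs) hB hC₁ (hb s hs) y
      unfold lsup
      nlinarith [mul_nonneg hC₂ hB]
    · have h2 := bsum_le_sup (T (kf s)) (H.hkf s hs) hB (hb s hs)
      have h3 : 2 * (C₂ * bsum M (kf s) (b (kf s))) ≤ 2 * (C₂ * (6 * B' / 2 ^ s.1.1)) := by gcongr
      refine h3.trans ?_
      unfold lsup
      have e1 : 2 * (C₂ * (6 * B' / 2 ^ s.1.1)) = (12 * C₂ * B') / 2 ^ s.1.1 := by ring
      rw [e1]
      refine div_le_div_of_nonneg_right ?_ (by positivity)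
      nlinarith [mul_nonneg hC₁ hB]
    · refine mul_le_mul_of_nonneg_left ?_ hcs
      unfold lsup
      linarith [hom j]
  have h2 : ∑ j, Kb j x ≤ Fintype.card J * (cs p * ((26 * C₁ + 12 * C₂ + 1) * B')) := by
    refine (Finset.sum_le_sum fun j _ => h1 j).trans (le_of_eq ?_)
    rw [Finset.sum_const, nsmul_eq_mul, Finset.card_univ]
  have h3 := mul_le_mul_of_nonneg_left h2 H.a0
  calc a * ∑ j, Kb j x + e ≤ a * (Fintype.card J * (cs p * ((26 * C₁ + 12 * C₂ + 1) * B'))) + B' :=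
        add_le_add h3 he
    _ = _ := by ring

/-- **the local Lipschitz estimate on a drawn cell** (the cell need not belong to `Z`): `h` is
`L`-Lipschitz on the cell -/
theorem CellOK3.lat (hp : 2 < p) {i : M.ι} {h f : V → V} {A D₀ lam : ℝ}
    {ε : M.κ → ℝ} {εL : (edges M).ε → ℝ} (hC₁ : 0 ≤ C₁) (hD₀ : 1 ≤ D₀)
    (hlam : ∀ K, (∀ x ∈ M.Q i, ∀ y ∈ M.Q i, ‖h x - h y‖ ≤ K * ‖x - y‖) → lam ≤ K)
    (hεL : ∀ e, (edges M).seg e ⊆ M.Q i → ∀ K,
      (∀ x ∈ M.Q i, ∀ y ∈ M.Q i, ‖h x - h y‖ ≤ K * ‖x - y‖) →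
      εL e ≤ K * ‖(edges M).b e - (edges M).a e‖)
    (H : CellOK3 B X p h f C₁ A D₀ ε εL lam i) {L : ℝ} (hL : 0 ≤ L)
    (hh : ∀ x ∈ M.Q i, ∀ y ∈ M.Q i, ‖h x - h y‖ ≤ L * ‖x - y‖) :
    ∀ x ∈ M.Q i, LAt B X (latC p A C₁ D₀ * L) (M.Q i) f x := by
  obtain ⟨v, z, 𝓢, kf, T, b, J, _, Kb, om, a, e, H, hJ, hb, hb', hom, heT, hel⟩ := H
  have hkQ : ∀ s ∈ 𝓢, M.F (kf s) ⊆ M.Q i := by
    intro s hs x hx
    rw [H.hkf s hs] at hx
    have h1 : x ∈ dyc v z.1 z.2 \ dyo v z.1 z.2 := H.bd.bd_eq.ge (mem_iUnion₂.2 ⟨s, hs, hx⟩)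
    rw [H.hQ]
    exact h1.1
  have hl := hlam L hh
  have hLB : L ≤ 3 * D₀ * L := by nlinarith
  have hB : lam ≤ 3 * D₀ * L := hl.trans hLB
  have he0 := H.e0
  intro x hx
  refine (H.lip x hx).mono ?_ subset_rfl
  refine (CellPre.sup_le hp H hC₁ hC₁ (B' := 3 * D₀ * L) (by positivity)
    (fun s hs e he => num_le (he.trans (hkQ s hs)) (by linarith) hL hh
      (hεL e (he.trans (hkQ s hs)) L hh) (hb' s hs e he))
    (fun j => (hom j).2.trans hB) (by linarith) x).trans ?_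
  unfold latC
  have hcs := (cs_pos hp).le
  have h4 : 0 ≤ cs p * (26 * C₁ + 12 * C₁ + 1) := by positivity
  have h5 : a * (Fintype.card J * (cs p * (26 * C₁ + 12 * C₁ + 1))) ≤
      A * (cs p * (26 * C₁ + 12 * C₁ + 1)) := by
    calc _ = a * Fintype.card J * (cs p * (26 * C₁ + 12 * C₁ + 1)) := by ring
      _ ≤ _ := mul_le_mul_of_nonneg_right hJ h4
  calc _ ≤ (A * (cs p * (26 * C₁ + 12 * C₁ + 1)) + 1) * (3 * D₀ * L) :=
        mul_le_mul_of_nonneg_right (by linarith) (by positivity)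
    _ = _ := by ring

end Vale.Agent.P073.H193
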