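import Vale.Agent.P073.H193.Edg
import Vale.Agent.P073.H238.FatFace
import Vale.Agent.P073.H399.Base
import Vale.Agent.P073.H31.PlRegion
import Vale.Agent.P073.SCH.Cyc

/-!
# P073, A14.3 [CYC]: the boundary of a face is a closed polygon of edges
-/

open Set Metric Topology Filter

namespace Vale.Agent.P073.H193

open Vale.Agent.P073.St (V)
open _root_.P073 (ConHomeo ConBall ConSphere CircleParam)
open Vale.Agent.P073.H73 (Mesh usq Fat)

/-! ### [ADE] -/

/-- **[ADE]** the edges of a face are an adapted family -/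
theorem adapted_ofFace {Ω : Set V} {M : Mesh Ω} (E : Edges M) (k : M.κ) :
    H73.Adapted M k (E.ofFace k) where
  ne := by
    intro e he
    obtain ⟨e', -, rfl⟩ := Finset.mem_image.1 he
    exact E.ne e'
  sub := (E.covers k).1
  cover := (E.covers k).2
  edge := by
    intro e he l ⟨x, hx, hx'⟩
    obtain ⟨e', -, rfl⟩ := Finset.mem_image.1 he
    exact E.sub_of_mem hx' hx

theorem fr_nonempty {F : Set V} (hF : Pgn F) : (intrinsicFrontier ℝ F).Nonempty := by
  obtain ⟨x, hx⟩ := hF.cpt.extremePoints_nonempty hF.nonempty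
  exact ⟨x, hF.ext_sub hx⟩

theorem ofFace_nonempty {Ω : Set V} {M : Mesh Ω} (E : Edges M) (k : M.κ) :
    (E.ofFace k).Nonempty := by
  obtain ⟨x, hx⟩ := fr_nonempty (pgn_of_fat (M.fat k))
  obtain ⟨e, he, -⟩ := mem_iUnion₂.1 ((E.covers k).2 hx)
  exact ⟨e, he⟩

theorem exists_adapted (Ω : Set V) (M : Mesh Ω) (k : M.κ) :
    ∃ E : Finset (V × V), E.Nonempty ∧ H73.Adapted M k E :=
  ⟨(edges M).ofFace k, ofFace_nonempty _ k, adapted_ofFace _ k⟩

/-! ### The relative boundary is a circle -/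

/-- the boundary of the unit square goes to the relative boundary of the face -/
theorem chart_bd {c r : ℝ} {F : Set V} (h : Fat c r F) (φ : ConHomeo usq F) :
    φ.toFun '' _root_.P073.H31.bR = intrinsicFrontier ℝ F := by
  obtain ⟨A⟩ := H238.exists_pface h
  have h1 : ConBall 2 usq _root_.P073.H31.bR := _root_.P073.H31.conBall_Rct
  have h2 : ConBall 2 A.C ((φ.trans A.hom.symm).toFun '' _root_.P073.H31.bR) := by
    have := h1.image (φ.trans A.hom.symm) subset_rfl
    rwa [(φ.trans A.hom.symm).image_eq] at this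
  have h3 := (_root_.P073.SCH.ambDisc_iff.1 (_root_.P073.H399.ambDisc_of_conBall h2)).2
  rw [A.intrinsicFrontier_eq, h3, ← A.hom_toFun, image_image]
  refine image_congr fun x hx => ?_
  exact (A.hom.right_inv (φ.mapsTo (h1.1 hx))).symm

theorem conBall_face {c r : ℝ} {F : Set V} (h : Fat c r F) :
    ConBall 2 F (intrinsicFrontier ℝ F) := by
  obtain ⟨φ, -⟩ := h.chart
  have h1 : ConBall 2 usq _root_.P073.H31.bR := _root_.P073.H31.conBall_Rct
  have := h1.image φ subset_rfl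
  rwa [φ.image_eq, chart_bd h φ] at this

/-- a circle is not contained in a line -/
theorem not_inLine_of_param {Γ : Set V} {γ : ℝ → V} (h : CircleParam Γ γ) : ¬ InLine Γ := by
  rintro ⟨d, hd, hl⟩
  obtain ⟨k, hk⟩ : ∃ k, d k ≠ 0 := by
    by_contra hcon
    push Not at hcon
    exact hd (funext hcon)
  set f : ℝ → ℝ := fun s => γ s k with hf
  have hfc : Continuous f := (continuous_apply k).comp h.cont
  have hfi : ∀ s t, f s = f t → ∃ n : ℤ, s = t + n := by
    intro s t hst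
    apply h.inj
    obtain ⟨c, hc⟩ := hl _ (h.mem s) _ (h.mem t)
    have h1 : c * d k = 0 := by
      have h2 := congrFun hc k
      simp only [Pi.sub_apply, Pi.smul_apply, smul_eq_mul] at h2
      have h3 : γ s k = γ t k := hst
      rw [← h2, h3, sub_self]
    rcases mul_eq_zero.1 h1 with h2 | h2
    · rw [h2, zero_smul] at hc
      exact (sub_eq_zero.1 hc).symm
    · exact absurd h2 hk
  have hf1 : f 1 = f 0 := by
    have := h.periodic 0
    rw [zero_add] at this
    show γ 1 k = γ 0 k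
    rw [this]
  have hne : f 0 ≠ f (1 / 2) := by
    intro he
    obtain ⟨n, hn⟩ := hfi _ _ he
    have h1 : (n:ℝ) = -(1 / 2) := by linarith
    have h2 : (n:ℝ) * 2 = -1 := by linarith
    have h3 : n * 2 = -1 := by exact_mod_cast h2
    omega
  set c := (f 0 + f (1 / 2)) / 2 with hc
  have k1 : ∃ s ∈ Ioo (0:ℝ) (1 / 2), f s = c := by
    have h1 := intermediate_value_uIcc (a := (0:ℝ)) (b := 1 / 2) hfc.continuousOn
    have h2 : c ∈ uIcc (f 0) (f (1 / 2)) := by
      rw [mem_uIcc]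
      rcases le_total (f 0) (f (1 / 2)) with h3 | h3
      · left; constructor <;> linarith
      · right; constructor <;> linarith
    obtain ⟨s, hs, hsc⟩ := h1 h2
    rw [uIcc_of_le (by norm_num)] at hs
    refine ⟨s, ⟨lt_of_le_of_ne hs.1 ?_, lt_of_le_of_ne hs.2 ?_⟩, hsc⟩
    · rintro rfl; exact hne (by linarith)
    · rintro rfl; exact hne (by linarith)
  have k2 : ∃ s ∈ Ioo (1 / 2 : ℝ) 1, f s = c := by
    have h1 := intermediate_value_uIcc (a := (1 / 2:ℝ)) (b := 1) hfc.continuousOn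
    have h2 : c ∈ uIcc (f (1 / 2)) (f 1) := by
      rw [mem_uIcc, hf1]
      rcases le_total (f 0) (f (1 / 2)) with h3 | h3
      · right; constructor <;> linarith
      · left; constructor <;> linarith
    obtain ⟨s, hs, hsc⟩ := h1 h2
    rw [uIcc_of_le (by norm_num)] at hs
    refine ⟨s, ⟨lt_of_le_of_ne hs.1 ?_, lt_of_le_of_ne hs.2 ?_⟩, hsc⟩
    · rintro rfl; exact hne (by linarith)
    · rintro rfl
      rw [hf1] at hsc
      exact hne (by linarith)
  obtain ⟨s, hs, hsc⟩ := k1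
  obtain ⟨t, ht, htc⟩ := k2
  obtain ⟨n, hn⟩ := hfi s t (hsc.trans htc.symm)
  have h1 : (n:ℝ) < 0 := by linarith [hs.2, ht.1]
  have h2 : (-1:ℝ) < n := by linarith [hs.1, ht.2]
  have h3 : n < 0 := by exact_mod_cast h1
  have h4 : -1 < n := by exact_mod_cast h2
  omega

/-! ### Cyclic order -/

/-- closed connected sets tiling a circle, with the intervals of the parametrisation -/
theorem exists_cyc_param {Γ : Set V} {γ : ℝ → V} (hγ : CircleParam Γ γ) {I : Type*} [Fintype I]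
    {n : ℕ} (hn : Fintype.card I = n + 1) {G : I → Set V} (hG : ∀ i, IsClosed (G i))
    (hGc : ∀ i, IsPreconnected (G i)) (hGn : ∀ i, (G i).Nontrivial) (hGΓ : ⋃ i, G i = Γ)
    (hproper : ∀ i, ∃ p ∈ Γ, p ∉ G i)
    (hGG : ∀ i j, i ≠ j → (G i ∩ G j).Subsingleton) :
    ∃ (a b : I → ℝ) (c : Fin (n + 1) ≃ I),
      (∀ i, a i < b i ∧ b i < a i + 1 ∧ G i = γ '' Icc (a i) (b i)) ∧
      ∀ j, γ (b (c j)) = γ (a (c (j + 1))) := by
  classical
  have hsub : ∀ i, G i ⊆ Γ := fun i => hGΓ ▸ subset_iUnion G i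
  have key : ∀ i, ∃ a b : ℝ, 0 ≤ a ∧ a < 1 ∧ a < b ∧ b < a + 1 ∧ G i = γ '' Icc a b :=
    fun i => hγ.exists_Icc (hG i) (hGc i) (hGn i) (hsub i) (hproper i)
  choose a b ha0 ha1 hab hb hGab using key
  have hγne : ∀ s t : ℝ, s < t → t < s + 1 → γ s ≠ γ t := by
    intro s t hst hts h
    obtain ⟨m, hm⟩ := hγ.inj s t h
    have h1 : ((m:ℤ):ℝ) < 0 := by linarith
    have h2 : (-1:ℝ) < ((m:ℤ):ℝ) := by linarith
    have h3 : m < 0 := by exact_mod_cast h1
    have h4 : -1 < m := by exact_mod_cast h2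
    omega
  have hshift : ∀ (j : I) (m : ℤ) (t : ℝ), t ∈ Icc (a j + m) (b j + m) → γ t ∈ G j := by
    intro j m t ht
    rw [hGab j]
    refine ⟨t - m, ⟨by linarith [ht.1], by linarith [ht.2]⟩, ?_⟩
    have := hγ.add_int (t - m) m
    rw [← this]; congr 1; ring
  have hdis : ∀ i j (m : ℤ), (i ≠ j ∨ m ≠ 0) →
      Disjoint (Ioo (a i) (b i)) (Ioo (a j + m) (b j + m)) := by
    intro i j m h
    rw [Set.disjoint_left]
    intro t ht ht'
    by_cases hij : i = j
    · subst hij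
      have hm : m ≠ 0 := h.resolve_left (fun h => h rfl)
      have hbi := hb i
      rcases lt_or_gt_of_ne hm with h1 | h1
      · have h2 : m ≤ -1 := by omega
        have h3 : ((m:ℤ):ℝ) ≤ -1 := by exact_mod_cast h2
        linarith [ht.1, ht'.2]
      · have h2 : 1 ≤ m := by omega
        have h3 : (1:ℝ) ≤ ((m:ℤ):ℝ) := by exact_mod_cast h2
        linarith [ht.2, ht'.1]
    · -- two different points in the intersection
      set s := t + min (b i - t) (b j + m - t) / 2 with hs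
      have hmin : 0 < min (b i - t) (b j + m - t) :=
        lt_min (by linarith [ht.2]) (by linarith [ht'.2])
      have m1 := min_le_left (b i - t) (b j + m - t)
      have m2 := min_le_right (b i - t) (b j + m - t)
      have hts : t < s := by linarith
      refine hγne t s hts ?_ (hGG i j hij ⟨?_, ?_⟩ ⟨?_, ?_⟩)
      · linarith [ht.1, hb i]
      · rw [hGab i]; exact ⟨t, ⟨ht.1.le, ht.2.le⟩, rfl⟩
      · exact hshift j m t ⟨ht'.1.le, ht'.2.le⟩
      · rw [hGab i]; exact ⟨s, ⟨by linarith [ht.1], by linarith⟩, rfl⟩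
      · exact hshift j m s ⟨by linarith [ht'.1], by linarith⟩
  have hcov : ∀ t : ℝ, ∃ i, ∃ m : ℤ, t ∈ Icc (a i + m) (b i + m) := by
    intro t
    have h1 : γ t ∈ ⋃ i, G i := by rw [hGΓ]; exact hγ.mem t
    obtain ⟨i, hi⟩ := mem_iUnion.1 h1
    rw [hGab i] at hi
    obtain ⟨s, hs, hst⟩ := hi
    obtain ⟨m, hm⟩ := hγ.inj t s hst.symm
    exact ⟨i, m, ⟨by linarith [hs.1], by linarith [hs.2]⟩⟩
  obtain ⟨c, -, hbc⟩ := _root_.P073.SCH.exists_cyclic_order hn a b ha0 ha1 hab hdis hcov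
  refine ⟨a, b, c, fun i => ⟨hab i, hb i, hGab i⟩, fun j => ?_⟩
  rw [hbc j]
  by_cases hj : j = Fin.last n
  · rw [if_pos hj]; exact hγ.periodic _
  · rw [if_neg hj, add_zero]

/-- the boundary of the face `k` as a closed polygon: vertices `v`, edges `c` -/
structure Cyc {Ω : Set V} {M : Mesh Ω} (E : Edges M) (k : M.κ) where
  /-- the number of the edges, minus one -/
  n : ℕ
  /-- the vertices -/
  v : Fin (n + 1) → V
  /-- the edges -/
  c : Fin (n + 1) → E.ε
  two : 2 ≤ n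
  seg : ∀ i, E.seg (c i) = segment ℝ (v i) (v (i + 1))
  ends : ∀ i, (v i = E.a (c i) ∧ v (i + 1) = E.b (c i)) ∨ (v i = E.b (c i) ∧ v (i + 1) = E.a (c i))
  vinj : Function.Injective v
  cinj : Function.Injective c
  sub : ∀ i, E.seg (c i) ⊆ M.F k
  surj : ∀ e, E.seg e ⊆ M.F k → ∃ i, c i = e

theorem isClosed_segment (p q : V) : IsClosed (segment ℝ p q) := by
  rw [segment_eq_image_lineMap]
  exact (isCompact_Icc.image AffineMap.lineMap_continuous).isClosed

/-- **[CYC]** -/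
theorem exists_cyc {Ω : Set V} {M : Mesh Ω} (E : Edges M) (k : M.κ) : Nonempty (Cyc E k) := by
  classical
  set Γ := intrinsicFrontier ℝ (M.F k) with hΓ
  have hball : ConBall 2 (M.F k) Γ := conBall_face (M.fat k)
  obtain ⟨γ, hγ⟩ := (_root_.P073.H339.conSphere_iff.1 hball.conSphere).exists_param
  have hnl := not_inLine_of_param hγ
  let I := {e // E.seg e ⊆ M.F k}
  have : Finite I := (E.fin_face k).to_subtype
  have : Fintype I := Fintype.ofFinite I
  let G : I → Set V := fun e => E.seg e.1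
  have hU : ⋃ e, G e = Γ := by
    rw [hΓ, E.fr_eq k]
    ext x
    simp only [mem_iUnion, mem_ofPred_eq, exists_prop]
    exact ⟨fun ⟨e, he⟩ => ⟨e.1, e.2, he⟩, fun ⟨e, he, hx⟩ => ⟨⟨e, he⟩, hx⟩⟩
  have hΓne : Γ.Nonempty := fr_nonempty (pgn_of_fat (M.fat k))
  have hIne : Nonempty I := by
    obtain ⟨x, hx⟩ := hΓne
    rw [← hU] at hx
    obtain ⟨e, -⟩ := mem_iUnion.1 hx
    exact ⟨e⟩
  obtain ⟨n, hn⟩ : ∃ n, Fintype.card I = n + 1 :=
    ⟨Fintype.card I - 1, by have := Fintype.card_pos (α := I); omega⟩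
  have hproper : ∀ i, ∃ p ∈ Γ, p ∉ G i := by
    intro i
    by_contra hcon
    push Not at hcon
    exact hnl ((inLine_segment _ _ (E.ne i.1)).mono hcon)
  have hGG : ∀ i j, i ≠ j → (G i ∩ G j).Subsingleton := by
    intro i j hij x hx y hy
    by_contra hxy
    -- the midpoint of `x`, `y` is an inner point
    have hij' : i.1 ≠ j.1 := fun h => hij (Subtype.ext h)
    have hcon : Convex ℝ (G i ∩ G j) := (convex_segment _ _).inter (convex_segment _ _)
    have hm : (1/2:ℝ) • x + (1/2:ℝ) • y ∈ G i ∩ G j :=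
      hcon hx hy (by norm_num) (by norm_num) (by norm_num)
    have key : ∀ z, z ∈ G i ∩ G j → z = E.a i.1 ∨ z = E.b i.1 := fun z hz =>
      (E.end_of_mem hij' hz.1 hz.2).1
    have hne1 : x ≠ (1/2:ℝ) • x + (1/2:ℝ) • y := by
      intro h
      apply hxy
      have : (1/2:ℝ) • x = (1/2:ℝ) • y := by
        have h2 : (1/2:ℝ) • x + (1/2:ℝ) • x = (1/2:ℝ) • x + (1/2:ℝ) • y := by
          rw [← add_smul]; norm_num; exact_mod_cast h
        exact add_left_cancel h2
      exact smul_right_injective V (by norm_num : (1/2:ℝ) ≠ 0) this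
    have hne2 : y ≠ (1/2:ℝ) • x + (1/2:ℝ) • y := by
      intro h
      apply hxy
      have : (1/2:ℝ) • y = (1/2:ℝ) • x := by
        have h2 : (1/2:ℝ) • y + (1/2:ℝ) • y = (1/2:ℝ) • x + (1/2:ℝ) • y := by
          rw [← add_smul]; norm_num; exact_mod_cast h
        exact add_right_cancel h2
      exact (smul_right_injective V (by norm_num : (1/2:ℝ) ≠ 0) this).symm
    rcases key x hx with h1 | h1 <;> rcases key y hy with h2 | h2 <;> rcases key _ hm with h3 | h3
    · exact hxy (h1.trans h2.symm)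
    · exact hxy (h1.trans h2.symm)
    · exact hne1 (h1.trans h3.symm)
    · exact hne2 (h2.trans h3.symm)
    · exact hne2 (h2.trans h3.symm)
    · exact hne1 (h1.trans h3.symm)
    · exact hxy (h1.trans h2.symm)
    · exact hxy (h1.trans h2.symm)
  obtain ⟨a, b, c, hab, hc⟩ := exists_cyc_param hγ hn (G := G) (fun i => isClosed_segment _ _)
    (fun i => (convex_segment _ _).isPreconnected)
    (fun i => ⟨_, left_mem_segment ℝ _ _, _, right_mem_segment ℝ _ _, E.ne i.1⟩) hU hproper hGG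
  -- at least two edges
  have hn1 : 1 ≤ n := by
    by_contra hcon
    have hn0 : Fintype.card I = 1 := by omega
    obtain ⟨i, hi⟩ := Fintype.card_eq_one_iff.1 hn0
    obtain ⟨p, hp, hpi⟩ := hproper i
    rw [← hU] at hp
    obtain ⟨j, hj⟩ := mem_iUnion.1 hp
    rw [hi j] at hj
    exact hpi hj
  have hne1 : ∀ j : Fin (n + 1), j ≠ j + 1 := by
    intro j h
    have h1 := congrArg Fin.val h
    rw [Fin.val_add_one] at h1
    split_ifs at h1 with h2
    · rw [h2, Fin.val_last] at h1; omega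
    · omega
  have hmema : ∀ i, γ (a i) ∈ G i := fun i => by
    rw [(hab i).2.2]; exact ⟨_, ⟨le_refl _, (hab i).1.le⟩, rfl⟩
  have hmemb : ∀ i, γ (b i) ∈ G i := fun i => by
    rw [(hab i).2.2]; exact ⟨_, ⟨(hab i).1.le, le_refl _⟩, rfl⟩
  have hcne : ∀ j, (c j).1 ≠ (c (j + 1)).1 := fun j h => hne1 j (c.injective (Subtype.ext h))
  have hB : ∀ j, γ (b (c j)) = E.a (c j).1 ∨ γ (b (c j)) = E.b (c j).1 := fun j =>
    (E.end_of_mem (hcne j) (hmemb (c j)) (hc j ▸ hmema (c (j + 1)))).1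
  have hA' : ∀ j, γ (a (c (j + 1))) = E.a (c (j + 1)).1 ∨ γ (a (c (j + 1))) = E.b (c (j + 1)).1 :=
    fun j => (E.end_of_mem (hcne j) (hc j ▸ hmemb (c j)) (hmema (c (j + 1)))).2
  have hA : ∀ j, γ (a (c j)) = E.a (c j).1 ∨ γ (a (c j)) = E.b (c j).1 := by
    intro j
    have := hA' (j - 1)
    rwa [sub_add_cancel] at this
  have hABne : ∀ i, γ (a i) ≠ γ (b i) := by
    intro i h
    obtain ⟨m, hm⟩ := hγ.inj _ _ h
    have h0 := hab i
    have h1 : ((m:ℤ):ℝ) < 0 := by linarith [h0.1]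
    have h2 : (-1:ℝ) < ((m:ℤ):ℝ) := by linarith [h0.2.1]
    have h3 : m < 0 := by exact_mod_cast h1
    have h4 : -1 < m := by exact_mod_cast h2
    omega
  have hends : ∀ j, (γ (a (c j)) = E.a (c j).1 ∧ γ (a (c (j + 1))) = E.b (c j).1) ∨
      (γ (a (c j)) = E.b (c j).1 ∧ γ (a (c (j + 1))) = E.a (c j).1) := by
    intro j
    rw [← hc j]
    rcases hA j with h1 | h1 <;> rcases hB j with h2 | h2
    · exact absurd (h1.trans h2.symm) (hABne _)
    · exact Or.inl ⟨h1, h2⟩
    · exact Or.inr ⟨h1, h2⟩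
    · exact absurd (h1.trans h2.symm) (hABne _)
  have hseg : ∀ j, E.seg (c j).1 = segment ℝ (γ (a (c j))) (γ (a (c (j + 1)))) := by
    intro j
    rcases hends j with ⟨h1, h2⟩ | ⟨h1, h2⟩
    · rw [h1, h2]; rfl
    · rw [h1, h2, segment_symm]; rfl
  -- at least three edges
  have hn2 : 2 ≤ n := by
    by_contra hcon
    have hn' : n = 1 := by omega
    subst hn'
    have h1 := hseg 0
    have h2 := hseg 1
    have e : (1 : Fin 2) + 1 = 0 := rfl
    rw [e, segment_symm] at h2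
    rw [zero_add] at h1
    have h3 : (c 0).1 = (c 1).1 := by
      refine E.eq_of_mem (x := (1/2:ℝ) • E.a (c 0).1 + (1/2:ℝ) • E.b (c 0).1)
        ⟨1/2, 1/2, by norm_num, by norm_num, by norm_num, rfl⟩ ?_
      rw [h2, ← h1]
      exact ⟨1/2, 1/2, by norm_num, by norm_num, by norm_num, rfl⟩
    exact absurd (c.injective (Subtype.ext h3)) (by decide)
  refine ⟨⟨n, fun j => γ (a (c j)), fun j => (c j).1, hn2, hseg, hends, ?_, ?_, fun j => (c j).2,
    fun e he => ⟨c.symm ⟨e, he⟩, by rw [c.apply_symm_apply]⟩⟩⟩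
  · -- injectivity of the vertices
    intro i j hij
    by_contra hne
    have hij' : γ (a (c i)) = γ (a (c j)) := hij
    obtain ⟨m, hm⟩ := hγ.inj _ _ hij'
    -- a common initial interval
    set δ := min (b (c i) - a (c i)) (b (c j) - a (c j)) with hδ
    have hδ0 : 0 < δ := lt_min (by linarith [(hab (c i)).1]) (by linarith [(hab (c j)).1])
    have d1 := min_le_left (b (c i) - a (c i)) (b (c j) - a (c j))
    have d2 := min_le_right (b (c i) - a (c i)) (b (c j) - a (c j))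
    have hx : γ (a (c i) + δ) = γ (a (c j) + δ) := by
      rw [hm]
      have := hγ.add_int (a (c j) + δ) m
      rw [← this]; congr 1; ring
    have h1 : γ (a (c i) + δ) ∈ G (c i) ∩ G (c j) := by
      constructor
      · rw [(hab (c i)).2.2]; exact ⟨_, ⟨by linarith, by linarith⟩, rfl⟩
      · rw [hx, (hab (c j)).2.2]; exact ⟨_, ⟨by linarith, by linarith⟩, rfl⟩
    have h2 : γ (a (c i)) ∈ G (c i) ∩ G (c j) := ⟨hmema _, hij' ▸ hmema _⟩
    have h3 := hGG _ _ (fun h => hne (c.injective h)) h1 h2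
    obtain ⟨m', hm'⟩ := hγ.inj _ _ h3
    have h0 := (hab (c i)).2.1
    have g1 : (0:ℝ) < ((m':ℤ):ℝ) := by linarith
    have g2 : ((m':ℤ):ℝ) < 1 := by linarith
    have g3 : 0 < m' := by exact_mod_cast g1
    have g4 : m' < 1 := by exact_mod_cast g2
    omega
  · intro i j hij
    exact c.injective (Subtype.ext hij)

namespace Cyc

variable {Ω : Set V} {M : Mesh Ω} {E : Edges M} {k : M.κ} (C : Cyc E k)

include C

theorem ne (i : Fin (C.n + 1)) : C.v i ≠ C.v (i + 1) := by
  rcases C.ends i with ⟨h1, h2⟩ | ⟨h1, h2⟩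
  · rw [h1, h2]; exact E.ne _
  · rw [h1, h2]; exact (E.ne _).symm

/-- the relative boundary -/
theorem fr_eq : intrinsicFrontier ℝ (M.F k) = ⋃ i, segment ℝ (C.v i) (C.v (i + 1)) := by
  rw [E.fr_eq k]
  ext x
  simp only [mem_iUnion, mem_ofPred_eq, exists_prop]
  constructor
  · rintro ⟨e, he, hx⟩
    obtain ⟨i, rfl⟩ := C.surj e he
    exact ⟨i, C.seg i ▸ hx⟩
  · rintro ⟨i, hx⟩
    exact ⟨C.c i, C.sub i, (C.seg i).symm ▸ hx⟩

/-- an end point of the edge `c i` is `v i` or `v (i + 1)` -/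
theorem end_eq {i : Fin (C.n + 1)} {x : V} (h : x = E.a (C.c i) ∨ x = E.b (C.c i)) :
    x = C.v i ∨ x = C.v (i + 1) := by
  rcases C.ends i with ⟨h1, h2⟩ | ⟨h1, h2⟩
  · rwa [h1, h2]
  · rw [h1, h2]; exact h.symm

/-- the closed polygon is simple -/
theorem inj {i j : Fin (C.n + 1)} {s t : ℝ} (hs : s ∈ Ico (0:ℝ) 1) (ht : t ∈ Ico (0:ℝ) 1)
    (h : C.v i + s • (C.v (i + 1) - C.v i) = C.v j + t • (C.v (j + 1) - C.v j)) :
    i = j ∧ s = t := by
  have hmem : ∀ (i : Fin (C.n + 1)) {s : ℝ}, s ∈ Ico (0:ℝ) 1 →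
      C.v i + s • (C.v (i + 1) - C.v i) ∈ E.seg (C.c i) := by
    intro i s hs
    rw [C.seg i, segment_eq_image']
    exact ⟨s, ⟨hs.1, hs.2.le⟩, rfl⟩
  have hend : ∀ (i : Fin (C.n + 1)) {s : ℝ}, s ∈ Ico (0:ℝ) 1 →
      C.v i + s • (C.v (i + 1) - C.v i) ≠ C.v (i + 1) := by
    intro i s hs he
    have h1 : (1 - s) • (C.v (i + 1) - C.v i) = 0 := by
      rw [sub_smul, one_smul, sub_eq_zero]
      rw [← sub_eq_iff_eq_add'.2 he.symm]
    rcases smul_eq_zero.1 h1 with h2 | h2
    · linarith [hs.2]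
    · exact C.ne i (sub_eq_zero.1 h2).symm
  by_cases hij : i = j
  · subst hij
    refine ⟨rfl, ?_⟩
    have h1 := add_left_cancel h
    have h2 : (s - t) • (C.v (i + 1) - C.v i) = 0 := by rw [sub_smul, h1, sub_self]
    rcases smul_eq_zero.1 h2 with h3 | h3
    · exact sub_eq_zero.1 h3
    · exact absurd (sub_eq_zero.1 h3).symm (C.ne i)
  · exfalso
    have hc : C.c i ≠ C.c j := fun hc => hij (C.cinj hc)
    have h1 := E.end_of_mem hc (hmem i hs) (h ▸ hmem j ht)
    have h2 := (C.end_eq h1.1).resolve_right (hend i hs)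
    have h3 : C.v i + s • (C.v (i + 1) - C.v i) = C.v j := by
      rcases C.end_eq h1.2 with h4 | h4
      · exact h4
      · rw [h] at h4
        exact absurd h4 (hend j ht)
    exact hij (C.vinj (h2.symm.trans h3))

end Cyc

end Vale.Agent.P073.H193
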