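import Vale.Agent.P073.H193.Edg
import Vale.Agent.P073.H212.Round

/-!
# P073, A14.3: the edges of a mesh as `EdgeCx` of `H212/Round.lean`
-/

open Set Metric Topology Filter

namespace Vale.Agent.P073.H193

open Vale.Agent.P073.St (V)
open Vale.Agent.P073.H73 (Mesh)

namespace Edges

variable {Ω : Set V} {M : Mesh Ω} (E : Edges M)

/-- the vertices -/
def verts : Set V := range E.a ∪ range E.b

theorem mem_verts_of_inter {e e' : E.ε} (hne : e ≠ e') {x : V} (h : x ∈ E.seg e)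
    (h' : x ∈ E.seg e') : x ∈ E.verts := by
  rcases (E.end_of_mem hne h h').1 with rfl | rfl
  · exact Or.inl ⟨e, rfl⟩
  · exact Or.inr ⟨e, rfl⟩

/-- a vertex which is in a face is on an edge of the face -/
theorem vert_face {x : V} (hx : x ∈ E.verts) {k : M.κ} (hk : x ∈ M.F k) :
    ∃ e, E.seg e ⊆ M.F k ∧ x ∈ E.seg e := by
  obtain ⟨e, he⟩ : ∃ e, x ∈ E.seg e := by
    rcases hx with ⟨e, rfl⟩ | ⟨e, rfl⟩
    · exact ⟨e, E.left_mem e⟩
    · exact ⟨e, E.right_mem e⟩
  have hfr : x ∈ intrinsicFrontier ℝ (M.F k) := by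
    rw [(pgn_of_fat (M.fat k)).fr_eq]
    exact ⟨hk, fun h' => Set.disjoint_left.1 (E.rel e k) he h'⟩
  obtain ⟨e', h1, h2⟩ := E.bd k x hfr
  exact ⟨e', h2, h1⟩

/-- **[EDG] => `EdgeCx`** -/
theorem edgeCx : _root_.P073.H212.EdgeCx M.F E.seg E.verts where
  con := fun e => _root_.P073.Convex.conicalSet (convex_segment _ _)
  meet := fun e e' hne x hx => E.mem_verts_of_inter hne hx.1 hx.2
  inter := fun k l hkl => by
    rcases E.inter k l hkl with h | ⟨e, h1, h2⟩ | h
    · exact ⟨∅, by simp, by rw [h]; exact empty_subset _⟩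
    · refine ⟨∅, by simp, fun x hx => Or.inr ?_⟩
      rcases h2 with h2 | h2
      · rw [h2] at hx
        exact Or.inl ⟨e, hx.symm⟩
      · rw [h2] at hx
        exact Or.inr ⟨e, hx.symm⟩
    · refine ⟨{e | E.seg e ⊆ M.F k ∩ M.F l}, fun e he => he, fun x hx => Or.inl ?_⟩
      rw [h] at hx
      exact hx
  vert := fun x hx k hk => E.vert_face hx hk

theorem seg_sub_Ω (e : E.ε) : E.seg e ⊆ Ω := by
  obtain ⟨k, hk⟩ := E.own e
  exact hk.trans (mesh_sub M k)

theorem isCompact_seg (e : E.ε) : IsCompact (E.seg e) := by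
  unfold seg
  rw [segment_eq_image_lineMap]
  exact isCompact_Icc.image AffineMap.lineMap_continuous

/-- the vertices are locally finite -/
theorem verts_finite {K : Set V} (hK : K ⊆ Ω) (hKc : IsCompact K) : (E.verts ∩ K).Finite := by
  have h := E.fin K hK hKc
  refine ((h.image E.a).union (h.image E.b)).subset ?_
  rintro x ⟨⟨e, rfl⟩ | ⟨e, rfl⟩, hx⟩
  · exact Or.inl ⟨e, ⟨_, E.left_mem e, hx⟩, rfl⟩
  · exact Or.inr ⟨e, ⟨_, E.right_mem e, hx⟩, rfl⟩

end Edges

end Vale.Agent.P073.H193
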