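import Vale.Agent.P073.H238.RT0

/-!
# P073, block H193 ([CELL3]): the map `h1` of ROUND T on the protected cells, local form

* `local_of_boxes`: local estimates from estimates in finitely many closed boxes;
* `prot_off`, `prot_v`, `prot_pk`.
-/

open Set Metric Topology Filter

namespace Vale.Agent.P073.H193

open _root_.P073 _root_.P073.Net _root_.P073.PA691 _root_.P073.H236
open _root_.P073.H345 (PK)
open _root_.P073.PR720 (LF)
open _root_.P073.H142 (FStar)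
open Vale.Agent.P073.St (V)
open Vale.Agent.P073.H471 Vale.Agent.P073.H267 Vale.Agent.P073.H267.Geo
open Vale.Agent.P073.H73 (Mesh)
open Vale.Agent.P073.H926
open Vale.Agent.P073.H238.K3

/-- **local estimates from boxes**: off the boxes `g = f`, in the boxes a Lipschitz estimate -/
theorem local_of_boxes {β : Type*} {Λ A : Set V} {TB : β → Set V} {G₀ : Set β} (hlf : LF TB Λ)
    (hcl : ∀ b ∈ G₀, IsClosed (TB b)) {f g : V → V} {x : V} (hx : x ∈ A)
    (hf : ContinuousWithinAt f A x) (hg : ContinuousWithinAt g A x) (hfx : f x ∈ Λ)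
    (hoff : ∀ᶠ y in 𝓝[A] x, (∀ b ∈ G₀, f y ∉ TB b) → g y = f y) {C : ℝ} (hC : 1 ≤ C) {j : Fin 3}
    (hon : ∀ b ∈ G₀, f x ∈ TB b → ∀ᶠ y in 𝓝[A] x, f y ∈ TB b →
      |g y j - g x j| ≤ C * ‖f y - f x‖) :
    ∀ᶠ y in 𝓝[A] x, |g y j - g x j| ≤ C * ‖f y - f x‖ := by
  obtain ⟨U, hU, hfin⟩ := hlf (f x) hfx
  set N := {b | (TB b ∩ U).Nonempty} with hN
  -- near `x` only the boxes which contain `f x`
  have h1 : ∀ᶠ y in 𝓝[A] x, ∀ b ∈ G₀, f y ∈ TB b → f x ∈ TB b := by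
    have h2 : ∀ᶠ y in 𝓝[A] x, ∀ b ∈ N, b ∈ G₀ → f y ∈ TB b → f x ∈ TB b := by
      rw [eventually_all_finite hfin]
      intro b _
      by_cases hb : b ∈ G₀
      · by_cases hxb : f x ∈ TB b
        · exact Eventually.of_forall fun y _ _ => hxb
        · filter_upwards [hf.eventually ((hcl b hb).isOpen_compl.mem_nhds hxb)] with y hy _ hy'
          exact absurd hy' hy
      · exact Eventually.of_forall fun y h => absurd h hb
    filter_upwards [h2, hf.eventually hU] with y h3 h4 b hb hyb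
    exact h3 b ⟨f y, hyb, h4⟩ hb hyb
  have h2 : ∀ᶠ y in 𝓝[A] x, ∀ b ∈ G₀, f x ∈ TB b → f y ∈ TB b →
      |g y j - g x j| ≤ C * ‖f y - f x‖ := by
    have h3 : ∀ᶠ y in 𝓝[A] x, ∀ b ∈ N, b ∈ G₀ → f x ∈ TB b → f y ∈ TB b →
        |g y j - g x j| ≤ C * ‖f y - f x‖ := by
      rw [eventually_all_finite hfin]
      intro b _
      by_cases hb : b ∈ G₀
      · by_cases hxb : f x ∈ TB b
        · filter_upwards [hon b hb hxb] with y hy _ _ hy'
          exact hy hy'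
        · exact Eventually.of_forall fun y _ h => absurd h hxb
      · exact Eventually.of_forall fun y h => absurd h hb
    filter_upwards [h3] with y hy b hb hxb hyb
    exact hy b ⟨f x, hxb, mem_of_mem_nhds hU⟩ hb hxb hyb
  by_cases hfr : ∃ᶠ y in 𝓝[A] x, ∀ b ∈ G₀, f y ∉ TB b
  · -- `g x = f x`
    have hgx : g x = f x := by
      have h3 : ∃ᶠ y in 𝓝[A] x, g y = f y := (hfr.and_eventually hoff).mono fun y hy => hy.2 hy.1
      by_contra hne
      have h4 : Tendsto (fun y => g y - f y) (𝓝[A] x) (𝓝 (g x - f x)) := hg.sub hf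
      have h5 : ∀ᶠ y in 𝓝[A] x, g y - f y ≠ 0 :=
        h4.eventually (isOpen_ne.mem_nhds (sub_ne_zero.2 hne))
      obtain ⟨y, h6, h7⟩ := (h3.and_eventually h5).exists
      exact h7 (sub_eq_zero.2 h6)
    filter_upwards [h1, h2, hoff] with y h3 h4 h5
    by_cases hy : ∃ b ∈ G₀, f y ∈ TB b
    · obtain ⟨b, hb, hyb⟩ := hy
      exact h4 b hb (h3 b hb hyb) hyb
    · push Not at hy
      rw [h5 hy, hgx]
      have := norm_le_pi_norm (f y - f x) j
      rw [Pi.sub_apply, Real.norm_eq_abs] at this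
      have h6 := norm_nonneg (f y - f x)
      nlinarith
  · rw [not_frequently] at hfr
    filter_upwards [h1, h2, hfr] with y h3 h4 h5
    push Not at h5
    obtain ⟨b, hb, hyb⟩ := h5
    exact h4 b hb (h3 b hb hyb) hyb

variable {c₀ n δ : ℝ} {j : ℕ} {Ω Λ : Set V} {v w : V} {ρ : V → ℝ} {M : Mesh Ω} {h : ConHomeo Ω Λ}
  {J₀ J : Set (ℕ × (Fin 3 → ℤ))} {P Z : Set M.ι} {K : BoxCx Λ w}
  {D : KIn3 c₀ n j δ v w ρ M h J₀ J P Z} {C : Cells ρ w K} {E : Edges M}
  {T : ∀ k, FStar E k} {C₀ μ : ℝ} {ε : E.ε → ℝ} {εd : pB C J₀ → ℝ} {La : E.ε → ℝ}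
  {Lf : M.κ → E.ε → ℝ} {Lam1 : M.κ → ℝ} {sl : pB C J₀ → Finset (ℝ × ℝ)} {h1 : ConHomeo Ω Λ}

/-- off the boxes, on the given cells -/
theorem prot_off (O : TOut3 D C E T C₀ μ ε εd La Lf Lam1 sl h1) {i : M.ι} (hi : i ∈ P ∪ Wc D C)
    {x : V} (hx : x ∈ M.Q i) (h0 : ∀ b ∈ pB C J₀, h.toFun x ∉ (D.G C).TB false b) :
    ∀ᶠ y in 𝓝[M.Q i] x, h1.toFun y = h.toFun y := by
  have hf : ContinuousWithinAt h.toFun (M.Q i) x := (h.cont.mono (M.sub i)) x hx
  obtain ⟨U, hU, hfin⟩ := lf_TB (D.G C) (h.toFun x) (h.mapsTo (M.sub i hx))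
  have h2 : ∀ᶠ y in 𝓝[M.Q i] x, ∀ b ∈ {b | ((D.G C).TB false b ∩ U).Nonempty}, b ∈ pB C J₀ →
      h.toFun y ∉ (D.G C).TB false b := by
    rw [eventually_all_finite hfin]
    intro b _
    by_cases hb : b ∈ pB C J₀
    · have hcl : IsClosed ((D.G C).TB false b) := isClosed_Icc
      filter_upwards [hf.eventually (hcl.isOpen_compl.mem_nhds (h0 b hb))] with y hy _
      exact hy
    · exact Eventually.of_forall fun y h => absurd h hb
  filter_upwards [h2, hf.eventually hU, self_mem_nhdsWithin] with y h3 h4 h5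
  exact O.offg i hi y h5 fun b hb hyb => h3 b ⟨_, hyb, h4⟩ hb hyb

/-- **the level coordinate on a protected cell**, `h x` is in one box only -/
theorem prot_v (O : TOut3 D C E T C₀ μ ε εd La Lf Lam1 sl h1) (hC : 1 ≤ C₀) {i : M.ι} (hi : i ∈ P)
    {x : V} (hx : x ∈ M.Q i) {b : TBx K} (hb : b ∈ pB C J₀)
    (h0 : ∀ b' ∈ pB C J₀, b' ≠ b → h.toFun x ∉ (D.G C).TB false b') :
    ∀ᶠ y in 𝓝[M.Q i] x, |h1.toFun y b.ax - h1.toFun x b.ax| ≤ C₀ * ‖h.toFun y - h.toFun x‖ := by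
  have hQ := M.sub i
  refine local_of_boxes (TB := fun b => (D.G C).TB false b) (G₀ := pB C J₀) (lf_TB (D.G C))
    (fun b _ => isClosed_Icc) hx ((h.cont.mono hQ) x hx) ((h1.cont.mono hQ) x hx)
    (h.mapsTo (hQ hx)) ?_ hC fun b' hb' hxb => ?_
  · filter_upwards [self_mem_nhdsWithin] with y hy hyb
    exact O.offg i (Or.inl hi) y hy hyb
  · by_cases e : b' = b
    · subst e
      filter_upwards [self_mem_nhdsWithin] with y hy hyb
      exact O.protv i hi b' hb' y hy x hx hyb hxb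
    · exact absurd hxb (h0 b' hb' e)

/-- **all coordinates on a protected cell near a processed plate** -/
theorem prot_pk (O : TOut3 D C E T C₀ μ ε εd La Lf Lam1 sl h1) (hC : 1 ≤ C₀) {i : M.ι} (hi : i ∈ P)
    {x : V} (hx : x ∈ M.Q i) {s : K.S} (hs : s ∈ pS C J₀)
    (h0 : ∀ᶠ y in 𝓝[M.Q i] x, h.toFun y ∈ PX (D.G C) s) :
    ∀ᶠ y in 𝓝[M.Q i] x, ∀ l, |h1.toFun y l - h1.toFun x l| ≤ C₀ * ‖h.toFun y - h.toFun x‖ := by
  have hQ := M.sub i
  have hxs := h0.self_of_nhdsWithin hx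
  rw [eventually_all]
  intro l
  refine local_of_boxes (TB := fun b => (D.G C).TB false b) (G₀ := pB C J₀) (lf_TB (D.G C))
    (fun b _ => isClosed_Icc) hx ((h.cont.mono hQ) x hx) ((h1.cont.mono hQ) x hx)
    (h.mapsTo (hQ hx)) ?_ hC fun b hb hxb => ?_
  · filter_upwards [self_mem_nhdsWithin] with y hy hyb
    exact O.offg i (Or.inl hi) y hy hyb
  · filter_upwards [self_mem_nhdsWithin, h0] with y hy hys hyb
    by_cases e : l = b.ax
    · subst e
      exact O.protv i hi b hb y hy x hx hyb hxb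
    · rw [O.protu i hi s hs y hy hys b hb hyb l e, O.protu i hi s hs x hx hxs b hb hxb l e]
      have := norm_le_pi_norm (h.toFun y - h.toFun x) l
      rw [Pi.sub_apply, Real.norm_eq_abs] at this
      have h6 := norm_nonneg (h.toFun y - h.toFun x)
      nlinarith

end Vale.Agent.P073.H193
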