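import Vale.Agent.P073.H193.Poly2

/-!
# P073, A14.3 [EDG]: the minimal edges of a mesh
-/

open Set Metric Topology Filter

namespace Vale.Agent.P073.H193

open Vale.Agent.P073.St (V)
open _root_.P073 (ConHomeo)
open Vale.Agent.P073.H73 (Mesh usq Fat)

/-! ### Polygons -/

/-- a convex polygon -/
structure Pgn (F : Set V) : Prop where
  cpt : IsCompact F
  half : ∃ (n : ℕ) (ν : Fin n → V →L[ℝ] ℝ) (t : Fin n → ℝ), F = hs ν t
  plane : ∃ (ν : V →L[ℝ] ℝ) (t : ℝ), ν ≠ 0 ∧ ∀ x ∈ F, ν x = t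
  nl : ¬ InLine F

/-- an exposed part of the boundary which is contained in a line -/
def Ed (F S : Set V) : Prop := ∃ (μ : V →L[ℝ] ℝ) (c : ℝ), (∀ x ∈ F, μ x ≤ c) ∧
  S = {x | x ∈ F ∧ μ x = c} ∧ InLine S ∧ S ⊆ intrinsicFrontier ℝ F

/-- a continuous injective function on a convex set: no point is in the middle -/
theorem no_middle {E : Type*} [NormedAddCommGroup E] [NormedSpace ℝ E] {S : Set E}
    (hS : Convex ℝ S) {f : E → ℝ} (hf : ContinuousOn f S) (hi : InjOn f S) {P Q R : E}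
    (hP : P ∈ S) (hQ : Q ∈ S) (hR : R ∈ S) (hn : R ∉ segment ℝ P Q) :
    ¬ (f P ≤ f R ∧ f R ≤ f Q) := by
  intro h
  have h1 := (convex_segment P Q).isPreconnected.intermediate_value (left_mem_segment ℝ P Q)
    (right_mem_segment ℝ P Q) (hf.mono (hS.segment_subset hP hQ))
  obtain ⟨z, hz, hzR⟩ := h1 h
  have : z = R := hi (hS.segment_subset hP hQ hz) hR hzR
  exact hn (this ▸ hz)

theorem convex_usq : Convex ℝ usq := (convex_Icc 0 1).prod (convex_Icc 0 1)

theorem isCompact_usq : IsCompact usq := isCompact_Icc.prod isCompact_Icc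

/-- the square has no injective continuous function -/
theorem no_inj {f : ℝ × ℝ → ℝ} (hf : ContinuousOn f usq) (hi : InjOn f usq) : False := by
  have hA : ((0:ℝ), (0:ℝ)) ∈ usq := by constructor <;> simp
  have hB : ((1:ℝ), (0:ℝ)) ∈ usq := by constructor <;> simp
  have hC : ((0:ℝ), (1:ℝ)) ∈ usq := by constructor <;> simp
  have nA : ((0:ℝ), (0:ℝ)) ∉ segment ℝ ((1:ℝ), (0:ℝ)) ((0:ℝ), (1:ℝ)) := by
    rintro ⟨a, b, ha, hb, hab, he⟩
    simp only [Prod.smul_mk, smul_eq_mul, mul_one, mul_zero, Prod.mk_add_mk, add_zero, zero_add,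
      Prod.mk.injEq] at he
    linarith [he.1, he.2]
  have nB : ((1:ℝ), (0:ℝ)) ∉ segment ℝ ((0:ℝ), (0:ℝ)) ((0:ℝ), (1:ℝ)) := by
    rintro ⟨a, b, ha, hb, hab, he⟩
    simp only [Prod.smul_mk, smul_eq_mul, mul_one, mul_zero, Prod.mk_add_mk, add_zero, zero_add,
      Prod.mk.injEq] at he
    linarith [he.1, he.2]
  have nC : ((0:ℝ), (1:ℝ)) ∉ segment ℝ ((0:ℝ), (0:ℝ)) ((1:ℝ), (0:ℝ)) := by
    rintro ⟨a, b, ha, hb, hab, he⟩
    simp only [Prod.smul_mk, smul_eq_mul, mul_one, mul_zero, Prod.mk_add_mk, add_zero, zero_add,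
      Prod.mk.injEq] at he
    linarith [he.1, he.2]
  have k1 := no_middle convex_usq hf hi hB hC hA nA
  have k2 := no_middle convex_usq hf hi hC hB hA (by rwa [segment_symm])
  have k3 := no_middle convex_usq hf hi hA hC hB nB
  have k4 := no_middle convex_usq hf hi hC hA hB (by rwa [segment_symm])
  have k5 := no_middle convex_usq hf hi hA hB hC nC
  have k6 := no_middle convex_usq hf hi hB hA hC (by rwa [segment_symm])
  rcases le_total (f (0, 0)) (f (1, 0)) with h1 | h1 <;>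
  rcases le_total (f (1, 0)) (f (0, 1)) with h2 | h2 <;>
  rcases le_total (f (0, 0)) (f (0, 1)) with h3 | h3
  all_goals first
    | exact k1 ⟨h1, h3⟩ | exact k2 ⟨h3, h1⟩ | exact k3 ⟨h1, h2⟩ | exact k4 ⟨h2, h1⟩
    | exact k5 ⟨h3, h2⟩ | exact k6 ⟨h2, h3⟩

/-- **(c1)** the image of the square is not contained in a line -/
theorem not_inLine_of_chart {F : Set V} (φ : ConHomeo usq F) : ¬ InLine F := by
  rintro ⟨d, hd, hl⟩
  obtain ⟨k, hk⟩ : ∃ k, d k ≠ 0 := by
    by_contra hcon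
    push Not at hcon
    exact hd (funext hcon)
  refine no_inj (f := fun x => φ.toFun x k) ?_ ?_
  · exact (continuous_apply k).comp_continuousOn φ.cont
  · intro x hx y hy hxy
    apply φ.injOn hx hy
    obtain ⟨s, hs⟩ := hl _ (φ.mapsTo hx) _ (φ.mapsTo hy)
    have h1 : s * d k = 0 := by
      have := congrFun hs k
      simp only [Pi.sub_apply, Pi.smul_apply, smul_eq_mul] at this
      rw [← this]
      have hxy' : φ.toFun x k = φ.toFun y k := hxy
      rw [hxy', sub_self]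
    rcases mul_eq_zero.1 h1 with h2 | h2
    · rw [h2, zero_smul] at hs
      exact (sub_eq_zero.1 hs).symm
    · exact absurd h2 hk

theorem pgn_of_fat {c r : ℝ} {F : Set V} (h : Fat c r F) : Pgn F where
  cpt := by
    obtain ⟨φ, -⟩ := h.chart
    rw [← φ.image_eq]
    exact isCompact_usq.image_of_continuousOn φ.cont
  half := h.half
  plane := h.plane
  nl := by
    obtain ⟨φ, -⟩ := h.chart
    exact not_inLine_of_chart φ

theorem InLine.of_subsingleton {S : Set V} (h : S.Subsingleton) : InLine S := by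
  refine ⟨fun _ => 1, fun h => ?_, fun x hx y hy => ⟨0, ?_⟩⟩
  · have := congrFun h 0
    norm_num at this
  · rw [h hx hy]; simp

namespace Pgn

variable {F : Set V}

theorem convex (hF : Pgn F) : Convex ℝ F := by
  obtain ⟨n, ν, t, rfl⟩ := hF.half
  exact convex_hs

theorem nonempty (hF : Pgn F) : F.Nonempty := by
  by_contra h
  rw [not_nonempty_iff_eq_empty] at h
  exact hF.nl (InLine.of_subsingleton (h ▸ subsingleton_empty))

theorem fr_eq (hF : Pgn F) : intrinsicFrontier ℝ F = F \ intrinsicInterior ℝ F := by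
  rw [← closure_sdiff_intrinsicInterior, hF.cpt.isClosed.closure_eq]

theorem ed_side {n : ℕ} {ν : Fin n → V →L[ℝ] ℝ} {t : Fin n → ℝ} (hF : Pgn (hs ν t)) {i : Fin n}
    (hi : Act ν t i) : Ed (hs ν t) (side ν t i) := by
  obtain ⟨ν₀, t₀, hν, hpl⟩ := hF.plane
  exact ⟨ν i, t i, fun x hx => hx i, rfl, inLine_side hν hpl hi,
    fun x hx => mem_fr.2 ⟨i, hi, hx⟩⟩

/-- a convex subset off the relative interior is contained in a side -/
theorem exists_ed (hF : Pgn F) {J : Set V} (hJ : Convex ℝ J) (hne : J.Nonempty) (hsub : J ⊆ F)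
    (hd : Disjoint J (intrinsicInterior ℝ F)) : ∃ S, Ed F S ∧ J ⊆ S := by
  obtain ⟨n, ν, t, rfl⟩ := hF.half
  obtain ⟨i, hi, h⟩ := sub_side hJ hne hsub hd
  exact ⟨side ν t i, hF.ed_side hi, h⟩

end Pgn

namespace Ed

variable {F S : Set V}

theorem sub (h : Ed F S) : S ⊆ F := by
  obtain ⟨μ, c, -, rfl, -⟩ := h
  exact fun x hx => hx.1

theorem isExtreme (h : Ed F S) : IsExtreme ℝ F S := by
  obtain ⟨μ, c, h1, rfl, -⟩ := h
  exact isExtreme_eq h1

theorem cpt (h : Ed F S) (hF : Pgn F) : IsCompact S := by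
  obtain ⟨μ, c, h1, rfl, -⟩ := h
  exact hF.cpt.inter_right (isClosed_eq μ.continuous continuous_const)

theorem convex (h : Ed F S) (hF : Pgn F) : Convex ℝ S := by
  obtain ⟨μ, c, h1, rfl, -⟩ := h
  exact hF.convex.inter (convex_hyperplane μ.toLinearMap.isLinear c)

theorem inLine (h : Ed F S) : InLine S := by
  obtain ⟨μ, c, h1, rfl, h2, -⟩ := h
  exact h2

theorem sub_fr (h : Ed F S) : S ⊆ intrinsicFrontier ℝ F := by
  obtain ⟨μ, c, h1, rfl, -, h2⟩ := h
  exact h2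

theorem ext_finite (h : Ed F S) (hF : Pgn F) : (S.extremePoints ℝ).Finite := by
  rcases S.eq_empty_or_nonempty with he | hne
  · rw [he, extremePoints_empty]; exact finite_empty
  · obtain ⟨p, q, hpq⟩ := exists_seg (h.cpt hF) (h.convex hF) hne h.inLine
    rw [hpq]
    exact (toFinite {p, q}).subset (extreme_segment_sub p q)

end Ed

namespace Pgn

variable {F : Set V}

theorem exists_side (hF : Pgn F) {x : V} (hx : x ∈ intrinsicFrontier ℝ F) :
    ∃ p q, p ≠ q ∧ p ∈ F.extremePoints ℝ ∧ q ∈ F.extremePoints ℝ ∧ x ∈ segment ℝ p q ∧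
      segment ℝ p q ⊆ intrinsicFrontier ℝ F := by
  obtain ⟨n, ν, t, rfl⟩ := hF.half
  obtain ⟨i, hi, hxi⟩ := mem_fr.1 hx
  obtain ⟨j, hj, hxj, y, hyj, hyx⟩ := H193.exists_side hF.nl hi hxi
  have hE := hF.ed_side hj
  obtain ⟨p, q, hpq⟩ := exists_seg (hE.cpt hF) (hE.convex hF) ⟨x, hxj⟩ hE.inLine
  have hext := hE.isExtreme.extremePoints_subset_extremePoints
  refine ⟨p, q, ?_, hext (hpq ▸ left_mem_extreme p q), hext (hpq ▸ right_mem_extreme p q),
    hpq ▸ hxj, hpq ▸ hE.sub_fr⟩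
  rintro rfl
  rw [segment_same] at hpq
  rw [hpq] at hxj hyj
  exact hyx (hyj.trans hxj.symm)

/-- a point of the relative interior is not extreme -/
theorem ext_sub (hF : Pgn F) : F.extremePoints ℝ ⊆ intrinsicFrontier ℝ F := by
  intro x hx
  rw [hF.fr_eq]
  refine ⟨hx.1, fun hxi => ?_⟩
  obtain ⟨n, ν, t, rfl⟩ := hF.half
  obtain ⟨y, hy, hyx⟩ : ∃ y ∈ hs ν t, y ≠ x := by
    by_contra hcon
    push Not at hcon
    exact hF.nl (InLine.of_subsingleton fun a ha b hb => (hcon a ha).trans (hcon b hb).symm)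
  have h0 := mem_rel.1 hxi
  have hev : ∀ᶠ ε in 𝓝 (0:ℝ), ∀ j, ν j x < t j → ν j (x + ε • (x - y)) < t j := by
    rw [eventually_all]
    intro j
    by_cases h : ν j x < t j
    · have hc : Continuous fun ε : ℝ => ν j (x + ε • (x - y)) := by fun_prop
      have h1 : ∀ᶠ ε in 𝓝 (0:ℝ), ν j (x + ε • (x - y)) < t j :=
        hc.continuousAt.eventually_lt continuousAt_const (by simpa using h)
      filter_upwards [h1] with ε hε _
      exact hε
    · exact Eventually.of_forall fun ε h' => absurd h' h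
  obtain ⟨ε, hε, hev⟩ := Metric.eventually_nhds_iff.1 hev
  have hev' := hev (y := ε / 2)
    (by rw [Real.dist_eq, sub_zero, abs_of_pos (by positivity)]; linarith)
  have hmem : x + (ε / 2) • (x - y) ∈ hs ν t := by
    intro j
    by_cases hj : Act ν t j
    · exact (hev' j (h0.2 j hj)).le
    · rw [map_add, map_smul, map_sub, eq_of_not_act hj h0.1, eq_of_not_act hj hy, sub_self,
        smul_zero, add_zero]
  refine hyx (hx.2 hy hmem ?_)
  rw [openSegment_eq_image']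
  refine ⟨1 / (1 + ε / 2), ⟨by positivity, ?_⟩, ?_⟩
  · rw [div_lt_one (by positivity)]; linarith
  · have h1 : x + (ε / 2) • (x - y) - y = (1 + ε / 2) • (x - y) := by
      rw [add_smul, one_smul]; abel
    show y + (1 / (1 + ε / 2)) • (x + (ε / 2) • (x - y) - y) = x
    rw [h1, smul_smul, one_div_mul_cancel (by positivity), one_smul, add_sub_cancel]

theorem ext_finite (hF : Pgn F) : (F.extremePoints ℝ).Finite := by
  obtain ⟨n, ν, t, rfl⟩ := hF.half
  have h1 : (hs ν t).extremePoints ℝ ⊆ ⋃ i ∈ {i | Act ν t i}, (side ν t i).extremePoints ℝ := by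
    intro x hx
    obtain ⟨i, hi, hxi⟩ := mem_fr.1 (hF.ext_sub hx)
    exact mem_biUnion hi (inter_extremePoints_subset_extremePoints_of_subset (side_sub i)
      ⟨hxi, hx⟩)
  exact ((toFinite _).biUnion fun i hi => (hF.ed_side hi).ext_finite hF).subset h1

end Pgn

/-! ### Families of polygons -/

/-- a locally finite family of polygons, disjoint up to the boundaries -/
structure Fam {κ : Type*} (F : κ → Set V) : Prop where
  pgn : ∀ k, Pgn (F k)
  dis : ∀ k l, k ≠ l → Disjoint (intrinsicInterior ℝ (F k)) (F l)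
  fin : ∀ k, {l | (F l ∩ F k).Nonempty}.Finite

/-- the vertices -/
def vtx {κ : Type*} (F : κ → Set V) : Set V := {x | ∃ k l, x ∈ (F k ∩ F l).extremePoints ℝ}

/-- the edges: between consecutive vertices, in the boundary of a polygon -/
structure IsEdge {κ : Type*} (F : κ → Set V) (a b : V) : Prop where
  lt : toLex a < toLex b
  ma : a ∈ vtx F
  mb : b ∈ vtx F
  no : Disjoint (openSegment ℝ a b) (vtx F)
  ex : ∃ k, segment ℝ a b ⊆ intrinsicFrontier ℝ (F k)

theorem exists_consec {T : Finset ℝ} (h0 : (0:ℝ) ∈ T) (h1 : (1:ℝ) ∈ T) {s : ℝ} (hs0 : 0 ≤ s)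
    (hs1 : s ≤ 1) : ∃ a ∈ T, ∃ b ∈ T, a < b ∧ a ≤ s ∧ s ≤ b ∧ ∀ c ∈ T, ¬ (a < c ∧ c < b) := by
  rcases hs1.lt_or_eq with hs1 | rfl
  · have hA : (T.filter (· ≤ s)).Nonempty := ⟨0, Finset.mem_filter.2 ⟨h0, hs0⟩⟩
    have hB : (T.filter (s < ·)).Nonempty := ⟨1, Finset.mem_filter.2 ⟨h1, hs1⟩⟩
    have ha := Finset.mem_filter.1 (Finset.max'_mem _ hA)
    have hb := Finset.mem_filter.1 (Finset.min'_mem _ hB)
    refine ⟨_, ha.1, _, hb.1, ha.2.trans_lt hb.2, ha.2, hb.2.le, ?_⟩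
    rintro c hc ⟨h2, h3⟩
    rcases le_or_gt c s with h4 | h4
    · exact absurd (Finset.le_max' _ c (Finset.mem_filter.2 ⟨hc, h4⟩)) (not_le.2 h2)
    · exact absurd (Finset.min'_le _ c (Finset.mem_filter.2 ⟨hc, h4⟩)) (not_le.2 h3)
  · have hA : (T.filter (· < 1)).Nonempty := ⟨0, Finset.mem_filter.2 ⟨h0, zero_lt_one⟩⟩
    have ha := Finset.mem_filter.1 (Finset.max'_mem _ hA)
    refine ⟨_, ha.1, 1, h1, ha.2, ha.2.le, le_refl _, ?_⟩
    rintro c hc ⟨h2, h3⟩
    exact absurd (Finset.le_max' _ c (Finset.mem_filter.2 ⟨hc, h3⟩)) (not_le.2 h2)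

/-- segments in a line -/
theorem seg_sub {S : Set V} (hl : InLine S) {a b u v z : V} (ha : a ∈ S) (hb : b ∈ S) (hu : u ∈ S)
    (hv : v ∈ S) (hz1 : z ∈ openSegment ℝ a b) (hz2 : z ∈ segment ℝ u v) (hab : a ≠ b)
    (hua : u ∉ openSegment ℝ a b) (hva : v ∉ openSegment ℝ a b) :
    segment ℝ a b ⊆ segment ℝ u v := by
  obtain ⟨d, hd, hl⟩ := hl
  set f : ℝ →ᵃ[ℝ] V := AffineMap.lineMap a (a + d) with hf
  have h3 : ∀ s : ℝ, f s = a + s • d := by
    intro s
    rw [hf, AffineMap.lineMap_apply, vsub_eq_sub, vadd_eq_add, add_sub_cancel_left, add_comm]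
  have hfi : Function.Injective f := by
    intro s s' h
    rw [h3, h3] at h
    have h1 : (s - s') • d = 0 := by rw [sub_smul, sub_eq_zero]; exact add_left_cancel h
    rcases smul_eq_zero.1 h1 with h2 | h2
    · exact sub_eq_zero.1 h2
    · exact absurd h2 hd
  have hex : ∀ y ∈ S, ∃ s : ℝ, f s = y := by
    intro y hy
    obtain ⟨s, hs⟩ := hl a ha y hy
    exact ⟨s, by rw [h3, ← hs, add_sub_cancel]⟩
  obtain ⟨α, hα⟩ := hex a ha
  obtain ⟨β, rfl⟩ := hex b hb
  obtain ⟨μ, rfl⟩ := hex u hu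
  obtain ⟨η, rfl⟩ := hex v hv
  rw [← hα] at hz1 hua hva hab ⊢
  rw [← image_openSegment, ] at hz1 hua hva
  rw [← image_segment] at hz2 ⊢
  rw [← image_segment]
  obtain ⟨ζ, hζ1, rfl⟩ := hz1
  obtain ⟨ζ', hζ2, he⟩ := hz2
  rw [hfi he] at hζ2
  refine image_mono ?_
  have hne : α ≠ β := fun h => hab (by rw [h])
  have hμ : μ ∉ openSegment ℝ α β := fun h => hua ⟨μ, h, rfl⟩
  have hη : η ∉ openSegment ℝ α β := fun h => hva ⟨η, h, rfl⟩
  rw [openSegment_eq_Ioo' hne] at hζ1 hμ hη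
  rw [segment_eq_uIcc] at hζ2 ⊢
  rw [segment_eq_uIcc]
  rw [mem_Ioo] at hζ1 hμ hη
  rw [mem_uIcc] at hζ2
  rw [uIcc_subset_uIcc_iff_le]
  push Not at hμ hη
  rcases hζ2 with ⟨h1, h2⟩ | ⟨h1, h2⟩
  · constructor
    · rw [min_eq_left (h1.trans h2)]
      by_contra h
      push Not at h
      have := hμ h
      have := hζ1.2
      linarith
    · rw [max_eq_right (h1.trans h2)]
      have := hη (by have := hζ1.1; linarith)
      exact this
  · constructor
    · rw [min_eq_right (h1.trans h2)]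
      by_contra h
      push Not at h
      have := hη h
      have := hζ1.2
      linarith
    · rw [max_eq_left (h1.trans h2)]
      have := hμ (by have := hζ1.1; linarith)
      exact this

namespace Fam

variable {κ : Type*} {F : κ → Set V}

theorem inter_convex (hF : Fam F) (k l : κ) : Convex ℝ (F k ∩ F l) :=
  (hF.pgn k).convex.inter (hF.pgn l).convex

theorem inter_cpt (hF : Fam F) (k l : κ) : IsCompact (F k ∩ F l) :=
  (hF.pgn k).cpt.inter (hF.pgn l).cpt

/-- the intersection of two polygons is a segment -/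
theorem inter_seg (hF : Fam F) {k l : κ} (hkl : k ≠ l) (hne : (F k ∩ F l).Nonempty) :
    ∃ p q, F k ∩ F l = segment ℝ p q := by
  obtain ⟨S, hS, hJ⟩ := (hF.pgn k).exists_ed (hF.inter_convex k l) hne inter_subset_left
    ((hF.dis k l hkl).symm.mono_left inter_subset_right)
  exact exists_seg (hF.inter_cpt k l) (hF.inter_convex k l) hne (hS.inLine.mono hJ)

theorem inter_ext_finite (hF : Fam F) (k l : κ) : ((F k ∩ F l).extremePoints ℝ).Finite := by
  by_cases hkl : k = l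
  · subst hkl
    rw [inter_self]
    exact (hF.pgn k).ext_finite
  · rcases (F k ∩ F l).eq_empty_or_nonempty with he | hne
    · rw [he, extremePoints_empty]; exact finite_empty
    · obtain ⟨p, q, hpq⟩ := hF.inter_seg hkl hne
      rw [hpq]
      exact (toFinite {p, q}).subset (extreme_segment_sub p q)

theorem vtx_finite (hF : Fam F) (k : κ) : (vtx F ∩ F k).Finite := by
  refine (((hF.fin k).prod (hF.fin k)).biUnion (t := fun i : κ × κ =>
    (F i.1 ∩ F i.2).extremePoints ℝ) fun i _ => hF.inter_ext_finite i.1 i.2).subset ?_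
  rintro x ⟨⟨i, j, hx⟩, hxk⟩
  exact mem_biUnion (x := (i, j)) ⟨⟨x, hx.1.1, hxk⟩, ⟨x, hx.1.2, hxk⟩⟩ hx

theorem ext_vtx (k : κ) {x : V} (hx : x ∈ (F k).extremePoints ℝ) : x ∈ vtx F :=
  ⟨k, k, by rwa [inter_self]⟩

/-- subdivision of a segment between two vertices -/
theorem exists_edge (hF : Fam F) {k : κ} {u v x : V} (huv : u ≠ v) (hu : u ∈ vtx F)
    (hv : v ∈ vtx F) (hsub : segment ℝ u v ⊆ intrinsicFrontier ℝ (F k))
    (hx : x ∈ segment ℝ u v) : ∃ a b, IsEdge F a b ∧ x ∈ segment ℝ a b ∧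
      segment ℝ a b ⊆ segment ℝ u v := by
  set f : ℝ →ᵃ[ℝ] V := AffineMap.lineMap u v with hf
  have hfi : Function.Injective f := AffineMap.lineMap_injective ℝ huv
  have hfs : ∀ s ∈ Icc (0:ℝ) 1, f s ∈ segment ℝ u v := fun s hs => by
    rw [segment_eq_image_lineMap]; exact ⟨s, hs, rfl⟩
  have hFk : segment ℝ u v ⊆ F k := hsub.trans (intrinsicFrontier_subset (hF.pgn k).cpt.isClosed)
  have hT : (Icc (0:ℝ) 1 ∩ f ⁻¹' vtx F).Finite := by
    refine ((hF.vtx_finite k).preimage hfi.injOn).subset ?_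
    rintro s ⟨hs, hs'⟩
    exact ⟨hs', hFk (hfs s hs)⟩
  have hmem : ∀ {s}, s ∈ hT.toFinset ↔ s ∈ Icc (0:ℝ) 1 ∧ f s ∈ vtx F := fun {s} =>
    hT.mem_toFinset
  rw [segment_eq_image_lineMap] at hx
  obtain ⟨s, hs, rfl⟩ := hx
  obtain ⟨a, ha, b, hb, hab, has, hsb, hno⟩ := exists_consec (T := hT.toFinset)
    (hmem.2 ⟨⟨le_refl _, zero_le_one⟩, by rw [hf, AffineMap.lineMap_apply_zero]; exact hu⟩)
    (hmem.2 ⟨⟨zero_le_one, le_refl _⟩, by rw [hf, AffineMap.lineMap_apply_one]; exact hv⟩)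
    hs.1 hs.2
  have ha' := hmem.1 ha
  have hb' := hmem.1 hb
  have hseg : segment ℝ (f a) (f b) = f '' Icc a b := by
    rw [← image_segment, segment_eq_Icc hab.le]
  have hop : openSegment ℝ (f a) (f b) = f '' Ioo a b := by
    rw [← image_openSegment, openSegment_eq_Ioo hab]
  have hsub' : segment ℝ (f a) (f b) ⊆ segment ℝ u v := by
    rw [hseg]
    rintro _ ⟨r, hr, rfl⟩
    exact hfs r ⟨ha'.1.1.trans hr.1, hr.2.trans hb'.1.2⟩
  have hdis : Disjoint (openSegment ℝ (f a) (f b)) (vtx F) := by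
    rw [hop, Set.disjoint_left]
    rintro _ ⟨r, hr, rfl⟩ h
    exact hno r (hmem.2 ⟨⟨ha'.1.1.trans hr.1.le, hr.2.le.trans hb'.1.2⟩, h⟩) ⟨hr.1, hr.2⟩
  have hsx : f s ∈ segment ℝ (f a) (f b) := by
    rw [hseg]; exact ⟨s, ⟨has, hsb⟩, rfl⟩
  rcases lt_or_gt_of_ne (fun h => hab.ne (hfi (toLex.injective h)) : toLex (f a) ≠ toLex (f b))
    with h | h
  · exact ⟨f a, f b, ⟨h, ha'.2, hb'.2, hdis, k, hsub'.trans hsub⟩, hsx, hsub'⟩
  · refine ⟨f b, f a, ⟨h, hb'.2, ha'.2, ?_, k, ?_⟩, ?_, ?_⟩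
    · rw [openSegment_symm]; exact hdis
    · rw [segment_symm]; exact hsub'.trans hsub
    · rw [segment_symm]; exact hsx
    · rw [segment_symm]; exact hsub'

theorem ne_of_edge {a b : V} (h : IsEdge F a b) : a ≠ b := fun he => by
  have := h.lt
  rw [he] at this
  exact lt_irrefl _ this

/-- an edge is contained in an exposed segment -/
theorem edge_ed (hF : Fam F) {a b : V} (h : IsEdge F a b) :
    ∃ k S, Ed (F k) S ∧ segment ℝ a b ⊆ S := by
  obtain ⟨k, hk⟩ := h.ex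
  rw [(hF.pgn k).fr_eq] at hk
  obtain ⟨S, hS, hJ⟩ := (hF.pgn k).exists_ed (convex_segment a b) ⟨a, left_mem_segment ℝ a b⟩
    (hk.trans sdiff_subset) (Set.disjoint_left.2 fun x hx => (hk hx).2)
  exact ⟨k, S, hS, hJ⟩

theorem edge_eq (hF : Fam F) {a b a' b' z : V} (h : IsEdge F a b) (h' : IsEdge F a' b')
    (hz : z ∈ openSegment ℝ a b) (hz' : z ∈ segment ℝ a' b') : a = a' ∧ b = b' := by
  obtain ⟨k, S, hS, hJ⟩ := hF.edge_ed h
  obtain ⟨l, S', hS', hJ'⟩ := hF.edge_ed h'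
  have hSF := hS.sub
  have hSF' := hS'.sub
  -- the common part
  have hzS : z ∈ S := hJ (openSegment_subset_segment ℝ a b hz)
  have hzS' : z ∈ S' := hJ' hz'
  have hcpt : IsCompact (S ∩ S') := (hS.cpt (hF.pgn k)).inter (hS'.cpt (hF.pgn l))
  have hcon : Convex ℝ (S ∩ S') := (hS.convex (hF.pgn k)).inter (hS'.convex (hF.pgn l))
  have hext : IsExtreme ℝ (F k ∩ F l) (S ∩ S') := by
    obtain ⟨μ, c, h1, rfl, -⟩ := hS
    obtain ⟨μ', c', h1', rfl, -⟩ := hS'
    have h2 : IsExtreme ℝ (F k ∩ F l) {x | x ∈ F k ∩ F l ∧ (μ + μ') x = c + c'} := by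
      refine isExtreme_eq fun x hx => ?_
      exact add_le_add (h1 x hx.1) (h1' x hx.2)
    have h3 : {x | x ∈ F k ∧ μ x = c} ∩ {x | x ∈ F l ∧ μ' x = c'} =
        {x | x ∈ F k ∩ F l ∧ (μ + μ') x = c + c'} := by
      ext x
      constructor
      · rintro ⟨⟨h4, h5⟩, h6, h7⟩
        exact ⟨⟨h4, h6⟩, by rw [ContinuousLinearMap.add_apply, h5, h7]⟩
      · rintro ⟨⟨h4, h5⟩, h6⟩
        rw [ContinuousLinearMap.add_apply] at h6
        have h7 := h1 x h4
        have h8 := h1' x h5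
        exact ⟨⟨h4, by linarith⟩, h5, by linarith⟩
    rw [h3]
    exact h2
  obtain ⟨u, v, huv⟩ := exists_seg hcpt hcon ⟨z, hzS, hzS'⟩ (hS.inLine.mono inter_subset_left)
  have hext' := hext.extremePoints_subset_extremePoints
  have hu : u ∈ vtx F := ⟨k, l, hext' (huv ▸ left_mem_extreme u v)⟩
  have hv : v ∈ vtx F := ⟨k, l, hext' (huv ▸ right_mem_extreme u v)⟩
  have hno : ∀ w ∈ vtx F, w ∉ openSegment ℝ a b := fun w hw hw' =>
    Set.disjoint_left.1 h.no hw' hw
  have hno' : ∀ w ∈ vtx F, w ∉ openSegment ℝ a' b' := fun w hw hw' =>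
    Set.disjoint_left.1 h'.no hw' hw
  have huS : u ∈ S := (huv ▸ left_mem_segment ℝ u v : u ∈ S ∩ S').1
  have hvS : v ∈ S := (huv ▸ right_mem_segment ℝ u v : v ∈ S ∩ S').1
  have hab := seg_sub hS.inLine (hJ (left_mem_segment ℝ a b)) (hJ (right_mem_segment ℝ a b)) huS
    hvS hz (huv ▸ ⟨hzS, hzS'⟩) (ne_of_edge h) (hno u hu) (hno v hv)
  rw [← huv] at hab
  have hab' : segment ℝ a b ⊆ S' := hab.trans inter_subset_right
  have hfin := seg_sub hS'.inLine (hab' (left_mem_segment ℝ a b)) (hab' (right_mem_segment ℝ a b))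
    (hJ' (left_mem_segment ℝ a' b')) (hJ' (right_mem_segment ℝ a' b')) hz hz' (ne_of_edge h)
    (hno a' h'.ma) (hno b' h'.mb)
  have key : ∀ w ∈ vtx F, w ∈ segment ℝ a' b' → w = a' ∨ w = b' := by
    intro w hw hw'
    rw [← insert_endpoints_openSegment] at hw'
    rcases hw' with h1 | h1 | h1
    · exact Or.inl h1
    · exact Or.inr h1
    · exact absurd h1 (hno' w hw)
  rcases key a h.ma (hfin (left_mem_segment ℝ a b)) with h1 | h1
  · rcases key b h.mb (hfin (right_mem_segment ℝ a b)) with h2 | h2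
    · exact absurd (h1.trans h2.symm) (ne_of_edge h)
    · exact ⟨h1, h2⟩
  · rcases key b h.mb (hfin (right_mem_segment ℝ a b)) with h2 | h2
    · have h3 := h.lt
      rw [h1, h2] at h3
      exact absurd h3 (lt_asymm h'.lt)
    · exact absurd (h1.trans h2.symm) (ne_of_edge h)

/-- two edges meet in end points -/
theorem edge_meet (hF : Fam F) {a b a' b' : V} (h : IsEdge F a b) (h' : IsEdge F a' b')
    (hne : ¬ (a = a' ∧ b = b')) :
    segment ℝ a b ∩ segment ℝ a' b' ⊆ ({a, b} ∩ {a', b'} : Set V) := by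
  rintro z ⟨hz, hz'⟩
  constructor
  · rw [← insert_endpoints_openSegment] at hz
    rcases hz with h1 | h1 | h1
    · exact Or.inl h1
    · exact Or.inr h1
    · exact absurd (hF.edge_eq h h' h1 hz') hne
  · rw [← insert_endpoints_openSegment] at hz'
    rcases hz' with h1 | h1 | h1
    · exact Or.inl h1
    · exact Or.inr h1
    · have := hF.edge_eq h' h h1 hz
      exact absurd ⟨this.1.symm, this.2.symm⟩ hne

/-- an edge does not meet the relative interior of a polygon -/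
theorem edge_rel (hF : Fam F) {a b : V} (h : IsEdge F a b) (l : κ) :
    Disjoint (segment ℝ a b) (intrinsicInterior ℝ (F l)) := by
  obtain ⟨k, hk⟩ := h.ex
  by_cases hkl : l = k
  · subst hkl
    rw [(hF.pgn l).fr_eq] at hk
    exact Set.disjoint_left.2 fun x hx => (hk hx).2
  · exact ((hF.dis l k hkl).mono_right
      (hk.trans (intrinsicFrontier_subset (hF.pgn k).cpt.isClosed))).symm

theorem exists_edge_of_fr (hF : Fam F) {k : κ} {x : V} (hx : x ∈ intrinsicFrontier ℝ (F k)) :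
    ∃ a b, IsEdge F a b ∧ x ∈ segment ℝ a b ∧ segment ℝ a b ⊆ F k := by
  obtain ⟨p, q, hpq, hp, hq, hx, hsub⟩ := (hF.pgn k).exists_side hx
  obtain ⟨a, b, h, h1, h2⟩ := hF.exists_edge hpq (ext_vtx k hp) (ext_vtx k hq) hsub hx
  exact ⟨a, b, h, h1, h2.trans (hsub.trans (intrinsicFrontier_subset (hF.pgn k).cpt.isClosed))⟩

end Fam

/-! ### The edges of a mesh -/

/-- the edges of a mesh -/
structure Edges {Ω : Set V} (M : Mesh Ω) where
  /-- index set -/
  ε : Type
  /-- first end point -/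
  a : ε → V
  /-- second end point -/
  b : ε → V
  ne : ∀ e, a e ≠ b e
  own : ∀ e, ∃ k, segment ℝ (a e) (b e) ⊆ M.F k
  rel : ∀ e k, Disjoint (segment ℝ (a e) (b e)) (intrinsicInterior ℝ (M.F k))
  bd : ∀ k, ∀ x ∈ intrinsicFrontier ℝ (M.F k),
    ∃ e, x ∈ segment ℝ (a e) (b e) ∧ segment ℝ (a e) (b e) ⊆ M.F k
  meet : ∀ e e', e ≠ e' → segment ℝ (a e) (b e) ∩ segment ℝ (a e') (b e') ⊆
    ({a e, b e} ∩ {a e', b e'} : Set V)
  fin : ∀ K ⊆ Ω, IsCompact K → {e | (segment ℝ (a e) (b e) ∩ K).Nonempty}.Finite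
  inter : ∀ k l, k ≠ l → M.F k ∩ M.F l = ∅ ∨
    (∃ e, segment ℝ (a e) (b e) ⊆ M.F k ∧ (M.F k ∩ M.F l = {a e} ∨ M.F k ∩ M.F l = {b e})) ∨
    M.F k ∩ M.F l = ⋃ e ∈ {e | segment ℝ (a e) (b e) ⊆ M.F k ∩ M.F l}, segment ℝ (a e) (b e)

variable {Ω : Set V}

theorem mesh_sub (M : Mesh Ω) (k : M.κ) : M.F k ⊆ Ω := by
  obtain ⟨i, j, -, h⟩ := M.two k
  exact h.trans (inter_subset_left.trans (M.sub i))

theorem fam_of_mesh (M : Mesh Ω) : Fam M.F where
  pgn := fun k => pgn_of_fat (M.fat k)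
  dis := M.fdisj
  fin := fun k => M.ffin (M.F k) (mesh_sub M k) (pgn_of_fat (M.fat k)).cpt

/-- **[EDG]** -/
noncomputable def edges (M : Mesh Ω) : Edges M where
  ε := {e : V × V // IsEdge M.F e.1 e.2}
  a := fun e => e.1.1
  b := fun e => e.1.2
  ne := fun e => Fam.ne_of_edge e.2
  own := fun e => by
    obtain ⟨k, hk⟩ := e.2.ex
    exact ⟨k, hk.trans (intrinsicFrontier_subset ((fam_of_mesh M).pgn k).cpt.isClosed)⟩
  rel := fun e k => (fam_of_mesh M).edge_rel e.2 k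
  bd := fun k x hx => by
    obtain ⟨a, b, h, h1, h2⟩ := (fam_of_mesh M).exists_edge_of_fr hx
    exact ⟨⟨(a, b), h⟩, h1, h2⟩
  meet := fun e e' hne => (fam_of_mesh M).edge_meet e.2 e'.2 fun h =>
    hne (Subtype.ext (Prod.ext h.1 h.2))
  fin := fun K hK hKc => by
    have h1 : (⋃ k ∈ {k | (M.F k ∩ K).Nonempty}, vtx M.F ∩ M.F k).Finite :=
      (M.ffin K hK hKc).biUnion fun k _ => (fam_of_mesh M).vtx_finite k
    have h2 := (h1.prod h1).preimage (f := fun e : {e : V × V // IsEdge M.F e.1 e.2} => e.1)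
      Subtype.val_injective.injOn
    refine h2.subset ?_
    rintro e ⟨x, hx, hxK⟩
    obtain ⟨k, hk⟩ := e.2.ex
    have hk' := hk.trans (intrinsicFrontier_subset ((fam_of_mesh M).pgn k).cpt.isClosed)
    have hm : k ∈ {k | (M.F k ∩ K).Nonempty} := ⟨x, hk' hx, hxK⟩
    exact ⟨mem_biUnion hm ⟨e.2.ma, hk' (left_mem_segment ℝ _ _)⟩,
      mem_biUnion hm ⟨e.2.mb, hk' (right_mem_segment ℝ _ _)⟩⟩
  inter := fun k l hkl => by
    have hF := fam_of_mesh M
    rcases (M.F k ∩ M.F l).eq_empty_or_nonempty with he | hne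
    · exact Or.inl he
    right
    obtain ⟨p, q, hpq⟩ := hF.inter_seg hkl hne
    have hp : p ∈ vtx M.F := ⟨k, l, hpq ▸ left_mem_extreme p q⟩
    have hq : q ∈ vtx M.F := ⟨k, l, hpq ▸ right_mem_extreme p q⟩
    have hfr : M.F k ∩ M.F l ⊆ intrinsicFrontier ℝ (M.F k) := by
      rw [(hF.pgn k).fr_eq]
      exact fun x hx => ⟨hx.1, fun h => Set.disjoint_left.1 (hF.dis k l hkl) h hx.2⟩
    by_cases h : p = q
    · subst h
      left
      rw [segment_same] at hpq
      obtain ⟨a, b, he, h1, h2⟩ := hF.exists_edge_of_fr (hfr (hpq ▸ mem_singleton p))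
      refine ⟨⟨(a, b), he⟩, h2, ?_⟩
      rw [hpq]
      rw [← insert_endpoints_openSegment] at h1
      rcases h1 with h3 | h3 | h3
      · exact Or.inl (by rw [h3])
      · exact Or.inr (by rw [h3])
      · exact absurd hp fun h4 => Set.disjoint_left.1 he.no h3 h4
    · right
      apply Subset.antisymm
      · intro x hx
        have hsub : segment ℝ p q ⊆ intrinsicFrontier ℝ (M.F k) := hpq ▸ hfr
        obtain ⟨a, b, he, h1, h2⟩ := hF.exists_edge h hp hq hsub (hpq ▸ hx)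
        exact mem_biUnion (x := (⟨(a, b), he⟩ : {e : V × V // IsEdge M.F e.1 e.2}))
          (show segment ℝ a b ⊆ M.F k ∩ M.F l by rw [hpq]; exact h2) h1
      · exact iUnion₂_subset fun e he => he

theorem exists_edges (M : Mesh Ω) : Nonempty (Edges M) := ⟨edges M⟩

namespace Edges

variable {M : Mesh Ω} (E : Edges M)

/-- the edge as a set -/
def seg (e : E.ε) : Set V := segment ℝ (E.a e) (E.b e)

theorem seg_sub_fr {e : E.ε} {k : M.κ} (h : E.seg e ⊆ M.F k) :
    E.seg e ⊆ intrinsicFrontier ℝ (M.F k) := by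
  rw [(pgn_of_fat (M.fat k)).fr_eq]
  exact fun x hx => ⟨h hx, fun h' => Set.disjoint_left.1 (E.rel e k) hx h'⟩

/-- the relative boundary of a face is the union of the edges in it -/
theorem fr_eq (k : M.κ) : intrinsicFrontier ℝ (M.F k) = ⋃ e ∈ {e | E.seg e ⊆ M.F k}, E.seg e := by
  apply Subset.antisymm
  · intro x hx
    obtain ⟨e, h1, h2⟩ := E.bd k x hx
    exact mem_biUnion (show e ∈ {e | E.seg e ⊆ M.F k} from h2) h1
  · exact iUnion₂_subset fun e he => E.seg_sub_fr he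

theorem fin_face (k : M.κ) : {e | E.seg e ⊆ M.F k}.Finite := by
  refine (E.fin (M.F k) (mesh_sub M k) (pgn_of_fat (M.fat k)).cpt).subset ?_
  intro e he
  exact ⟨E.a e, left_mem_segment ℝ _ _, he (left_mem_segment ℝ _ _)⟩

theorem left_mem (e : E.ε) : E.a e ∈ E.seg e := left_mem_segment ℝ _ _

theorem right_mem (e : E.ε) : E.b e ∈ E.seg e := right_mem_segment ℝ _ _

theorem end_of_mem {e e' : E.ε} (hne : e ≠ e') {x : V} (h : x ∈ E.seg e) (h' : x ∈ E.seg e') :
    (x = E.a e ∨ x = E.b e) ∧ (x = E.a e' ∨ x = E.b e') := E.meet e e' hne ⟨h, h'⟩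

/-- an edge which has an inner point in a face is contained in the face -/
theorem sub_of_mem {e : E.ε} {k : M.κ} {x : V} (hx : x ∈ openSegment ℝ (E.a e) (E.b e))
    (hk : x ∈ M.F k) : E.seg e ⊆ M.F k := by
  have hxs : x ∈ E.seg e := openSegment_subset_segment ℝ _ _ hx
  have hfr : x ∈ intrinsicFrontier ℝ (M.F k) := by
    rw [(pgn_of_fat (M.fat k)).fr_eq]
    exact ⟨hk, fun h' => Set.disjoint_left.1 (E.rel e k) hxs h'⟩
  obtain ⟨e', h1, h2⟩ := E.bd k x hfr
  by_cases he : e = e'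
  · rw [he]; exact h2
  · exfalso
    have h3 := (E.end_of_mem he hxs h1).1
    rcases h3 with rfl | rfl
    · rw [left_mem_openSegment_iff] at hx
      exact E.ne e hx
    · rw [right_mem_openSegment_iff] at hx
      exact E.ne e hx

/-- an inner point of an edge is in no other edge -/
theorem eq_of_mem {e e' : E.ε} {x : V} (hx : x ∈ openSegment ℝ (E.a e) (E.b e))
    (h : x ∈ E.seg e') : e = e' := by
  by_contra hne
  have hxs : x ∈ E.seg e := openSegment_subset_segment ℝ _ _ hx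
  rcases (E.end_of_mem hne hxs h).1 with rfl | rfl
  · rw [left_mem_openSegment_iff] at hx
    exact E.ne e hx
  · rw [right_mem_openSegment_iff] at hx
    exact E.ne e hx

/-- the edges of a face, as a finite set of pairs -/
noncomputable def ofFace (k : M.κ) : Finset (V × V) :=
  (E.fin_face k).toFinset.image fun e => (E.a e, E.b e)

theorem covers (k : M.κ) : (∀ e ∈ E.ofFace k, segment ℝ e.1 e.2 ⊆ M.F k) ∧
    intrinsicFrontier ℝ (M.F k) ⊆ ⋃ e ∈ E.ofFace k, segment ℝ e.1 e.2 := by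
  constructor
  · intro e he
    obtain ⟨e', h1, rfl⟩ := Finset.mem_image.1 he
    exact (E.fin_face k).mem_toFinset.1 h1
  · rw [E.fr_eq k]
    refine iUnion₂_subset fun e he => ?_
    refine subset_biUnion_of_mem (u := fun e : V × V => segment ℝ e.1 e.2) (x := (E.a e, E.b e)) ?_
    exact Finset.mem_image.2 ⟨e, (E.fin_face k).mem_toFinset.2 he, rfl⟩

end Edges

end Vale.Agent.P073.H193
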