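import Vale.Agent.P073.H193.Cyc
import Vale.Agent.P073.H73.PostSpec

/-!
# P073, [ADE]: `SpecAde` of `H73/PostSpec.lean`
-/

namespace Vale.Agent.P073.H193

theorem specAde : H73.SpecAde := fun Ω M _ k => exists_adapted Ω M k

end Vale.Agent.P073.H193
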