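import Vale.Agent.P073.H193.Class

/-!
# P073, [PRE-C] (Q4): the minimal squares in the boundary of a cell have total area at most six
times the area of a face
-/

open Set Metric Topology Filter MeasureTheory
open scoped ENNReal

namespace Vale.Agent.P073.H193

open Vale.Agent.P073.St (V)
open Vale.Agent.P073.SQ (ev)
open Vale.Agent.P073.AB Vale.Agent.P073.AB.P86
open _root_.P073.Net (dyc dyo)

/-- the open prism over a square -/
def prism (v : V) (s : Idx × Fin 3) : Set V :=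
  Set.pi univ fun k => if k = s.2 then Ioo (0:ℝ) 1 else
    Ioo (v k + s.1.2 k / 2 ^ s.1.1) (v k + (s.1.2 k + 1) / 2 ^ s.1.1)

theorem measurableSet_prism (v : V) (s : Idx × Fin 3) : MeasurableSet (prism v s) := by
  refine MeasurableSet.univ_pi fun k => ?_
  split_ifs
  · exact measurableSet_Ioo
  · exact measurableSet_Ioo

theorem volume_prism (v : V) (s : Idx × Fin 3) :
    volume (prism v s) = ENNReal.ofReal ((1 / 2 ^ s.1.1) ^ 2) := by
  have h1 : ∀ k : Fin 3, volume (if k = s.2 then Ioo (0:ℝ) 1 else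
      Ioo (v k + s.1.2 k / 2 ^ s.1.1) (v k + (s.1.2 k + 1) / 2 ^ s.1.1)) =
      if k = s.2 then 1 else ENNReal.ofReal (1 / 2 ^ s.1.1) := by
    intro k
    by_cases hk : k = s.2
    · rw [if_pos hk, if_pos hk, Real.volume_Ioo]; simp
    · rw [if_neg hk, if_neg hk, Real.volume_Ioo]
      congr 1
      rw [add_div]; ring
  rw [prism, volume_pi_pi]
  simp only [h1]
  have h2 : ∀ l : Fin 3, (∏ k : Fin 3, if k = l then (1:ℝ≥0∞) else
      ENNReal.ofReal (1 / 2 ^ s.1.1)) = ENNReal.ofReal ((1 / 2 ^ s.1.1) ^ 2) := by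
    intro l
    rw [Fin.prod_univ_three, ENNReal.ofReal_pow (by positivity), sq]
    fin_cases l <;> simp
  exact h2 s.2

theorem prism_rel {v : V} {s : Idx × Fin 3} {x : V} (hx : x ∈ prism v s) :
    Function.update x s.2 (v s.2 + s.1.2 s.2 / 2 ^ s.1.1) ∈ rel v s := by
  refine ⟨by simp, fun k hk => ?_⟩
  have h := hx k (mem_univ k)
  simp only [if_neg hk] at h
  rw [Function.update_of_ne hk]
  exact h

theorem squ_level {v : V} {s S : Idx × Fin 3} (h : squ v s ⊆ squ v S) :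
    v s.2 + (s.1.2 s.2 : ℝ) / 2 ^ s.1.1 = v s.2 + S.1.2 s.2 / 2 ^ S.1.1 := by
  have h1 : sc v s ∈ squ v S := h (rel_sub sc_mem)
  have h2 := h1.1
  have h3 : sc v s s.2 = v s.2 + s.1.2 s.2 / 2 ^ s.1.1 := (sc_mem (v := v) (s := s)).1
  rw [← normal_of_sub h, h3] at h2
  exact h2

theorem prism_sub {v : V} {s S : Idx × Fin 3} (h : squ v s ⊆ squ v S) :
    prism v s ⊆ prism v S := by
  intro x hx k _
  have hk2 := normal_of_sub h
  have hxk := hx k (mem_univ k)
  have hp : (0:ℝ) < 1 / 2 ^ s.1.1 := by positivity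
  by_cases hk : k = s.2
  · simp only [if_pos hk] at hxk
    show x k ∈ if k = S.2 then _ else _
    rw [if_pos (hk.trans hk2)]
    exact hxk
  · simp only [if_neg hk] at hxk
    show x k ∈ if k = S.2 then _ else _
    rw [if_neg (fun h' => hk (h'.trans hk2.symm))]
    have h1 : (fun k => v k + s.1.2 k / 2 ^ s.1.1 : V) ∈ squ v S := h
      ⟨rfl, fun j _ => ⟨le_rfl, by rw [div_add_one]; linarith⟩⟩
    have h2 : (fun k => if k = s.2 then v k + s.1.2 k / 2 ^ s.1.1 else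
        v k + (s.1.2 k + 1) / 2 ^ s.1.1 : V) ∈ squ v S := by
      refine h ⟨by simp, fun j hj => ?_⟩
      simp only [if_neg hj]
      exact ⟨by rw [div_add_one]; linarith, le_rfl⟩
    have h3 := (h1.2 k (fun h' => hk (h'.trans hk2.symm))).1
    have h4 := (h2.2 k (fun h' => hk (h'.trans hk2.symm))).2
    simp only [if_neg hk] at h4
    exact ⟨lt_of_le_of_lt h3 hxk.1, lt_of_lt_of_le hxk.2 h4⟩

/-- nonoverlapping squares in a square -/
theorem area_le {v : V} {S : Idx × Fin 3} {T : Set (Idx × Fin 3)}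
    (hT : ∀ s ∈ T, squ v s ⊆ squ v S)
    (hdis : ∀ s ∈ T, ∀ s' ∈ T, s ≠ s' → Disjoint (rel v s) (rel v s')) :
    ∑' s : T, ENNReal.ofReal ((1 / 2 ^ s.1.1.1) ^ 2) ≤ ENNReal.ofReal ((1 / 2 ^ S.1.1) ^ 2) := by
  have hd : Pairwise (Function.onFun Disjoint fun s : T => prism v s.1) := by
    intro s s' hne
    rw [Function.onFun, Set.disjoint_left]
    intro x hx hx'
    have h1 := prism_rel hx
    have h2 := prism_rel hx'
    have e1 := normal_of_sub (hT s.1 s.2)
    have e2 := normal_of_sub (hT s'.1 s'.2)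
    have e3 := squ_level (hT s.1 s.2)
    have e4 := squ_level (hT s'.1 s'.2)
    rw [e3, e1] at h1
    rw [e4, e2] at h2
    exact Set.disjoint_left.1 (hdis s.1 s.2 s'.1 s'.2 fun h => hne (Subtype.ext h)) h1 h2
  calc ∑' s : T, ENNReal.ofReal ((1 / 2 ^ s.1.1.1) ^ 2)
      = ∑' s : T, volume (prism v s.1) := tsum_congr fun s => (volume_prism v s.1).symm
    _ = volume (⋃ s : T, prism v s.1) :=
        (measure_iUnion hd fun s => measurableSet_prism v s.1).symm
    _ ≤ volume (prism v S) := measure_mono (iUnion_subset fun s => prism_sub (hT s.1 s.2))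
    _ = _ := volume_prism v S

/-- the faces of a cube -/
def faceI (i : Idx) (x : Fin 3 × Bool) : Idx × Fin 3 :=
  ((i.1, Function.update i.2 x.1 (i.2 x.1 + cond x.2 1 0)), x.1)

theorem exists_faceI {s : Idx × Fin 3} {i : Idx} (h : FaceOf s i) : ∃ x, s = faceI i x := by
  obtain ⟨h1, h2, h3⟩ := h
  rcases h2 with h2 | h2
  · refine ⟨(s.2, false), Prod.ext (Prod.ext h1 ?_) rfl⟩
    funext k
    by_cases hk : k = s.2
    · subst hk; simp [faceI, h2]
    · simp [faceI, hk, h3 k hk]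
  · refine ⟨(s.2, true), Prod.ext (Prod.ext h1 ?_) rfl⟩
    funext k
    by_cases hk : k = s.2
    · subst hk; simp [faceI, h2]
    · simp [faceI, hk, h3 k hk]

variable {Ω : Set V} {v : V} {I : Set Idx}

/-- **(Q4)** -/
theorem area_cell (hΩ : IsOpen Ω) (hI : Part Ω v I) {i : Idx} (hi : i ∈ I) :
    ∑' s : {s : Idx × Fin 3 // MinSq v I s ∧ squ v s ⊆ dyc v i.1 i.2},
      ENNReal.ofReal ((1 / 2 ^ s.1.1.1) ^ 2) ≤ ENNReal.ofReal (6 * (1 / 2 ^ i.1) ^ 2) := by
  have key : ∀ s : {s : Idx × Fin 3 // MinSq v I s ∧ squ v s ⊆ dyc v i.1 i.2},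
      ∃ x : Fin 3 × Bool, squ v s.1 ⊆ squ v (faceI i x) := by
    intro s
    have h1 := abseq (bd_pos hI s.2.1 hi s.2.2).1
    have h2 : sc v s.1 s.1.2 = v s.1.2 + s.1.1.2 s.1.2 / 2 ^ s.1.1.1 :=
      (sc_mem (v := v) (s := s.1)).1
    rw [h2] at h1
    obtain ⟨F, hF, -, hsub⟩ := exists_face s.2.2 (h1.imp (fun h => by linarith)
      (fun h => by linarith))
    obtain ⟨x, hx⟩ := exists_faceI hF
    exact ⟨x, hx ▸ hsub⟩
  choose φ hφ using key
  let ψ : {s : Idx × Fin 3 // MinSq v I s ∧ squ v s ⊆ dyc v i.1 i.2} →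
      (x : Fin 3 × Bool) × {s // MinSq v I s ∧ squ v s ⊆ squ v (faceI i x)} :=
    fun s => ⟨φ s, ⟨s.1, s.2.1, hφ s⟩⟩
  have hψ : Function.Injective ψ := by
    intro s s' h
    apply Subtype.ext
    have h1 : (ψ s).2.1 = (ψ s').2.1 := by rw [h]
    exact h1
  calc ∑' s : {s : Idx × Fin 3 // MinSq v I s ∧ squ v s ⊆ dyc v i.1 i.2},
        ENNReal.ofReal ((1 / 2 ^ s.1.1.1) ^ 2)
      = ∑' s, (fun y : (x : Fin 3 × Bool) × {s // MinSq v I s ∧ squ v s ⊆ squ v (faceI i x)} =>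
          ENNReal.ofReal ((1 / 2 ^ y.2.1.1.1) ^ 2)) (ψ s) := rfl
    _ ≤ ∑' y : (x : Fin 3 × Bool) × {s // MinSq v I s ∧ squ v s ⊆ squ v (faceI i x)},
          ENNReal.ofReal ((1 / 2 ^ y.2.1.1.1) ^ 2) := ENNReal.tsum_comp_le_tsum_of_injective hψ _
    _ = ∑' x : Fin 3 × Bool, ∑' s : {s // MinSq v I s ∧ squ v s ⊆ squ v (faceI i x)},
          ENNReal.ofReal ((1 / 2 ^ s.1.1.1) ^ 2) := ENNReal.tsum_sigma' _
    _ ≤ ∑' x : Fin 3 × Bool, ENNReal.ofReal ((1 / 2 ^ (faceI i x).1.1) ^ 2) := by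
        refine ENNReal.tsum_le_tsum fun x => ?_
        exact area_le (T := {s | MinSq v I s ∧ squ v s ⊆ squ v (faceI i x)}) (fun s hs => hs.2)
          (fun s hs s' hs' hne => Set.disjoint_left.2 fun y hy hy' =>
            hne (sq_disj hΩ hI hs.1 hs'.1 hy (rel_sub hy')))
    _ = ENNReal.ofReal (6 * (1 / 2 ^ i.1) ^ 2) := by
        have h1 : ∀ x : Fin 3 × Bool, ENNReal.ofReal ((1 / 2 ^ (faceI i x).1.1 : ℝ) ^ 2) =
            ENNReal.ofReal ((1 / 2 ^ i.1) ^ 2) := fun x => rfl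
        simp only [h1]
        rw [tsum_fintype, Finset.sum_const, Finset.card_univ, ENNReal.ofReal_mul (by norm_num),
          nsmul_eq_mul]
        congr 1
        simp

end Vale.Agent.P073.H193
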