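import Vale.Agent.P073.H193.CellG

/-!
# P073, block H193 ([CELL3]): the bands of a tube

* `tot`: the sum of the bands; `sum_clam_eq`;
* `pieceT'`: the bound of a cell drawn in a tube, with the sum of the bands on the faces.
-/

open Set Metric Topology Filter MeasureTheory
open scoped ENNReal

set_option linter.unusedSectionVars false

namespace Vale.Agent.P073.H193

open _root_.P073 _root_.P073.Net _root_.P073.PA691 _root_.P073.H936 _root_.P073.H936.K3
  _root_.P073.H142 _root_.P073.H880 _root_.P073.H880.RP _root_.P073.H345 _root_.P073.H236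
  _root_.P073.H579 _root_.P073.H919 _root_.P073.H228 _root_.P073.H429
open Vale.Agent.P073
open Vale.Agent.P073.St (V)
open Vale.Agent.P073.AB (Idx squ)
open Vale.Agent.P073.H73 (Mesh)
open Vale.Agent.P073.H471 Vale.Agent.P073.H267
open Vale.Agent.P073.H926
open Vale.Agent.P073.H238.K3 (Zd Wc Act TOut3)
open Vale.Agent.P073.H267.K3
open Vale.Agent.P073.H233 (BdT PSet Xp)

section tot

variable {al be : ℝ} {sl : Finset (ℝ × ℝ)} {μ : ℝ}

/-- the sum of the bands -/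
noncomputable def tot (T : Thn al be sl μ) (t : ℝ) : ℝ :=
  ∑ i : T.I, clam (T.c i - T.w i) (T.c i + T.w i) t

/-- the distance of two points in the bands -/
noncomputable def bds (T : Thn al be sl μ) (t t' : ℝ) : ℝ :=
  ∑ i : T.I, |clam (T.c i - T.w i) (T.c i + T.w i) t - clam (T.c i - T.w i) (T.c i + T.w i) t'|

theorem bds_eq (T : Thn al be sl μ) (t t' : ℝ) : bds T t t' = |tot T t - tot T t'| := by
  unfold bds tot
  rw [← Finset.sum_sub_distrib]
  rcases le_total t t' with h | h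
  · have h1 : ∀ i : T.I, clam (T.c i - T.w i) (T.c i + T.w i) t ≤
        clam (T.c i - T.w i) (T.c i + T.w i) t' := fun i => clam_mono _ _ h
    rw [abs_of_nonpos (Finset.sum_nonpos fun i _ => sub_nonpos.2 (h1 i)), ← Finset.sum_neg_distrib]
    exact Finset.sum_congr rfl fun i _ => abs_of_nonpos (sub_nonpos.2 (h1 i))
  · have h1 : ∀ i : T.I, clam (T.c i - T.w i) (T.c i + T.w i) t' ≤
        clam (T.c i - T.w i) (T.c i + T.w i) t := fun i => clam_mono _ _ h
    rw [abs_of_nonneg (Finset.sum_nonneg fun i _ => sub_nonneg.2 (h1 i))]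
    exact Finset.sum_congr rfl fun i _ => abs_of_nonneg (sub_nonneg.2 (h1 i))

theorem bds_le (T : Thn al be sl μ) (t t' : ℝ) : bds T t t' ≤ |t - t'| := T.sum_clam_le t t'

end tot

variable {Ω Λ : Set V} {v : V} {K : BoxCx Λ v} {S : Rad K} {W : Wid K S} {B : Boxes W}
  {M : Mesh Ω} {γ : Type} {φ : γ → K.G} {sl : γ → Finset (ℝ × ℝ)} {μ : γ → ℝ} {Y : Lat B}
  {T : ∀ b, Thn (eal W (φ b)) (ebe W (φ b)) (sl b) (μ b)} {Zb : γ → Set M.ι}
  {f5 h6 : ConHomeo Ω Λ} {u : V} {p : ℝ}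

/-- **the bound of the box of the tube on a drawn cell**: the clauses of the faces are for the
bands -/
theorem hkT_piece' (H : HkT M Y φ T Zb f5 u) (hΩ : IsOpen Ω) (O : HTube hΩ H.hookIn h6) {b : γ}
    {i : M.ι} (hi : i ∈ Zb b) (hp2 : 2 < p) {𝓢 : Finset (Idx × Fin 3)} (hB : BdT u (H.idx i) 𝓢)
    {kf : Idx × Fin 3 → M.κ} (hkf : ∀ t ∈ 𝓢, M.F (kf t) = squ u t)
    (T' : ∀ k, FStar (edges M) k) {bb : M.κ → (edges M).ε → ℝ} {C₁ C₂ : ℝ}
    (hb : ∀ t ∈ 𝓢, ∀ e, (edges M).seg e ⊆ M.F (kf t) → 0 ≤ bb (kf t) e) (hC₂ : 0 ≤ C₂)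
    (hcl : ∀ t ∈ 𝓢, FaceCl M (kf t) (T' (kf t)) (bb (kf t)) C₁ C₂
      (fun x y => bds (T b) (f5.toFun x (K.dir (φ b))) (f5.toFun y (K.dir (φ b))))) :
    ∃ Kb : V → ℝ, Piece M p i u (H.idx i) 𝓢 kf T' bb C₁ C₂ (T b).hw Kb ∧
      ∀ x ∈ M.Q i, ∀ᶠ y in 𝓝[M.Q i] x, (T b).hw * dsum (tlev T h6.toFun b) x y ≤
        Kb x * ‖y - x‖ := by
  have hQi : M.Q i = dyc u (H.idx i).1 (H.idx i).2 := H.idx_spec hi
  have hfd := faceData_cst ((H.hookIn b).boxK hΩ) (v := u) (𝓢 := 𝓢) (kf := kf) (b := bb)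
    (C₁ := C₁) (C₂ := C₂) (om := (T b).hw) hkf T' hb hC₂
    (cst := fun _ x y => bds (T b) (f5.toFun x (K.dir (φ b))) (f5.toFun y (K.dir (φ b))))
    (fun t ht x hx y hy => by
      have h1 : (T b).hw * dsum (old ((H.hookIn b).boxK hΩ)) x y =
          bds (T b) (f5.toFun x (K.dir (φ b))) (f5.toFun y (K.dir (φ b))) := by
        unfold dsum bds
        rw [Finset.mul_sum]
        refine Finset.sum_congr rfl fun i _ => ?_
        rw [abs_clam_sub ((T b).w_pos i), abs_sub_comm]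
        rfl
      have h2 : 0 ≤ bds (T b) (f5.toFun x (K.dir (φ b))) (f5.toFun y (K.dir (φ b))) :=
        Finset.sum_nonneg fun _ _ => abs_nonneg _
      linarith)
    (fun t ht e he x hx y hy => (hcl t ht).cone e he x hx y hy)
    (fun t ht x hx y hy => by
      obtain ⟨γ', a1, a2, a3, a4, a5⟩ := (hcl t ht).path x (by rw [hkf t ht]; exact hx) y
        (by rw [hkf t ht]; exact hy)
      rw [hkf t ht] at a2
      exact ⟨γ', a1, a2, a3, a4, a5⟩)
  exact cell_piece hp2 hQi hB (HkT.loc O b) (q := ⟨i, hi⟩) rfl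
    (_root_.P073.H142.frontier_dyc' u _ _).symm rfl (T b).hw_pos.le hfd

end Vale.Agent.P073.H193
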