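import Vale.Agent.P073.H193.Ext
import Vale.Agent.P073.H244.Hull

/-!
# P073, block P2h: [FILL], [HULL2]

`fill`: the image of a lattice cube (a box) under a conical homeomorphism is in every closed
convex set (ball) which contains the image of its boundary;
`hull2`: a disc in a lattice square is in every closed convex set (ball) which contains its
circle.
-/

open Set Filter Topology Metric

namespace Vale.Agent.P073.H193

open _root_.P073 (ConHomeo)
open Vale.Agent.P073.St (V)
open Vale.Agent.P073.AB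
open _root_.P073.Net (dyc dyo)
open Vale.Agent.P073.AB.P86 (rel lo lo_same lo_other)

variable {v : V} {Ω Λ : Set V}

/-- the image of a compact set is in every closed convex set which contains the image of its
frontier -/
theorem fill_compact (hΛ : IsOpen Λ) (h : ConHomeo Ω Λ) {C : Set V} (hC : IsCompact C)
    (hCΩ : C ⊆ Ω) {X : Set V} (hX : IsClosed X) (hXc : Convex ℝ X) (hXn : X.Nonempty)
    (hS : ∀ x ∈ frontier C, h.toFun x ∈ X) : ∀ x ∈ C, h.toFun x ∈ X := by
  intro x hx
  refine _root_.P073.H244.image_subset_of_bd h hΛ hC hCΩ (S := frontier C) ?_ hX hXc hXn ?_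
    (mem_image_of_mem _ hx)
  · have : C \ frontier C = interior C := by
      rw [hC.isClosed.frontier_eq, sdiff_sdiff_right_self]
      exact inter_eq_right.2 interior_subset
    rw [this]; exact isOpen_interior
  · rintro _ ⟨y, hy, rfl⟩; exact hS y hy

theorem isCompact_dyc (v : V) (n : ℕ) (z : Fin 3 → ℤ) : IsCompact (dyc v n z) := by
  rw [dyc_eq]; exact isCompact_cbx _ _

theorem frontier_dyc (v : V) (n : ℕ) (z : Fin 3 → ℤ) :
    frontier (dyc v n z) = dyc v n z \ dyo v n z := by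
  rw [dyc_eq, dyo_eq]; exact frontier_cbx

theorem frontier_dyc_nonempty (v : V) (n : ℕ) (z : Fin 3 → ℤ) :
    (frontier (dyc v n z)).Nonempty := by
  rw [frontier_dyc]
  have hp : (0:ℝ) < 1 / 2 ^ n := by positivity
  refine ⟨fun k => v k + z k / 2 ^ n, fun k => ⟨le_rfl, ?_⟩, fun h => ?_⟩
  · rw [add_div]; linarith
  · exact absurd (h 0).1 (lt_irrefl _)

/-- **[FILL]** -/
theorem fill (hΛ : IsOpen Λ) (h : ConHomeo Ω Λ) {n : ℕ} {z : Fin 3 → ℤ} (hz : dyc v n z ⊆ Ω)
    {X : Set V} (hX : IsClosed X) (hXc : Convex ℝ X)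
    (hS : ∀ x ∈ frontier (dyc v n z), h.toFun x ∈ X) : ∀ x ∈ dyc v n z, h.toFun x ∈ X := by
  obtain ⟨a, ha⟩ := frontier_dyc_nonempty v n z
  exact fill_compact hΛ h (isCompact_dyc v n z) hz hX hXc ⟨_, hS a ha⟩ hS

/-- **[FILL]**, ball form -/
theorem fill_ball (hΛ : IsOpen Λ) (h : ConHomeo Ω Λ) {n : ℕ} {z : Fin 3 → ℤ}
    (hz : dyc v n z ⊆ Ω) {y : V} {R : ℝ}
    (hS : h.toFun '' frontier (dyc v n z) ⊆ closedBall y R) :
    h.toFun '' dyc v n z ⊆ closedBall y R := by
  rintro _ ⟨x, hx, rfl⟩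
  exact fill hΛ h hz isClosed_closedBall (convex_closedBall y R)
    (fun a ha => hS (mem_image_of_mem _ ha)) x hx

/-- **[FILL]** for a lattice box -/
theorem fill_box (hΛ : IsOpen Λ) (h : ConHomeo Ω Λ) {a b : V} (hab : ∀ k, a k < b k)
    (hz : cbx a b ⊆ Ω) {X : Set V} (hX : IsClosed X) (hXc : Convex ℝ X)
    (hS : ∀ x ∈ cbx a b \ obx a b, h.toFun x ∈ X) : ∀ x ∈ cbx a b, h.toFun x ∈ X := by
  have h1 : a ∈ cbx a b \ obx a b := ⟨fun k => ⟨le_rfl, (hab k).le⟩, fun h => lt_irrefl _ (h 0).1⟩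
  refine fill_compact hΛ h (isCompact_cbx a b) hz hX hXc ⟨_, hS a h1⟩ ?_
  rw [frontier_cbx]; exact hS

/-- **[HULL2]**: a disc in the open lattice square is in every closed convex set which contains
its circle -/
theorem hull2_convex {s : Idx × Fin 3} {E κ : Set V} (hE : IsCompact E) (hEs : E ⊆ rel v s)
    (hEU : ∃ U, IsOpen U ∧ E \ κ = squ v s ∩ U) {X : Set V} (hX : IsClosed X)
    (hXc : Convex ℝ X) (hκ : κ ∩ E ⊆ X) : E ⊆ X := by
  obtain ⟨U, hU, hEq⟩ := hEU
  -- small moves in the plane of the square stay in `E`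
  have hmove : ∀ y ∈ E, y ∉ κ → ∀ w : V, w s.2 = 0 → ∃ t : ℝ, 0 < t ∧ y + t • w ∈ E := by
    intro y hy hyκ w hw
    have hyr := hEs hy
    have hyU : y ∈ U := by
      have : y ∈ squ v s ∩ U := hEq ▸ (⟨hy, hyκ⟩ : y ∈ E \ κ)
      exact this.2
    have hS : y ∈ slab v s := rel_sub_slab hyr
    have hcont : Filter.Tendsto (fun t : ℝ => y + t • w) (𝓝[>] 0) (𝓝 y) := by
      have : Continuous fun t : ℝ => y + t • w := by fun_prop
      have h1 := this.tendsto 0
      simp only [zero_smul, add_zero] at h1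
      exact h1.mono_left nhdsWithin_le_nhds
    have hev := hcont.eventually (((isOpen_slab v s).inter hU).mem_nhds ⟨hS, hyU⟩)
    obtain ⟨t, ⟨ht1, ht2⟩, ht0⟩ := (hev.and self_mem_nhdsWithin).exists
    refine ⟨t, ht0, ?_⟩
    have hpl : (y + t • w) s.2 = v s.2 + s.1.2 s.2 / 2 ^ s.1.1 := by
      simp only [Pi.add_apply, Pi.smul_apply, hw, smul_zero, add_zero]; exact hyr.1
    have hrel : y + t • w ∈ rel v s := by
      rcases ht1 with (h | h) | h
      · exact h
      · have := (h s.2).1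
        rw [hpl] at this; exact absurd this (lt_irrefl _)
      · have := (h s.2).2
        rw [hpl, lo_same] at this; push_cast at this
        rw [sub_add_cancel] at this; exact absurd this (lt_irrefl _)
    have : y + t • w ∈ squ v s ∩ U := ⟨P86.rel_sub hrel, ht2⟩
    rw [← hEq] at this; exact this.1
  intro x hx
  by_contra hxX
  -- the circle is not empty
  obtain ⟨j, hj⟩ : ∃ j : Fin 3, j ≠ s.2 := exists_ne s.2
  obtain ⟨a, ha, hamax⟩ := hE.exists_isMaxOn ⟨x, hx⟩ (f := fun y : V => y j)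
    (continuous_apply j).continuousOn
  have haκ : a ∈ κ := by
    by_contra hc
    obtain ⟨t, ht, hmem⟩ := hmove a ha hc (Pi.single j 1) (by simp [hj.symm])
    have h1 := hamax hmem
    simp only [mem_ofPred_eq, Pi.add_apply, Pi.smul_apply, Pi.single_eq_same, smul_eq_mul,
      mul_one] at h1
    linarith
  have haX : a ∈ X := hκ ⟨haκ, ha⟩
  obtain ⟨f, u, hf1, hf2⟩ := geometric_hahn_banach_closed_point hXc hX hxX
  obtain ⟨y, hy, hmax⟩ := hE.exists_isMaxOn ⟨x, hx⟩ f.continuous.continuousOn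
  have hfy : u < f y := hf2.trans_le (hmax hx)
  have hyκ : y ∉ κ := fun hc => (hf1 y (hκ ⟨hc, hy⟩)).not_gt hfy
  have h1 := hf1 a haX
  -- move from `y` in the direction away from `a`
  obtain ⟨t, ht, hmem⟩ := hmove y hy hyκ (y - a) (by
    rw [Pi.sub_apply, (hEs hy).1, (hEs ha).1, sub_self])
  have h2 := hmax hmem
  simp only [mem_ofPred_eq, map_add, map_smul, map_sub, smul_eq_mul] at h2
  have h3 : 0 < t * (f y - f a) := mul_pos ht (by linarith)
  linarith

/-- **[HULL2]**, ball form -/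
theorem hull2 {s : Idx × Fin 3} {E κ : Set V} (hE : IsCompact E) (hEs : E ⊆ rel v s)
    (hEU : ∃ U, IsOpen U ∧ E \ κ = squ v s ∩ U) {o : V} {R : ℝ} (hκ : κ ⊆ closedBall o R) :
    E ⊆ closedBall o R :=
  hull2_convex hE hEs hEU isClosed_closedBall (convex_closedBall o R)
    (inter_subset_left.trans hκ)

end Vale.Agent.P073.H193
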