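import Vale.Agent.P073.H83.SqRel
import Vale.Agent.P073.H233.Bd2
import Vale.Agent.P073.H193.Fill

/-!
# P073, block H193 ([BDT-M]): the squares on the boundary of a dyadic cell of a mesh

`exists_bdT`: the faces of a dyadic cell, which are dyadic squares, tile its boundary (`H233.BdT`).
-/

open Set Metric Topology Filter

namespace Vale.Agent.P073.H193

open Vale.Agent.P073.St (V)
open Vale.Agent.P073.AB (Idx squ FaceOf)
open Vale.Agent.P073.AB.P86 (sc rel sc_mem rel_sub)
open Vale.Agent.P073.H73 (Mesh)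
open Vale.Agent.P073.H233 (BdT)
open _root_.P073.Net (dyc dyo)

variable {Ω : Set V} {M : Mesh Ω} {v : V} {z : Idx}

/-- no face has a point in the interior of a cell -/
theorem face_not_int (M : Mesh Ω) (k : M.κ) (i : M.ι) {x : V} (hx : x ∈ M.F k) :
    x ∉ interior (M.Q i) := by
  intro hi
  obtain ⟨a, b, hab, hF⟩ := M.two k
  by_cases h : a = i
  · subst h
    exact Set.disjoint_left.1 (M.disj a b hab) hi (hF hx).2
  · exact Set.disjoint_left.1 (M.disj i a (Ne.symm h)) hi (hF hx).1

/-- a square in a cube, with centre on the boundary, is in a side of the cube -/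
theorem exists_sideOf {s : Idx × Fin 3} (hsub : squ v s ⊆ dyc v z.1 z.2)
    (hb : sc v s ∉ dyo v z.1 z.2) : ∃ t, FaceOf t z ∧ squ v s ⊆ squ v t := by
  have hc : sc v s ∈ dyc v z.1 z.2 := hsub (rel_sub sc_mem)
  obtain ⟨l, hl⟩ : ∃ l, sc v s l = v l + z.2 l / 2 ^ z.1 ∨
      sc v s l = v l + (z.2 l + 1) / 2 ^ z.1 := by
    by_contra hcon
    push Not at hcon
    exact hb fun k => ⟨lt_of_le_of_ne (hc k).1 (hcon k).1.symm,
      lt_of_le_of_ne (hc k).2 (hcon k).2⟩
  -- the direction is the normal of the square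
  have hls : l = s.2 := by
    by_contra hne
    have hrel := (sc_mem (v := v) (s := s)).2 l hne
    have h1 : Function.update (sc v s) l (v l + s.1.2 l / 2 ^ s.1.1) ∈ squ v s := by
      refine ⟨?_, fun k hk => ?_⟩
      · rw [Function.update_of_ne (Ne.symm hne)]
        exact (sc_mem (v := v) (s := s)).1
      · by_cases hkl : k = l
        · subst hkl
          rw [Function.update_self]
          exact ⟨le_rfl, (hrel.1.trans hrel.2).le⟩
        · rw [Function.update_of_ne hkl]
          have := (sc_mem (v := v) (s := s)).2 k hk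
          exact ⟨this.1.le, this.2.le⟩
    have h2 : Function.update (sc v s) l (v l + (s.1.2 l + 1) / 2 ^ s.1.1) ∈ squ v s := by
      refine ⟨?_, fun k hk => ?_⟩
      · rw [Function.update_of_ne (Ne.symm hne)]
        exact (sc_mem (v := v) (s := s)).1
      · by_cases hkl : k = l
        · subst hkl
          rw [Function.update_self]
          exact ⟨(hrel.1.trans hrel.2).le, le_rfl⟩
        · rw [Function.update_of_ne hkl]
          have := (sc_mem (v := v) (s := s)).2 k hk
          exact ⟨this.1.le, this.2.le⟩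
    have h3 := hsub h1 l
    have h4 := hsub h2 l
    rw [Function.update_self] at h3 h4
    rcases hl with hl | hl
    · linarith [h3.1, hrel.1]
    · linarith [h4.2, hrel.2]
  subst hls
  have key : ∀ x ∈ squ v s, x s.2 = sc v s s.2 := fun x hx => by
    rw [hx.1, (sc_mem (v := v) (s := s)).1]
  rcases hl with hl | hl
  · refine ⟨(z, s.2), ⟨rfl, Or.inl rfl, fun j _ => rfl⟩, fun x hx => ⟨?_, fun k hk => hsub hx k⟩⟩
    show x s.2 = v s.2 + z.2 s.2 / 2 ^ z.1
    rw [key x hx, hl]
  · refine ⟨((z.1, Function.update z.2 s.2 (z.2 s.2 + 1)), s.2), ⟨rfl, Or.inr (by simp),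
      fun j hj => by simp [show j ≠ s.2 from hj]⟩, fun x hx => ⟨?_, fun k hk => ?_⟩⟩
    · show x s.2 = v s.2 + (Function.update z.2 s.2 (z.2 s.2 + 1) s.2 : ℤ) / 2 ^ z.1
      rw [Function.update_self, key x hx, hl]
      push_cast
      rfl
    · show v k + (Function.update z.2 s.2 (z.2 s.2 + 1) k : ℤ) / 2 ^ z.1 ≤ x k ∧
        x k ≤ v k + ((Function.update z.2 s.2 (z.2 s.2 + 1) k : ℤ) + 1) / 2 ^ z.1
      rw [Function.update_of_ne (show k ≠ s.2 from hk)]
      exact hsub hx k

/-- a square is the closure of its relative interior -/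
theorem squ_sub_closure (v : V) (t : Idx × Fin 3) : squ v t ⊆ closure (rel v t) := by
  intro x hx
  have hc := sc_mem (v := v) (s := t)
  have hcont : Continuous fun a : ℝ => (1 - a) • x + a • sc v t := by fun_prop
  have h0 : Tendsto (fun a : ℝ => (1 - a) • x + a • sc v t) (𝓝[>] 0) (𝓝 x) := by
    have h1 := (hcont.tendsto 0).mono_left (nhdsWithin_le_nhds (s := Ioi (0:ℝ)))
    simpa using h1
  refine mem_closure_of_tendsto h0 ?_
  have h1 : ∀ᶠ a : ℝ in 𝓝[>] 0, a ∈ Ioo (0:ℝ) 1 := Ioo_mem_nhdsGT one_pos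
  filter_upwards [h1] with a ha
  refine ⟨?_, fun k hk => ?_⟩
  · show (1 - a) * x t.2 + a * sc v t t.2 = _
    rw [hx.1, hc.1]; ring
  · show _ < (1 - a) * x k + a * sc v t k ∧ (1 - a) * x k + a * sc v t k < _
    obtain ⟨h2, h3⟩ := hx.2 k hk
    obtain ⟨h4, h5⟩ := hc.2 k hk
    constructor <;> nlinarith [ha.1, ha.2]

/-- two sides of a cube with a common point in the relative interior of one are equal -/
theorem side_unique {t t' : Idx × Fin 3} (ht : FaceOf t z) (ht' : FaceOf t' z) {x : V}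
    (hx : x ∈ rel v t) (hx' : x ∈ squ v t') : squ v t' = squ v t := by
  obtain ⟨e1, h1, h2⟩ := ht
  obtain ⟨e1', h1', h2'⟩ := ht'
  have hp : (0:ℝ) < 1 / 2 ^ z.1 := by positivity
  have hd : t'.2 = t.2 := by
    by_contra hne
    have h3 := hx.2 t'.2 hne
    have h4 := hx'.1
    rw [h2 _ hne, e1] at h3
    rw [e1'] at h4
    rw [h4] at h3
    rcases h1' with h | h
    · rw [h] at h3
      exact absurd h3.1 (lt_irrefl _)
    · rw [h] at h3
      push_cast at h3
      exact absurd h3.2 (lt_irrefl _)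
  have h5 : t'.1.2 t.2 = t.1.2 t.2 := by
    have h3 := hx.1
    have h4 := hx'.1
    rw [hd, e1', h3, e1] at h4
    have h6 : (t.1.2 t.2 : ℝ) / 2 ^ z.1 = t'.1.2 t.2 / 2 ^ z.1 := by linarith
    have h7 := (div_left_inj' (show ((2:ℝ) ^ z.1) ≠ 0 by positivity)).1 h6
    exact_mod_cast h7.symm
  have h8 : t'.1.2 = t.1.2 := by
    funext j
    by_cases hj : j = t.2
    · rw [hj, h5]
    · rw [h2 j hj, h2' j (by rw [hd]; exact hj)]
  have : t' = t := Prod.ext (Prod.ext (e1'.trans e1.symm) h8) hd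
  rw [this]

open Classical in
/-- **the squares of a dyadic cell** -/
theorem exists_bdT {i : M.ι} (hQ : M.Q i = dyc v z.1 z.2)
    (hF : ∀ k, M.F k ⊆ M.Q i → ∃ s, M.F k = squ v s) :
    ∃ (𝓢 : Finset (Idx × Fin 3)) (kf : Idx × Fin 3 → M.κ), BdT v z 𝓢 ∧
      (∀ s ∈ 𝓢, M.F (kf s) = squ v s) ∧ (∀ k, M.F k ⊆ M.Q i → ∃ s ∈ 𝓢, kf s = k) ∧
      𝓢.Nonempty := by
  -- the faces of the cell
  have hfin : {k | M.F k ⊆ M.Q i}.Finite := by
    refine (M.ffin (M.Q i) (M.sub i) (M.poly i).cpt).subset fun k hk => ?_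
    obtain ⟨x, hx⟩ : (M.F k).Nonempty := by
      obtain ⟨s, hs⟩ := hF k hk
      rw [hs]; exact ⟨_, rel_sub sc_mem⟩
    exact ⟨x, hx, hk hx⟩
  have hsq : ∀ k : {k // M.F k ⊆ M.Q i}, ∃ s, M.F k.1 = squ v s := fun k => hF k.1 k.2
  choose sq hsq using hsq
  have : Fintype {k // M.F k ⊆ M.Q i} := hfin.fintype
  obtain ⟨x₀, hx₀⟩ : (frontier (M.Q i)).Nonempty := by
    rw [hQ]; exact frontier_dyc_nonempty _ _ _
  obtain ⟨k₀, -, hk₀⟩ := M.bd i x₀ hx₀
  set 𝓢 : Finset (Idx × Fin 3) := Finset.univ.image sq with h𝓢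
  set kf : Idx × Fin 3 → M.κ := fun s =>
    if h : ∃ k : {k // M.F k ⊆ M.Q i}, sq k = s then h.choose.1 else k₀ with hkf
  have hmem : ∀ s ∈ 𝓢, ∃ k : {k // M.F k ⊆ M.Q i}, sq k = s := fun s hs => by
    obtain ⟨k, -, hk⟩ := Finset.mem_image.1 hs
    exact ⟨k, hk⟩
  have hkfs : ∀ s ∈ 𝓢, M.F (kf s) = squ v s := by
    intro s hs
    have h := hmem s hs
    simp only [hkf, dif_pos h]
    rw [hsq h.choose, h.choose_spec]
  -- different faces are different squares
  have hinj : ∀ k l : {k // M.F k ⊆ M.Q i}, (rel v (sq k) ∩ squ v (sq l)).Nonempty → k = l := by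
    rintro k l ⟨x, hx, hx'⟩
    by_contra hne
    have h1 := M.fdisj k.1 l.1 fun h => hne (Subtype.ext h)
    rw [hsq k, hsq l, H83.intrinsicInterior_squ] at h1
    exact Set.disjoint_left.1 h1 hx hx'
  have hkk : ∀ k : {k // M.F k ⊆ M.Q i}, kf (sq k) = k.1 := by
    intro k
    have h : ∃ k', sq k' = sq k := ⟨k, rfl⟩
    simp only [hkf, dif_pos h]
    have h1 : h.choose = k := hinj _ _ ⟨sc v (sq k), by rw [h.choose_spec]; exact sc_mem,
      rel_sub sc_mem⟩
    rw [h1]
  -- every square is in a side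
  have hside : ∀ k : {k // M.F k ⊆ M.Q i}, ∃ t, FaceOf t z ∧ squ v (sq k) ⊆ squ v t := by
    intro k
    refine exists_sideOf ?_ ?_
    · rw [← hsq k, ← hQ]; exact k.2
    · rw [← H83.interior_dyc, ← hQ]
      exact face_not_int M k.1 i (by rw [hsq k]; exact rel_sub sc_mem)
  refine ⟨𝓢, kf, ⟨fun s hs => ?_, fun t ht x hx => ?_, fun s hs s' hs' h => ?_⟩, hkfs,
    fun k hk => ⟨sq ⟨k, hk⟩, Finset.mem_image_of_mem _ (Finset.mem_univ _), hkk ⟨k, hk⟩⟩,
    ⟨sq ⟨k₀, hk₀⟩, Finset.mem_image_of_mem _ (Finset.mem_univ _)⟩⟩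
  · obtain ⟨k, rfl⟩ := hmem s hs
    exact hside k
  · -- the relative interior of the side is covered by the squares in the side
    set A : Set V := ⋃ k ∈ {k : {k // M.F k ⊆ M.Q i} | squ v (sq k) ⊆ squ v t}, squ v (sq k)
      with hA
    have hcl : IsClosed A := (Set.toFinite _).isClosed_biUnion fun k _ =>
      (H83.isCompact_squ' v (sq k)).isClosed
    have hrel : rel v t ⊆ A := by
      intro y hy
      have hyQ : y ∈ frontier (M.Q i) := by
        have h1 : y ∈ squ v t := rel_sub hy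
        have h2 : y ∈ dyc v z.1 z.2 ∧ y ∉ dyo v z.1 z.2 := by
          obtain ⟨e1, h3, h4⟩ := ht
          have hp : (0:ℝ) < 1 / 2 ^ z.1 := by positivity
          have hyn := h1.1
          rw [e1] at hyn
          constructor
          · intro k
            by_cases hk : k = t.2
            · subst hk
              rw [hyn]
              rcases h3 with h | h
              · rw [h, add_div]; constructor <;> linarith
              · rw [h]; push_cast
                rw [add_div]; constructor <;> linarith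
            · have := h1.2 k hk
              rw [h4 k hk, e1] at this
              exact this
          · intro hyo
            have := hyo t.2
            rw [hyn] at this
            rcases h3 with h | h
            · rw [h] at this
              exact absurd this.1 (lt_irrefl _)
            · rw [h] at this
              push_cast at this
              exact absurd this.2 (lt_irrefl _)
        rw [hQ, frontier_dyc]
        exact h2
      obtain ⟨k, hk1, hk2⟩ := M.bd i y hyQ
      obtain ⟨t', ht', hst'⟩ := hside ⟨k, hk2⟩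
      have hyk : y ∈ squ v (sq ⟨k, hk2⟩) := by
        have := hsq ⟨k, hk2⟩
        change M.F k = _ at this
        rw [← this]; exact hk1
      have h5 := side_unique ht ht' hy (hst' hyk)
      exact mem_iUnion₂.2 ⟨⟨k, hk2⟩, hst'.trans h5.le, hyk⟩
    have hx2 : x ∈ A := hcl.closure_subset_iff.2 hrel (squ_sub_closure v t hx)
    obtain ⟨k, hk, hxk⟩ := mem_iUnion₂.1 hx2
    exact ⟨sq k, Finset.mem_image_of_mem _ (Finset.mem_univ _), hxk, hk⟩
  · obtain ⟨k, rfl⟩ := hmem s hs
    obtain ⟨l, rfl⟩ := hmem s' hs'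
    obtain ⟨x, hx, hx'⟩ := h
    rw [hinj k l ⟨x, hx, rel_sub hx'⟩]

end Vale.Agent.P073.H193
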