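import Mathlib

/-!
# P073, block P2h: by-pass

A connected set stays connected when one removes a locally finite family of relatively open
pieces whose relative frontiers are connected: `bypass`.
-/

open Set Filter Topology

namespace Vale.Agent.P073.H193

section

variable {α : Type*} [TopologicalSpace α] {ι : Type*}

/-- a point in the closure of a locally finite union is in one of the closures -/
theorem mem_closure_iUnion_of_lf {G : ι → Set α} {S : Set ι} {x : α}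
    (hlf : ∃ W ∈ 𝓝 x, {i | (G i ∩ W).Nonempty}.Finite) (hx : x ∈ closure (⋃ i ∈ S, G i)) :
    ∃ i ∈ S, x ∈ closure (G i) := by
  obtain ⟨W, hW, hfin⟩ := hlf
  have h1 : x ∈ closure ((⋃ i ∈ S, G i) ∩ W) :=
    mem_closure_iff_nhds.2 fun t ht => by
      obtain ⟨y, hy1, hy2⟩ := mem_closure_iff_nhds.1 hx (t ∩ W) (inter_mem ht hW)
      exact ⟨y, hy1.1, hy2, hy1.2⟩
  have h2 : (⋃ i ∈ S, G i) ∩ W ⊆ ⋃ i ∈ {i | (G i ∩ W).Nonempty} ∩ S, G i := by
    rintro y ⟨hy, hyW⟩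
    obtain ⟨i, hi, hyi⟩ := mem_iUnion₂.1 hy
    exact mem_iUnion₂.2 ⟨i, ⟨⟨y, hyi, hyW⟩, hi⟩, hyi⟩
  have h3 := closure_mono h2 h1
  rw [(hfin.subset inter_subset_left).closure_biUnion] at h3
  obtain ⟨i, hi, hxi⟩ := mem_iUnion₂.1 h3
  exact ⟨i, hi.2, hxi⟩

/-- **by-pass**: remove from the preconnected set `X` a locally finite family of disjoint
relatively open pieces `G i`, each with a preconnected set `C i` containing its relative
frontier and missing all the pieces -/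
theorem bypass {X : Set α} {G C : ι → Set α} (hX : IsPreconnected X)
    (hlf : ∀ x ∈ X, ∃ W ∈ 𝓝 x, {i | (G i ∩ W).Nonempty}.Finite)
    (hG : ∀ i, ∃ U, IsOpen U ∧ G i = X ∩ U)
    (hd : ∀ i j, i ≠ j → Disjoint (G i) (G j))
    (hC : ∀ i, IsPreconnected (C i))
    (hCX : ∀ i, C i ⊆ X \ ⋃ j, G j)
    (hcl : ∀ i, X ∩ closure (G i) ⊆ G i ∪ C i) : IsPreconnected (X \ ⋃ i, G i) := by
  classical
  choose O hO hGO using hG
  rw [isPreconnected_iff_subset_of_disjoint]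
  intro U V hU hV hsub hdis
  set Y := X \ ⋃ i, G i with hY
  have hcol : ∀ i, C i ⊆ U ∨ C i ⊆ V := fun i =>
    (isPreconnected_iff_subset_of_disjoint.1 (hC i)) U V hU hV ((hCX i).trans hsub)
      (subset_eq_empty (inter_subset_inter_left _ (hCX i)) hdis)
  -- the two colours
  set P : Set ι := {i | C i ⊆ U} with hP
  set Q : Set ι := {i | ¬ C i ⊆ U} with hQ
  have hQV : ∀ i ∈ Q, C i ⊆ V := fun i hi => (hcol i).resolve_left hi
  set A : Set α := (U ∩ (closure (⋃ i ∈ Q, G i))ᶜ) ∪ ⋃ i ∈ P, O i with hA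
  set B : Set α := (V ∩ (closure (⋃ i ∈ P, G i))ᶜ) ∪ ⋃ i ∈ Q, O i with hB
  have hAo : IsOpen A := (hU.inter isClosed_closure.isOpen_compl).union
    (isOpen_biUnion fun i _ => hO i)
  have hBo : IsOpen B := (hV.inter isClosed_closure.isOpen_compl).union
    (isOpen_biUnion fun i _ => hO i)
  have hYG : ∀ y ∈ Y, ∀ i, y ∉ G i := fun y hy i hi => hy.2 (mem_iUnion.2 ⟨i, hi⟩)
  have hUV : ∀ y ∈ Y, y ∈ U → y ∈ V → False := fun y hy h1 h2 => by
    have : y ∈ Y ∩ (U ∩ V) := ⟨hy, h1, h2⟩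
    rw [hdis] at this; exact this
  -- points of `Y ∩ U` are away from the pieces of the other colour
  have hYU : ∀ y ∈ Y, y ∈ U → y ∉ closure (⋃ i ∈ Q, G i) := by
    intro y hy hyU hcy
    obtain ⟨i, hi, hyi⟩ := mem_closure_iUnion_of_lf (hlf y hy.1) hcy
    rcases hcl i ⟨hy.1, hyi⟩ with h | h
    · exact hYG y hy i h
    · exact hUV y hy hyU (hQV i hi h)
  have hYV : ∀ y ∈ Y, y ∈ V → y ∉ closure (⋃ i ∈ P, G i) := by
    intro y hy hyV hcy
    obtain ⟨i, hi, hyi⟩ := mem_closure_iUnion_of_lf (hlf y hy.1) hcy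
    rcases hcl i ⟨hy.1, hyi⟩ with h | h
    · exact hYG y hy i h
    · exact hUV y hy (hi h) hyV
  have hXA : ∀ x ∈ X, x ∈ A → (x ∈ Y ∧ x ∈ U) ∨ ∃ i ∈ P, x ∈ G i := by
    rintro x hx (⟨h1, h2⟩ | h)
    · by_cases hxY : x ∈ ⋃ i, G i
      · obtain ⟨i, hi⟩ := mem_iUnion.1 hxY
        by_cases hiP : i ∈ P
        · exact Or.inr ⟨i, hiP, hi⟩
        · exact absurd (subset_closure (mem_iUnion₂.2 ⟨i, hiP, hi⟩)) h2
      · exact Or.inl ⟨⟨hx, hxY⟩, h1⟩
    · obtain ⟨i, hi, hxi⟩ := mem_iUnion₂.1 h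
      exact Or.inr ⟨i, hi, by rw [hGO i]; exact ⟨hx, hxi⟩⟩
  have hXB : ∀ x ∈ X, x ∈ B → (x ∈ Y ∧ x ∈ V) ∨ ∃ i ∈ Q, x ∈ G i := by
    rintro x hx (⟨h1, h2⟩ | h)
    · by_cases hxY : x ∈ ⋃ i, G i
      · obtain ⟨i, hi⟩ := mem_iUnion.1 hxY
        by_cases hiP : i ∈ P
        · exact absurd (subset_closure (mem_iUnion₂.2 ⟨i, hiP, hi⟩)) h2
        · exact Or.inr ⟨i, hiP, hi⟩
      · exact Or.inl ⟨⟨hx, hxY⟩, h1⟩
    · obtain ⟨i, hi, hxi⟩ := mem_iUnion₂.1 h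
      exact Or.inr ⟨i, hi, by rw [hGO i]; exact ⟨hx, hxi⟩⟩
  have hcov : X ⊆ A ∪ B := by
    intro x hx
    by_cases hxY : x ∈ ⋃ i, G i
    · obtain ⟨i, hi⟩ := mem_iUnion.1 hxY
      have hi' : x ∈ O i := by rw [hGO i] at hi; exact hi.2
      by_cases hiP : i ∈ P
      · exact Or.inl (Or.inr (mem_iUnion₂.2 ⟨i, hiP, hi'⟩))
      · exact Or.inr (Or.inr (mem_iUnion₂.2 ⟨i, hiP, hi'⟩))
    · have hy : x ∈ Y := ⟨hx, hxY⟩
      rcases hsub hy with h | h
      · exact Or.inl (Or.inl ⟨h, hYU x hy h⟩)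
      · exact Or.inr (Or.inl ⟨h, hYV x hy h⟩)
  have hAB : X ∩ (A ∩ B) = ∅ := by
    rw [eq_empty_iff_forall_notMem]
    rintro x ⟨hx, hxA, hxB⟩
    rcases hXA x hx hxA with ⟨h1, h2⟩ | ⟨i, hi, hxi⟩
    · rcases hXB x hx hxB with ⟨_, h4⟩ | ⟨j, _, hxj⟩
      · exact hUV x h1 h2 h4
      · exact hYG x h1 j hxj
    · rcases hXB x hx hxB with ⟨h3, _⟩ | ⟨j, hj, hxj⟩
      · exact hYG x h3 i hxi
      · have hij : i ≠ j := fun h => hj (h ▸ hi)
        exact disjoint_left.1 (hd i j hij) hxi hxj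
  rcases (isPreconnected_iff_subset_of_disjoint.1 hX) A B hAo hBo hcov hAB with h | h
  · left
    intro y hy
    rcases hXA y hy.1 (h hy.1) with ⟨_, h2⟩ | ⟨i, _, hyi⟩
    · exact h2
    · exact absurd hyi (hYG y hy i)
  · right
    intro y hy
    rcases hXB y hy.1 (h hy.1) with ⟨_, h2⟩ | ⟨i, _, hyi⟩
    · exact h2
    · exact absurd hyi (hYG y hy i)

/-- by-pass for finitely many pieces -/
theorem bypass_fin [Finite ι] {X : Set α} {G C : ι → Set α} (hX : IsPreconnected X)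
    (hG : ∀ i, ∃ U, IsOpen U ∧ G i = X ∩ U)
    (hd : ∀ i j, i ≠ j → Disjoint (G i) (G j))
    (hC : ∀ i, IsPreconnected (C i))
    (hCX : ∀ i, C i ⊆ X \ ⋃ j, G j)
    (hcl : ∀ i, X ∩ closure (G i) ⊆ G i ∪ C i) : IsPreconnected (X \ ⋃ i, G i) :=
  bypass hX (fun _ _ => ⟨univ, univ_mem, Set.toFinite _⟩) hG hd hC hCX hcl

/-- by-pass of open sets with preconnected frontiers -/
theorem bypass_open {X : Set α} {G : ι → Set α} (hX : IsPreconnected X)
    (hlf : ∀ x ∈ X, ∃ W ∈ 𝓝 x, {i | (G i ∩ W).Nonempty}.Finite)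
    (hG : ∀ i, IsOpen (G i)) (hGX : ∀ i, closure (G i) ⊆ X)
    (hd : ∀ i j, i ≠ j → Disjoint (G i) (G j))
    (hC : ∀ i, IsPreconnected (frontier (G i))) :
    IsPreconnected (X \ ⋃ i, G i) := by
  refine bypass hX hlf (fun i => ⟨G i, hG i, ?_⟩) hd hC (fun i x hx => ?_) fun i x hx => ?_
  · exact (inter_eq_right.2 (subset_closure.trans (hGX i))).symm
  · refine ⟨hGX i (frontier_subset_closure hx), fun h => ?_⟩
    obtain ⟨j, hj⟩ := mem_iUnion.1 h
    rcases eq_or_ne i j with rfl | hij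
    · rw [(hG i).frontier_eq] at hx; exact hx.2 hj
    · exact disjoint_left.1 ((hd i j hij).closure_left (hG j)) (frontier_subset_closure hx) hj
  · by_cases h : x ∈ G i
    · exact Or.inl h
    · right; rw [(hG i).frontier_eq]; exact ⟨hx.2, h⟩

end

end Vale.Agent.P073.H193
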