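import Vale.Agent.P073.H193.CellPre
import Vale.Agent.P073.H193.BdMesh

/-!
# P073, block H193 ([CELL3], part c): tiny numbers, clauses of the faces, one box

* `CellD`: the squares of a dyadic cell and the number below which everything is tiny;
  `exists_cellD`;
* `FaceCl`: the cone and path clauses of a face for a cost; `FaceCl.of_lip` (similarity);
* `cellOK3_of_box`, `cellOK3_of_vertex`.
-/

open Set Metric Topology Filter MeasureTheory
open scoped ENNReal

namespace Vale.Agent.P073.H193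

open _root_.P073.PA691 _root_.P073.TM
open Vale.Agent.P073.St (V)
open Vale.Agent.P073.AB (Idx squ)
open Vale.Agent.P073.H73 (onSeg Mesh Adapted sqr)
open Vale.Agent.P073.H233 (BdT fInt ZS cp LAt CellPre CellOK3 Adm)
open Vale.Agent.P073
open Vale.Agent.P073.H155 (vv ce)
open Vale.Agent.P073.H471
open _root_.P073 (ConHomeo coneSetAt)
open _root_.P073.H142 (FStar Num)
open _root_.P073.H880 (cvar dsum)
open _root_.P073.H950 (bsum bsum_nonneg Tiny)
open _root_.P073.Net (len dyc dyo)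

variable {Ω Λ : Set V} {M : Mesh Ω} {w : V} {K : BoxCx Λ w} {S : Rad K} {W : Wid K S}
  {B : Boxes W} {X : H233.PSet K} {p C₁ C₂ : ℝ} {v : V} {z : Idx} {𝓢 : Finset (Idx × Fin 3)}
  {kf : Idx × Fin 3 → M.κ} {b : M.κ → (edges M).ε → ℝ}

/-! ### Tiny numbers -/

/-- a dyadic cube determines its index -/
theorem idx_unique {z z' : Idx} (h : dyc v z.1 z.2 = dyc v z'.1 z'.2) : z = z' := by
  have h1 := _root_.P073.H950.dyc_gen_eq h
  obtain ⟨m, a⟩ := z
  obtain ⟨m', a'⟩ := z'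
  simp only at h1 h
  subst h1
  have key : ∀ a a' : Fin 3 → ℤ, dyc v m a = dyc v m a' → ∀ k, a' k ≤ a k := by
    intro a a' h k
    have hp : (0:ℝ) < 2 ^ m := by positivity
    have h2 : (fun k => v k + a k / 2 ^ m) ∈ dyc v m a := fun k =>
      ⟨le_rfl, by rw [add_div]; linarith [show (0:ℝ) < 1 / 2 ^ m by positivity]⟩
    rw [h] at h2
    have h3 := (h2 k).1
    have h4 : (a' k : ℝ) / 2 ^ m ≤ a k / 2 ^ m := by
      change v k + (a' k : ℝ) / 2 ^ m ≤ v k + a k / 2 ^ m at h3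
      linarith
    exact_mod_cast (div_le_div_iff_of_pos_right hp).1 h4
  have : a = a' := funext fun k => le_antisymm (key a' a h.symm k) (key a a' h k)
  rw [this]

/-- the squares of the dyadic cell `i`, and a number `tin` below which everything is tiny -/
structure CellD (M : Mesh Ω) (p : ℝ) (b : M.κ → (edges M).ε → ℝ) (lam : ℝ) (i : M.ι) (v : V)
    (z : Idx) (𝓢 : Finset (Idx × Fin 3)) (kf : Idx × Fin 3 → M.κ) (tin : ℝ) : Prop where
  hQ : M.Q i = dyc v z.1 z.2
  bd : BdT v z 𝓢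
  hkf : ∀ s ∈ 𝓢, M.F (kf s) = squ v s
  all : ∀ k, M.F k ⊆ M.Q i → ∃ s ∈ 𝓢, kf s = k
  pos : 0 < tin
  tiny : ∀ x, 0 ≤ x → x ≤ tin → Tiny M p z 𝓢 kf b x ∧ x * 2 ^ z.1 ≤ lam

theorem CellD.sub {i : M.ι} {lam tin : ℝ} (D : CellD M p b lam i v z 𝓢 kf tin) :
    ∀ s ∈ 𝓢, M.F (kf s) ⊆ M.Q i := by
  intro s hs x hx
  rw [D.hkf s hs] at hx
  have h1 : x ∈ dyc v z.1 z.2 \ dyo v z.1 z.2 := D.bd.bd_eq.ge (mem_iUnion₂.2 ⟨s, hs, hx⟩)
  rw [D.hQ]
  exact h1.1

/-- **the tiny number of a dyadic cell** -/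
theorem exists_cellD (hp : 0 < p) {i : M.ι} {lam : ℝ} (hlam : 0 < lam)
    (hb : ∀ k, M.F k ⊆ M.Q i → ∀ e, (edges M).seg e ⊆ M.F k → 0 < b k e)
    (hF : ∀ k, M.F k ⊆ M.Q i → ∃ s, M.F k = squ v s) :
    ∃ tin > 0, ∀ z : Idx, M.Q i = dyc v z.1 z.2 →
      ∃ (𝓢 : Finset (Idx × Fin 3)) (kf : Idx × Fin 3 → M.κ), CellD M p b lam i v z 𝓢 kf tin := by
  by_cases hz : ∃ z : Idx, M.Q i = dyc v z.1 z.2
  · obtain ⟨z, hQ⟩ := hz
    obtain ⟨𝓢, kf, h1, h2, h3, s, hs⟩ := exists_bdT hQ hF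
    have hsub : M.F (kf s) ⊆ M.Q i := by
      intro x hx
      rw [h2 s hs] at hx
      have h4 : x ∈ dyc v z.1 z.2 \ dyo v z.1 z.2 := h1.bd_eq.ge (mem_iUnion₂.2 ⟨s, hs, hx⟩)
      rw [hQ]
      exact h4.1
    obtain ⟨ω, hω, h4⟩ := _root_.P073.H950.exists_tinyN (z := z) (𝓢 := 𝓢) (kf := kf) (b := b) hp hs
      (hb _ hsub)
    have hp2 : (0:ℝ) < 2 ^ z.1 := by positivity
    refine ⟨min ω (lam / 2 ^ z.1), lt_min hω (div_pos hlam hp2), fun z' hz' => ?_⟩
    have e : z' = z := idx_unique (hz'.symm.trans hQ)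
    subst e
    exact ⟨𝓢, kf, hQ, h1, h2, h3, lt_min hω (div_pos hlam hp2), fun x hx hxt =>
      ⟨h4 x hx (hxt.trans (min_le_left _ _)),
        (le_div_iff₀ hp2).1 (hxt.trans (min_le_right _ _))⟩⟩
  · exact ⟨1, one_pos, fun z hz' => absurd ⟨z, hz'⟩ hz⟩

/-! ### The clauses of a face -/

/-- the cone and path clauses of the face `k` for the cost `cst` -/
structure FaceCl (M : Mesh Ω) (k : M.κ) (T : FStar (edges M) k) (b : (edges M).ε → ℝ)
    (C₁ C₂ : ℝ) (cst : V → V → ℝ) : Prop where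
  cone : ∀ e, (edges M).seg e ⊆ M.F k → ∀ x ∈ coneSetAt T.O ((edges M).seg e),
    ∀ y ∈ coneSetAt T.O ((edges M).seg e), cst x y ≤ T.con C₁ b e * ‖x - y‖
  path : ∀ x ∈ M.F k, ∀ y ∈ M.F k, ∃ γ : ℝ → V, ContinuousOn γ (Icc 0 3) ∧
    MapsTo γ (Icc 0 3) (M.F k) ∧ γ 0 = x ∧ γ 3 = y ∧
    cvar (fun t t' => ENNReal.ofReal (cst (γ t) (γ t'))) 0 3 ≤ ENNReal.ofReal (C₂ * bsum M k b)

section faceCl

variable {k : M.κ} {T : FStar (edges M) k} {b : (edges M).ε → ℝ} {cst cst' : V → V → ℝ}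

theorem con_mono {e : (edges M).ε} (he : (edges M).seg e ⊆ M.F k)
    (hb : ∀ e, (edges M).seg e ⊆ M.F k → 0 ≤ b e) {C : ℝ} (hC : C₁ ≤ C) :
    T.con C₁ b e ≤ T.con C b e := by
  unfold FStar.con
  refine mul_le_mul_of_nonneg_right hC (add_nonneg (div_nonneg (hb e he) (norm_nonneg _))
    (div_nonneg (Finset.sum_nonneg fun e he => hb e ?_) T.rho_pos.le))
  exact ((edges M).fin_face k).mem_toFinset.1 he

/-- a smaller cost, larger constants -/
theorem FaceCl.mono (H : FaceCl M k T b C₁ C₂ cst)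
    (hb : ∀ e, (edges M).seg e ⊆ M.F k → 0 ≤ b e)
    (hc : ∀ x ∈ M.F k, ∀ y ∈ M.F k, cst' x y ≤ cst x y) {C₁' C₂' : ℝ} (h1 : C₁ ≤ C₁')
    (h2 : C₂ ≤ C₂') : FaceCl M k T b C₁' C₂' cst' where
  cone := fun e he x hx y hy => (hc x (T.cone_sub he hx) y (T.cone_sub he hy)).trans
    ((H.cone e he x hx y hy).trans (mul_le_mul_of_nonneg_right (con_mono he hb h1)
      (norm_nonneg _)))
  path := fun x hx y hy => by
    obtain ⟨γ, a1, a2, a3, a4, a5⟩ := H.path x hx y hy
    refine ⟨γ, a1, a2, a3, a4, (_root_.P073.H880.cvar_congr fun t ht t' ht' _ => ?_).trans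
      (a5.trans ?_)⟩
    · exact ENNReal.ofReal_le_ofReal (hc _ (a2 ht) _ (a2 ht'))
    · exact ENNReal.ofReal_le_ofReal (mul_le_mul_of_nonneg_right h2 (bsum_nonneg hb))

/-- two points on a polygonal curve -/
theorem dist_le_curve {v : ℕ → V} {n : ℕ} {j j' : ℕ} (hjj : j ≤ j') (hj' : j' < n) {y y' : V}
    (hy : y ∈ segment ℝ (v j) (v (j + 1))) (hy' : y' ∈ segment ℝ (v j') (v (j' + 1))) :
    ‖y - y'‖ ≤ ∑ i ∈ Finset.range n, ‖v (i + 1) - v i‖ := by
  have hs : ∀ {a b x : V}, x ∈ segment ℝ a b → ‖x - a‖ ≤ ‖b - a‖ ∧ ‖b - x‖ ≤ ‖b - a‖ := by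
    intro a b x hx
    rw [segment_eq_image'] at hx
    obtain ⟨t, ht, rfl⟩ := hx
    constructor
    · have e : a + t • (b - a) - a = t • (b - a) := by module
      show ‖a + t • (b - a) - a‖ ≤ _
      rw [e, norm_smul, Real.norm_of_nonneg ht.1]
      exact mul_le_of_le_one_left (norm_nonneg _) ht.2
    · have e : b - (a + t • (b - a)) = (1 - t) • (b - a) := by module
      show ‖b - (a + t • (b - a))‖ ≤ _
      rw [e, norm_smul, Real.norm_of_nonneg (by linarith [ht.2])]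
      exact mul_le_of_le_one_left (norm_nonneg _) (by linarith [ht.1])
  have key : ∀ m, j ≤ m → ∀ y' ∈ segment ℝ (v m) (v (m + 1)),
      ‖y - y'‖ ≤ ∑ i ∈ Finset.Ico j (m + 1), ‖v (i + 1) - v i‖ := by
    intro m hm
    induction m, hm using Nat.le_induction with
    | base =>
      intro y' hy'
      rw [Nat.Ico_succ_singleton, Finset.sum_singleton]
      rw [segment_eq_image'] at hy hy'
      obtain ⟨t, ht, rfl⟩ := hy
      obtain ⟨t', ht', rfl⟩ := hy'
      have e : v j + t • (v (j + 1) - v j) - (v j + t' • (v (j + 1) - v j)) =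
        (t - t') • (v (j + 1) - v j) := by module
      show ‖v j + t • (v (j + 1) - v j) - (v j + t' • (v (j + 1) - v j))‖ ≤ _
      rw [e, norm_smul, Real.norm_eq_abs]
      refine mul_le_of_le_one_left (norm_nonneg _) ?_
      rw [abs_le]
      constructor <;> linarith [ht.1, ht.2, ht'.1, ht'.2]
    | succ m hm ih =>
      intro y' hy'
      rw [Finset.sum_Ico_succ_top (by omega)]
      have h1 := ih (v (m + 1)) (right_mem_segment ℝ _ _)
      have h2 := (hs hy').1
      calc ‖y - y'‖ = ‖(y - v (m + 1)) + (v (m + 1) - y')‖ := by congr 1; abel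
        _ ≤ ‖y - v (m + 1)‖ + ‖v (m + 1) - y'‖ := norm_add_le _ _
        _ ≤ _ := add_le_add h1 (by rw [norm_sub_rev]; exact h2)
  refine (key j' hjj y' hy').trans (Finset.sum_le_sum_of_subset_of_nonneg (fun i hi => ?_)
    fun _ _ _ => norm_nonneg _)
  rw [Finset.mem_Ico] at hi
  exact Finset.mem_range.2 (by omega)

/-- **lower bound for the perimeter of a square face** -/
theorem le_perim (T : FStar (edges M) k) {a : V} {l : Fin 3} {σ : ℝ} (hσ : 0 < σ)
    (hF : M.F k = sqr a l σ) :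
    2 * σ ≤ ∑ e ∈ ((edges M).fin_face k).toFinset, ‖(edges M).b e - (edges M).a e‖ := by
  obtain ⟨m, hm⟩ : ∃ m : Fin 3, m ≠ l := ⟨l + 1, by fin_cases l <;> decide⟩
  have hO := (T.sq a l σ hσ hF).1
  -- the two points on the sides
  have key : ∀ ε : ℝ, |ε| = 1 → ∃ j < T.C.n + 1,
      Function.update a m (a m + ε * σ) ∈ segment ℝ (vv T.C j) (vv T.C (j + 1)) := by
    intro ε hε
    set x : V := Function.update a m (a m + ε * σ) with hx
    have hxF : x ∈ M.F k := by
      rw [hF]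
      refine ⟨?_, fun j => ?_⟩
      · rw [hx, Function.update_of_ne hm.symm]
      · by_cases hj : j = m
        · subst hj
          rw [hx, Function.update_self, add_sub_cancel_left, abs_mul, hε, one_mul, abs_of_pos hσ]
        · rw [hx, Function.update_of_ne hj, sub_self, abs_zero]
          exact hσ.le
    obtain ⟨j, hj, hxj⟩ := T.star.exists_cn hxF
    obtain ⟨t, ht, y, hy, hxy⟩ := hxj
    have hyF : y ∈ M.F k := T.star.seg_sub hj hy
    rw [hF] at hyF
    have h1 := hyF.2 m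
    have h2 : x m = a m + t * (y m - a m) := by
      rw [hxy, hO]; rfl
    rw [hx, Function.update_self] at h2
    have h3 : ε * σ = t * (y m - a m) := by linarith
    have h4 : σ = t * |y m - a m| := by
      have := congrArg abs h3
      rw [abs_mul, hε, one_mul, abs_of_pos hσ, abs_mul, abs_of_nonneg ht.1] at this
      exact this
    have h5 : t = 1 := by
      refine le_antisymm ht.2 ?_
      by_contra hlt
      push Not at hlt
      have : t * |y m - a m| ≤ t * σ := mul_le_mul_of_nonneg_left h1 ht.1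
      nlinarith
    refine ⟨j, hj, ?_⟩
    have h6 : x = y := by rw [hxy, h5, one_smul, add_sub_cancel]
    rw [h6]
    exact hy
  obtain ⟨j, hj, h1⟩ := key 1 (by simp)
  obtain ⟨j', hj', h2⟩ := key (-1) (by simp)
  have h3 : (2:ℝ) * σ ≤ ‖Function.update a m (a m + 1 * σ) -
      Function.update a m (a m + -1 * σ)‖ := by
    have h4 := norm_le_pi_norm (Function.update a m (a m + 1 * σ) -
      Function.update a m (a m + -1 * σ)) m
    rw [Pi.sub_apply, Function.update_self, Function.update_self, Real.norm_eq_abs] at h4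
    refine le_trans (le_of_eq ?_) h4
    rw [show a m + 1 * σ - (a m + -1 * σ) = 2 * σ by ring, abs_of_pos (by linarith)]
  rw [← Vale.Agent.P073.H155.sum_ce T.C fun e => ‖(edges M).b e - (edges M).a e‖]
  have h4 : ∑ j ∈ Finset.range (T.C.n + 1), ‖(edges M).b (ce T.C j) - (edges M).a (ce T.C j)‖ =
      ∑ j ∈ Finset.range (T.C.n + 1), ‖vv T.C (j + 1) - vv T.C j‖ :=
    Finset.sum_congr rfl fun j _ => (Vale.Agent.P073.H155.norm_vv _ _).symm
  rw [h4]
  rcases le_total j j' with h | h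
  · exact h3.trans (dist_le_curve h hj' h1 h2)
  · rw [norm_sub_rev] at h3
    exact h3.trans (dist_le_curve h hj h2 h1)

/-- **the clauses of a face on which the cost is Lipschitz and `h` is a similarity** (faces of the
protected cells) -/
theorem FaceCl.of_lip {q L : ℝ} (hq : 0 ≤ q) (hL0 : 0 ≤ L) {s : Idx × Fin 3}
    (hk : M.F k = squ v s) (hb : ∀ e, (edges M).seg e ⊆ M.F k →
      q * ‖(edges M).b e - (edges M).a e‖ ≤ b e)
    (hL : ∀ x ∈ M.F k, ∀ y ∈ M.F k, cst x y ≤ L * ‖x - y‖) (h1 : L ≤ C₁ * q) (h2 : L ≤ C₂ * q)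
    (hC₁ : 0 ≤ C₁) (hC₂ : 0 ≤ C₂) : FaceCl M k T b C₁ C₂ cst where
  cone := fun e he x hx y hy => by
    refine (hL x (T.cone_sub he hx) y (T.cone_sub he hy)).trans
      (mul_le_mul_of_nonneg_right (h1.trans ?_) (norm_nonneg _))
    unfold FStar.con
    refine mul_le_mul_of_nonneg_left ?_ hC₁
    have hpos := _root_.P073.H142.elen_pos (edges M) e
    have h3 : q ≤ b e / ‖(edges M).b e - (edges M).a e‖ := (le_div_iff₀ hpos).2 (hb e he)
    have h4 : 0 ≤ (∑ e ∈ ((edges M).fin_face k).toFinset, b e) / T.rho :=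
      div_nonneg (Finset.sum_nonneg fun e he => (mul_nonneg hq (norm_nonneg _)).trans
        (hb e (((edges M).fin_face k).mem_toFinset.1 he))) T.rho_pos.le
    linarith
  path := fun x hx y hy => by
    have hcv : Convex ℝ (M.F k) := (pgn_of_fat (M.fat k)).convex
    have hsq := _root_.P073.H950.face_eq hk
    have hσ : (0:ℝ) < 1 / 2 / 2 ^ s.1.1 := by positivity
    refine ⟨fun t => x + (t / 3) • (y - x), by fun_prop, fun t ht => ?_, by simp, ?_, ?_⟩
    · refine hcv.segment_subset hx hy ?_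
      rw [segment_eq_image']
      exact ⟨t / 3, ⟨by linarith [ht.1], by linarith [ht.2]⟩, rfl⟩
    · show x + ((3:ℝ) / 3) • (y - x) = y
      rw [div_self three_ne_zero, one_smul, add_sub_cancel]
    · have hmem : ∀ t ∈ Icc (0:ℝ) 3, x + (t / 3) • (y - x) ∈ M.F k := fun t ht => by
        refine hcv.segment_subset hx hy ?_
        rw [segment_eq_image']
        exact ⟨t / 3, ⟨by linarith [ht.1], by linarith [ht.2]⟩, rfl⟩
      refine (_root_.P073.H880.cvar_le_of_le
        (μ := fun s t => ENNReal.ofReal (L * ((t - s) / 3 * ‖y - x‖))) (by norm_num)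
        (fun s hs t ht hst => ?_) (fun s hs m hm t ht hsm hmt => ?_)).trans ?_
      · refine ENNReal.ofReal_le_ofReal ((hL _ (hmem s hs) _ (hmem t ht)).trans (le_of_eq ?_))
        have e : x + (s / 3) • (y - x) - (x + (t / 3) • (y - x)) = ((s - t) / 3) • (y - x) := by
          module
        rw [e, norm_smul, Real.norm_eq_abs, abs_of_nonpos (by linarith)]
        ring
      · rw [← ENNReal.ofReal_add]
        · exact ENNReal.ofReal_le_ofReal (le_of_eq (by ring))
        · have : 0 ≤ m - s := by linarith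
          positivity
        · have : 0 ≤ t - m := by linarith
          positivity
      · refine ENNReal.ofReal_le_ofReal ?_
        have hd : ‖y - x‖ ≤ 2 * (1 / 2 / 2 ^ s.1.1) := by
          have hx' := hx
          have hy' := hy
          rw [hsq] at hx' hy'
          refine (pi_norm_le_iff_of_nonneg (by positivity)).2 fun j => ?_
          rw [Pi.sub_apply, Real.norm_eq_abs]
          have h5 := abs_le.1 (hx'.2 j)
          have h6 := abs_le.1 (hy'.2 j)
          rw [abs_le]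
          constructor <;> linarith [h5.1, h5.2, h6.1, h6.2]
        have h7 := le_perim T hσ hsq
        have h8 : q * ∑ e ∈ ((edges M).fin_face k).toFinset, ‖(edges M).b e - (edges M).a e‖ ≤
            bsum M k b := by
          rw [Finset.mul_sum]
          exact Finset.sum_le_sum fun e he => hb e (((edges M).fin_face k).mem_toFinset.1 he)
        calc L * ((3 - 0) / 3 * ‖y - x‖) = L * ‖y - x‖ := by ring
          _ ≤ L * ∑ e ∈ ((edges M).fin_face k).toFinset, ‖(edges M).b e - (edges M).a e‖ :=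
            mul_le_mul_of_nonneg_left (hd.trans h7) hL0
          _ ≤ C₂ * q * ∑ e ∈ ((edges M).fin_face k).toFinset,
              ‖(edges M).b e - (edges M).a e‖ :=
            mul_le_mul_of_nonneg_right h2 (Finset.sum_nonneg fun e _ => norm_nonneg _)
          _ = C₂ * (q * ∑ e ∈ ((edges M).fin_face k).toFinset,
              ‖(edges M).b e - (edges M).a e‖) := by ring
          _ ≤ _ := mul_le_mul_of_nonneg_left h8 hC₂

end faceCl

/-! ### One box -/

section ok

variable {i : M.ι} {T : ∀ k, FStar (edges M) k} {h f : V → V} {D₀ lam tin a e : ℝ} {ε : M.κ → ℝ}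
  {εL : (edges M).ε → ℝ}

/-- **a cell drawn in one box** -/
theorem cellOK3_of_box (Cd : CellD M p b lam i v z 𝓢 kf tin)
    (hnum : ∀ s ∈ 𝓢, Num (kf s) h D₀ (ε (kf s)) (b (kf s)))
    (hnL : ∀ s ∈ 𝓢, ∀ e', (edges M).seg e' ⊆ M.F (kf s) →
      ENNReal.ofReal (b (kf s) e') ≤ ENNReal.ofReal D₀ *
        (len (onSeg h ((edges M).a e', (edges M).b e')) (Icc 0 1) + ENNReal.ofReal (εL e')))
    {κ : Type*} [Fintype κ] {u : κ → V → ℝ} {om : ℝ} (hom : 0 ≤ om) (homt : om ≤ tin)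
    (hK : ∃ Kb : V → ℝ, Piece M p i v z 𝓢 kf T b C₁ C₁ om Kb ∧
      ∀ x ∈ M.Q i, ∀ᶠ y in 𝓝[M.Q i] x, om * dsum u x y ≤ Kb x * ‖y - x‖)
    (ha : 0 ≤ a) (he : 0 < e) (he8 : 8 * e ≤ tin)
    (hf : ∀ x ∈ M.Q i, LAtC B X (fun y => a * (om * dsum u x y) + e * ‖y - x‖) (M.Q i) f x) :
    CellOK3 B X p h f C₁ a D₀ ε εL lam i := by
  obtain ⟨Kb, h1⟩ := cellPre_of_boxes (J := Unit) (om := fun _ => om) (κ := fun _ => κ)
    (u := fun _ => u) Cd.hQ Cd.bd Cd.hkf (fun _ => hK) ha he (fun x hx => by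
      refine (hf x hx).mono (Eventually.of_forall fun y => le_of_eq ?_)
      simp)
  refine ⟨v, z, 𝓢, kf, T, b, Unit, inferInstance, Kb, fun _ => om, a, e, h1, ?_, hnum, hnL,
    fun _ => Cd.tiny om hom homt, (Cd.tiny (8 * e) (by positivity) he8).1, ?_⟩
  · simp
  · have h2 := (Cd.tiny (8 * e) (by positivity) he8).2
    have h3 : (1:ℝ) ≤ 2 ^ z.1 := one_le_pow₀ (by norm_num)
    nlinarith

/-- **a cell whose image is in the zones of the vertices**, more general: the image has only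
Lipschitz alive coordinates -/
theorem cellOK3_of_tiny (Cd : CellD M p b lam i v z 𝓢 kf tin)
    (hnum : ∀ s ∈ 𝓢, Num (kf s) h D₀ (ε (kf s)) (b (kf s)))
    (hnL : ∀ s ∈ 𝓢, ∀ e', (edges M).seg e' ⊆ M.F (kf s) →
      ENNReal.ofReal (b (kf s) e') ≤ ENNReal.ofReal D₀ *
        (len (onSeg h ((edges M).a e', (edges M).b e')) (Icc 0 1) + ENNReal.ofReal (εL e')))
    (T : ∀ k, FStar (edges M) k) (ha : 0 ≤ a) (he : 0 < e) (he8 : 8 * e ≤ tin)
    (hf : ∀ x ∈ M.Q i, LAtC B X (fun y => e * ‖y - x‖) (M.Q i) f x) :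
    CellOK3 B X p h f C₁ a D₀ ε εL lam i := by
  obtain ⟨Kb, h1⟩ := cellPre_of_boxes (T := T) (C₁ := C₁) (C₂ := C₁) (p := p) (b := b)
    (J := Empty) (om := fun j => j.elim) (κ := fun _ => Unit) (u := fun j => j.elim)
    Cd.hQ Cd.bd Cd.hkf (fun j => j.elim) ha he (fun x hx => by
      refine (hf x hx).mono (Eventually.of_forall fun y => le_of_eq ?_)
      simp)
  refine ⟨v, z, 𝓢, kf, T, b, Empty, inferInstance, Kb, fun j => j.elim, a, e, h1, ?_, hnum, hnL,
    fun j => j.elim, (Cd.tiny (8 * e) (by positivity) he8).1, ?_⟩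
  · simpa using ha
  · have h2 := (Cd.tiny (8 * e) (by positivity) he8).2
    have h3 : (1:ℝ) ≤ 2 ^ z.1 := one_le_pow₀ (by norm_num)
    nlinarith

end ok

end Vale.Agent.P073.H193
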