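import Vale.Agent.P073.H193.Strip
import Vale.Agent.P073.H193.CellQ
import Vale.Agent.P073.H193.ProtL
import Vale.Agent.P073.H579.FaceClP
import Vale.Agent.P073.H805.PsvK
import Vale.Agent.P073.H190.TvpL
import Vale.Agent.P073.H142.FaceTail
import Vale.Agent.P073.H233.PathC

/-!
# P073, block H193 ([CELL3]): the faces of a cell drawn in a plate

* `bdd`, `bandD_thin_le`: the bands in terms of the map `h1` of round T, on the given faces;
* `faceCl_prot`, `faceCl_strip`, `faceCl_peel`, `faceCl_P`: the clauses `FaceCl` of every face of a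
  cell of `ZbP`, for the cost `ρ * bandD (h3 ·) (h3 ·)`.
-/

open Set Metric Topology Filter
open scoped ENNReal

namespace Vale.Agent.P073.H193

open _root_.P073 _root_.P073.Net _root_.P073.PA691 _root_.P073.H236 _root_.P073.H579
open _root_.P073.H345 (PK tg tg_ne tg_bt bt tg_cases tg_ne_not PLev PB_sub_PK bt_tg)
open _root_.P073.H155 (RelT Band3)
open _root_.P073.H142 (FStar)
open _root_.P073.H196 (θP sum_abs_rho_le rho_eq_pos pos_θP theta2_full pos)
open _root_.P073.H880.RP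
open Vale.Agent.P073.H190.Tvp (sum_tg)
open Vale.Agent.P073.St (V)
open Vale.Agent.P073.AB (Idx squ)
open Vale.Agent.P073.H471 Vale.Agent.P073.H267 Vale.Agent.P073.H267.Geo
open Vale.Agent.P073.H73 (Mesh sqr)
open Vale.Agent.P073.H926
open Vale.Agent.P073.H238.K3
open Vale.Agent.P073.H267.K3

/-! ### bands -/

section bands

variable {Λ : Set V} {v : V} {K : BoxCx Λ v} {S : Rad K} {W : Wid K S} {B : Boxes W} {G : Geo B}
  {L : PLev G} {s : K.S} {β : Bool} {t t' t'' : ℝ}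

theorem rho_ge' {c a t : ℝ} (h : a + c ≤ t) (hc : 0 ≤ c) :
    rho (fun a => a - c) (fun a => a + c) a t = (a + c) - (a - c) :=
  rho_of_ge (lo := fun a => a - c) (hi := fun a => a + c) h (by linarith)

theorem rho_le' {c a t : ℝ} (h : t ≤ a - c) :
    rho (fun a => a - c) (fun a => a + c) a t = 0 :=
  rho_of_le (lo := fun a => a - c) (hi := fun a => a + c) h

/-- the distance of the bands of `L` in the coordinate `tg s β` -/
noncomputable def bdd (L : PLev G) (s : K.S) (β : Bool) (t t' : ℝ) : ℝ :=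
  ∑ a ∈ L.lv s (tg s β), |rho (fun a => a - L.c s β) (fun a => a + L.c s β) a t -
    rho (fun a => a - L.c s β) (fun a => a + L.c s β) a t'|

theorem bdd_nonneg : 0 ≤ bdd L s β t t' := Finset.sum_nonneg fun _ _ => abs_nonneg _

theorem bdd_self : bdd L s β t t = 0 := Finset.sum_eq_zero fun _ _ => by rw [sub_self, abs_zero]

theorem bdd_tri : bdd L s β t t'' ≤ bdd L s β t t' + bdd L s β t' t'' := by
  unfold bdd
  rw [← Finset.sum_add_distrib]
  exact Finset.sum_le_sum fun _ _ => abs_sub_le _ _ _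

theorem bdd_le : bdd L s β t t' ≤ |t - t'| := by
  have hc := (L.lvs s β).c0
  refine sum_abs_rho_le (fun a _ => by linarith) (fun x hx y hy hxy => ?_) t t'
  rw [PLev.lv_tg] at hx hy
  have := (L.lvs s β).sepd x hx y hy hxy
  linarith

/-- no band is met -/
theorem bdd_zero {A : Set V} (hA : IsPreconnected A) {f : V → ℝ} (hf : ContinuousOn f A)
    (hno : ∀ x ∈ A, ∀ a ∈ L.lv s (tg s β), L.c s β ≤ |f x - a|) {x y : V} (hx : x ∈ A)
    (hy : y ∈ A) : bdd L s β (f x) (f y) = 0 := by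
  have hc := (L.lvs s β).c0
  have key : ∀ a ∈ L.lv s (tg s β), ∀ x ∈ A, ∀ y ∈ A, f x < a → a < f y → False := by
    intro a ha x hx y hy h1 h2
    obtain ⟨z, hz, hza⟩ := hA.intermediate_value hx hy hf ⟨h1.le, h2.le⟩
    have := hno z hz a ha
    rw [hza, sub_self, abs_zero] at this
    linarith
  refine Finset.sum_eq_zero fun a ha => ?_
  rw [abs_eq_zero, sub_eq_zero]
  rcases le_abs.1 (hno x hx a ha) with h1 | h1 <;> rcases le_abs.1 (hno y hy a ha) with h2 | h2
  · rw [rho_ge' (t := f x) (by linarith) hc.le, rho_ge' (t := f y) (by linarith) hc.le]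
  · exact (key a ha y hy x hx (by linarith) (by linarith)).elim
  · exact (key a ha x hx y hy (by linarith) (by linarith)).elim
  · rw [rho_le' (t := f x) (by linarith), rho_le' (t := f y) (by linarith)]

/-- the clamped coordinate -/
theorem bdd_clm {lo hi lo' hi' : ℝ} (hlh : lo ≤ hi)
    (hband : ∀ a ∈ L.lv s (tg s β), (a + L.c s β ≤ lo' ∨ lo ≤ a - L.c s β) ∧
      (a + L.c s β ≤ hi ∨ hi' ≤ a - L.c s β)) (ht : t ∈ Icc lo' hi') (ht' : t' ∈ Icc lo' hi') :
    bdd L s β t t' = bdd L s β (H238.K3.clm lo hi t) (H238.K3.clm lo hi t') := by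
  have hc := (L.lvs s β).c0
  have key : ∀ a ∈ L.lv s (tg s β), ∀ t ∈ Icc lo' hi',
      rho (fun a => a - L.c s β) (fun a => a + L.c s β) a t =
        rho (fun a => a - L.c s β) (fun a => a + L.c s β) a (H238.K3.clm lo hi t) := by
    intro a ha t ht
    obtain ⟨h1, h2⟩ := hband a ha
    unfold H238.K3.clm
    rcases le_total lo t with h3 | h3
    · rcases le_total t hi with h4 | h4
      · rw [min_eq_right h4, max_eq_right h3]
      · rw [min_eq_left h4, max_eq_right hlh]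
        rcases h2 with h2 | h2
        · rw [rho_ge' (t := t) (by linarith) hc.le, rho_ge' (t := hi) h2 hc.le]
        · rw [rho_le' (t := t) (by linarith [ht.2]), rho_le' (t := hi) (by linarith [ht.2])]
    · have h5 : min hi t = t := min_eq_right (h3.trans hlh)
      rw [h5, max_eq_left h3]
      rcases h1 with h1 | h1
      · rw [rho_ge' (t := t) (by linarith [ht.1]) hc.le, rho_ge' (t := lo) (by linarith [ht.1]) hc.le]
      · rw [rho_le' (t := t) (by linarith), rho_le' (t := lo) h1]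
  unfold bdd
  exact Finset.sum_congr rfl fun a ha => by rw [key a ha t ht, key a ha t' ht']

variable {c : K.S → Bool → ℝ} {h0 : ∀ s β, 0 < c s β} {h1 : ∀ s β, c s β ≤ L.c s β}

/-- **the bands of the thin flats, after `Θ`** -/
theorem bandD_thin_le (hom : ∀ β t, L.omP s (tg s β) t ≤ 16 * L.c s β) {y y' z z' : V}
    (hz : ∀ j, z j = θP L c s j (y j)) (hz' : ∀ j, z' j = θP L c s j (y' j)) :
    bandD ((thinL L c h0 h1).lv s) ((thinL L c h0 h1).loP s) ((thinL L c h0 h1).hiP s)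
      ((thinL L c h0 h1).omP s) z z' ≤
      8 * (bdd L s false (y (tg s false)) (y' (tg s false)) +
        bdd L s true (y (tg s true)) (y' (tg s true))) := by
  have key : ∀ β, ∑ a ∈ (thinL L c h0 h1).lv s (tg s β),
      (thinL L c h0 h1).omP s (tg s β) a / ((thinL L c h0 h1).hiP s (tg s β) a -
        (thinL L c h0 h1).loP s (tg s β) a) *
      |rho ((thinL L c h0 h1).loP s (tg s β)) ((thinL L c h0 h1).hiP s (tg s β)) a (z (tg s β)) -
        rho ((thinL L c h0 h1).loP s (tg s β)) ((thinL L c h0 h1).hiP s (tg s β)) a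
          (z' (tg s β))| ≤
      8 * bdd L s β (y (tg s β)) (y' (tg s β)) := by
    intro β
    have hc := (L.lvs s β).c0
    have hc1 : 0 < c s β := h0 s β
    unfold bdd
    rw [Finset.mul_sum, thinL_lv]
    refine Finset.sum_le_sum fun a ha => ?_
    have e0 : (thinL L c h0 h1).hiP s (tg s β) a - (thinL L c h0 h1).loP s (tg s β) a =
        2 * c s β := PLev.hiP_sub_loP _ _ _ _
    have e1 : (thinL L c h0 h1).omP s (tg s β) a = L.omP s (tg s β) a := by
      rw [PLev.omP_tg, PLev.omP_tg]; rfl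
    have hlt : (thinL L c h0 h1).loP s (tg s β) a < (thinL L c h0 h1).hiP s (tg s β) a := by
      linarith
    have e2 : ∀ u, rho ((thinL L c h0 h1).loP s (tg s β)) ((thinL L c h0 h1).hiP s (tg s β)) a
        (θP L c s (tg s β) u) = 2 * c s β * pos (fun b => b - L.c s β)
          (fun b => b + L.c s β) a u := fun u => by
      have h5 := pos_θP h0 h1 s (tg s β) ha u
      rw [bt_tg] at h5
      rw [rho_eq_pos hlt, e0, h5]
    have e3 : ∀ u, rho (fun a => a - L.c s β) (fun a => a + L.c s β) a u = 2 * L.c s β *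
        pos (fun b => b - L.c s β) (fun b => b + L.c s β) a u := fun u => by
      refine (rho_eq_pos (lo := fun a => a - L.c s β) (hi := fun a => a + L.c s β) (b := a)
        (by show a - L.c s β < a + L.c s β; linarith) u).trans ?_
      show (a + L.c s β - (a - L.c s β)) * _ = _
      ring
    rw [hz, hz', e2, e2, e3, e3, e0, e1, ← mul_sub, ← mul_sub,
      abs_mul (2 * c s β), abs_mul (2 * L.c s β),
      abs_of_pos (show 0 < 2 * c s β by linarith), abs_of_pos (show 0 < 2 * L.c s β by linarith)]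
    set q := |pos (fun b => b - L.c s β) (fun b => b + L.c s β) a (y (tg s β)) -
      pos (fun b => b - L.c s β) (fun b => b + L.c s β) a (y' (tg s β))|
    have hq : 0 ≤ q := abs_nonneg _
    have e4 : L.omP s (tg s β) a / (2 * c s β) * (2 * c s β * q) = L.omP s (tg s β) a * q := by
      field_simp
    rw [e4]
    have := mul_le_mul_of_nonneg_right (hom β a) hq
    linarith
  unfold bandD
  rw [sum_tg s, PLev.lv_nrm, Finset.sum_empty, zero_add]
  have k1 := key false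
  have k2 := key true
  linarith

end bands

section faces

variable {c₀ n δ : ℝ} {j : ℕ} {Ω Λ : Set V} {v w : V} {ρ : V → ℝ} {M : Mesh Ω} {h : ConHomeo Ω Λ}
  {J₀ J : Set (ℕ × (Fin 3 → ℤ))} {P Z : Set M.ι} {K : BoxCx Λ w}
  {D : KIn3 c₀ n j δ v w ρ M h J₀ J P Z} {C : Cells ρ w K} {C₀ μT : ℝ}

/-- the displacement of round T at a plate -/
theorem near_pt (D : KIn3 c₀ n j δ v w ρ M h J₀ J P Z) (C : Cells ρ w K) {h1 : ConHomeo Ω Λ}
    (hT : ∀ x ∈ Ω, ∀ q, h.toFun x ∈ K.cube q → ‖h1.toFun x - h.toFun x‖ ≤ (D.G C).om q)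
    {x : V} (hx : x ∈ Ω) {s : K.S} (hxs : h1.toFun x ∈ PK (D.G C) s) :
    h.toFun x ∈ PX (D.G C) s ∧ ‖h1.toFun x - h.toFun x‖ ≤ (D.G C).oS s := by
  obtain ⟨q, hq⟩ := K.cover _ (h.mapsTo hx)
  obtain ⟨q₁, hq₁⟩ := K.cover _ (h1.mapsTo hx)
  have e1 := hT x hx q hq
  have hqs := tile_PX (PK_sub_PX s hxs) hq₁
  have ho := o3_pos D.pos
  have hT := C.sT_pos q
  have hT1 := C.sT_pos q₁
  have hκ := D.κ_lt
  have hoκ := o3_eq (n := n)
  have e2 : C.sT q ≤ 4 * C.sT q₁ := by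
    refine sT_comp' C D.hρ (x := h.toFun x) (y := h1.toFun x) hq hq₁ (e1.trans ?_)
    show o3 n * C.sT q ≤ _
    nlinarith
  have e3 : (D.G C).om q ≤ 4 * (D.G C).om q₁ := by
    show o3 n * C.sT q ≤ 4 * (o3 n * C.sT q₁)
    nlinarith
  have e4 := (D.G C).om_oS q₁ s hqs
  have e5 := (D.G C).oS_τ s
  have hτ := (D.B C).τ_pos s
  have hm : h.toFun x ∈ PX (D.G C) s := by
    refine PX_of_near hxs ?_
    rw [norm_sub_rev]
    linarith
  exact ⟨hm, e1.trans ((D.G C).om_oS q s (tile_PX hm hq))⟩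

/-- the map of a protected cell is a similarity -/
theorem prot_sim (D : KIn3 c₀ n j δ v w ρ M h J₀ J P Z) {i : M.ι} (hi : i ∈ P) :
    ∃ q > 0, ∀ x ∈ M.Q i, ∀ y ∈ M.Q i, ‖h.toFun x - h.toFun y‖ = q * ‖x - y‖ := by
  obtain ⟨t, -, a, r, s, hr, hs, -, hx⟩ := D.inp.prot i hi
  have hη := D.η_le_one
  set q : ℝ := (1 - 1 / 2 ^ j) / 2 / 2 ^ t.1 / r with hq
  have hq0 : 0 < q := by
    have : 0 < 1 - (1:ℝ) / 2 ^ j := by linarith
    positivity
  have hs1 : ∀ l, |s l| = 1 := fun l => by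
    rcases hs l with h1 | h1 <;> rw [h1] <;> simp
  have key : ∀ x ∈ M.Q i, ∀ y ∈ M.Q i, ∀ l, |h.toFun x l - h.toFun y l| = q * |x l - y l| := by
    intro x hx' y hy' l
    rw [hx x hx' l, hx y hy' l]
    have e : ∀ A : ℝ, A + (1 - 1 / 2 ^ j) / 2 / 2 ^ t.1 / r * s l * (x l - a l) -
        (A + (1 - 1 / 2 ^ j) / 2 / 2 ^ t.1 / r * s l * (y l - a l)) = q * (s l * (x l - y l)) := by
      intro A
      rw [hq]
      ring
    rw [e, abs_mul, abs_mul, hs1, one_mul, abs_of_pos hq0]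
  refine ⟨q, hq0, fun x hx' y hy' => le_antisymm ?_ ?_⟩
  · rw [pi_norm_le_iff_of_nonneg (by positivity)]
    intro l
    rw [Real.norm_eq_abs, Pi.sub_apply, key x hx' y hy' l]
    have := norm_le_pi_norm (x - y) l
    rw [Pi.sub_apply, Real.norm_eq_abs] at this
    exact mul_le_mul_of_nonneg_left this hq0.le
  · rw [← le_div_iff₀' hq0, pi_norm_le_iff_of_nonneg (by positivity)]
    intro l
    rw [Real.norm_eq_abs, Pi.sub_apply, le_div_iff₀' hq0, ← key x hx' y hy' l]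
    have := norm_le_pi_norm (h.toFun x - h.toFun y) l
    rwa [Pi.sub_apply, Real.norm_eq_abs] at this

variable {X : S1 D C C₀ μT} {Y₂ : S2 X} {Ys : Set M.κ} {sc : Sharp}

/-- the cost of the faces of a cell drawn in the plate `s` -/
noncomputable def cstP (Y₃ : S3 Y₂ Ys sc) (s : K.S) (r : ℝ) (x y : V) : ℝ :=
  r * bandD (Y₃.Lt.lv s) (Y₃.Lt.loP s) (Y₃.Lt.hiP s) (Y₃.Lt.omP s) (Y₃.h3.toFun x)
    (Y₃.h3.toFun y)

theorem cstP_le (Y₃ : S3 Y₂ Ys sc) {s : K.S} (hs : s ∈ pS C J₀) {k : M.κ}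
    (hk : k ∈ (D.dat C).WF (D.G C) X.h1)
    (hpos : ∀ x ∈ M.F k, X.h1.toFun x ∈ (D.G C).PB (7 / 8) s) {r : ℝ} (hr : 0 ≤ r) {x y : V}
    (hx : x ∈ M.F k) (hy : y ∈ M.F k) : cstP Y₃ s r x y ≤
      8 * r * (bdd Y₂.L s false (X.h1.toFun x (tg s false)) (X.h1.toFun y (tg s false)) +
        bdd Y₂.L s true (X.h1.toFun x (tg s true)) (X.h1.toFun y (tg s true))) := by
  have key : ∀ x ∈ M.F k, ∀ l, Y₃.h3.toFun x l = θP Y₂.L Y₃.c s l (X.h1.toFun x l) := by
    intro x hx l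
    rw [Y₃.ins.out.giv k hk x hx]
    exact theta2_full Y₃.ins.isΘ ⟨s, hs⟩ (hpos x hx) l
  have h1 := bandD_thin_le (h0 := Y₃.c0) (h1 := Y₃.c1) (Y₂.Lw.omP_le_c s) (key x hx) (key y hy)
  unfold cstP
  refine (mul_le_mul_of_nonneg_left h1 hr).trans (le_of_eq (by ring))

section cell

variable {Y₃ : S3 Y₂ Ys sc} (Y₄ : S4 Y₃) {s : (D.dat C).S₀} {i : M.ι}
  (hi : i ∈ _root_.P073.H919.ZbP (D.G C) (D.dat C) Y₃.h4 s)

include Y₄ hi

/-- the two maps before the hook agree on the cells of the plates -/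
theorem h3p_eq {x : V} (hx : x ∈ M.Q i) : Y₃.h3p.toFun x = Y₃.h3.toFun x :=
  Y₃.eqHB s.1 s.2 x (M.sub i hx) (interior_subset (Y₄.H.int s i hi ⟨x, hx, rfl⟩))

theorem pos2 {x : V} (hx : x ∈ M.Q i) :
    Y₂.h2.toFun x ∈ _root_.P073.H919.HB (D.G C) (29 / 32) (3 / 4) s.1 := by
  refine Y₄.H.h2_mem hi ?_ x hx
  have e : EqOn Y₃.h3p.toFun Y₃.h3.toFun (M.Q i) := fun x hx => h3p_eq Y₄ hi hx
  rw [e.image_eq]
  exact Y₃.ins.out.img_cell i

theorem pos1 {x : V} (hx : x ∈ M.Q i) : X.h1.toFun x ∈ PK (D.G C) s.1 :=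
  _root_.P073.H155.pk_of_h2 Y₂.ex Y₄.H.hc Y₄.H.hd (M.sub i hx) (pos2 Y₄ hi hx)

/-- the faces are dyadic squares -/
theorem face_squ {k : M.κ} (hk : M.F k ⊆ M.Q i) : ∃ s : Idx × Fin 3, M.F k = squ v s := by
  exact D.face_Zmax hi.1.1 hk

/-- **the peeled faces** -/
theorem faceCl_peel {k : M.κ} (hk : M.F k ⊆ M.Q i) (hkp : k ∈ (D.dat C).Peel (D.G C) X.h1)
    {b : (edges M).ε → ℝ} (hb : ∀ e, (edges M).seg e ⊆ M.F k → 0 ≤ b e) {r q C₁ C₂ : ℝ}
    (hr : 0 ≤ r)
    (hLa : ∀ e, (edges M).seg e ⊆ M.F k →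
      Y₃.La e * ‖(edges M).b e - (edges M).a e‖ ≤ q * b e)
    (hWe : ∀ e, (edges M).seg e ⊆ M.F k → Y₃.We e ≤ q * b e)
    (h1 : k ∉ Ys → 156 * (1 + (X.T k).R / (X.T k).rho) * (r * q) ≤ C₁ ∧ 8 * (r * q) ≤ C₂)
    (h2 : k ∈ Ys → FW31.DK sc.K * (1 + (X.T k).R / (X.T k).rho) * (r * q) ≤ C₁ ∧
      FW31.DK sc.K * (r * q) ≤ C₂) :
    FaceCl M k (X.T k) b C₁ C₂ (cstP Y₃ s.1 r) := by
  obtain ⟨s', hs'⟩ := hkp
  have hs1 : s' = s.1 := by
    obtain ⟨-, -, x, hx, hxs⟩ := hs'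
    exact _root_.P073.H345.PK_unique (PB_sub_PK (by norm_num) s' hxs) (pos1 Y₄ hi (hk hx))
  subst hs1
  have e : Y₃.Lt.lv s.1 = Y₂.L.lv s.1 := funext (thinL_lv s.1)
  unfold cstP
  rw [e]
  obtain ⟨Φ, hΦ, hg⟩ := Y₃.ins.out.face k ⟨s.1, hs'⟩
  by_cases hY : k ∈ Ys
  · obtain ⟨h3, h4⟩ := h2 hY
    exact FW31.GFY.faceCl hΦ hs' hr hb hLa hWe h3 h4 hg
  · obtain ⟨h3, h4⟩ := h1 hY
    exact GFP.faceCl (hΦ.1 hY) hs' hr hb hLa hWe h3 h4 hg

/-- **the faces of the protected cells** -/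
theorem faceCl_prot (hC₀ : 1 ≤ C₀) {k : M.κ} (hk : M.F k ⊆ M.Q i) {i' : M.ι} (hi' : i' ∈ P) (hk' : M.F k ⊆ M.Q i')
    {b : (edges M).ε → ℝ} (hb : ∀ e, (edges M).seg e ⊆ M.F k →
      ‖h.toFun ((edges M).b e) - h.toFun ((edges M).a e)‖ ≤ b e) {r : ℝ} (hr : 0 ≤ r) :
    FaceCl M k (X.T k) b (16 * r * C₀) (16 * r * C₀) (cstP Y₃ s.1 r) := by
  obtain ⟨sq, hsq⟩ := face_squ Y₄ hi hk
  obtain ⟨q, hq0, hq⟩ := prot_sim D hi'
  have hWF : k ∈ (D.dat C).WF (D.G C) X.h1 := Or.inr ⟨i', hi', hk'⟩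
  have hoff := Y₂.ex.offF hWF
  have hcv : Convex ℝ (M.F k) := (pgn_of_fat (M.fat k)).convex
  have hHB : ∀ x ∈ M.F k, X.h1.toFun x ∈ _root_.P073.H919.HB (D.G C) (29 / 32) (3 / 4) s.1 :=
    fun x hx => by rw [← hoff hx]; exact pos2 Y₄ hi (hk hx)
  have hPK : ∀ x ∈ M.F k, X.h1.toFun x ∈ PK (D.G C) s.1 := fun x hx => pos1 Y₄ hi (hk hx)
  have hτ := (D.B C).τ_pos s.1
  have hτp := (D.G C).τ_p s.1
  have hoS := (D.G C).oS_τ s.1
  have hp := Geo.p_pos (G := D.G C) s.1
  -- local estimates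
  have hloc : ∀ l, ∀ x ∈ M.F k, ∀ᶠ y in 𝓝[M.F k] x,
      ‖X.h1.toFun y l - X.h1.toFun x l‖ ≤ C₀ * q * ‖y - x‖ := by
    intro l x hx
    have hxΩ := M.sub i (hk hx)
    have h1 := (near_pt D C X.out.near3 hxΩ (hPK x hx)).2
    have h0 : ∀ᶠ y in 𝓝[M.Q i'] x, h.toFun y ∈ PX (D.G C) s.1 := by
      have hc : ContinuousWithinAt h.toFun (M.Q i') x :=
        (h.cont.mono (M.sub i')) x (hk' hx)
      have h2 : ∀ᶠ y in 𝓝[M.Q i'] x, dist (h.toFun y) (h.toFun x) < (D.B C).τ s.1 / 8 :=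
        Metric.tendsto_nhds.1 hc _ (by linarith)
      filter_upwards [h2] with y hy
      refine PX_of_near (hPK x hx) ?_
      rw [dist_eq_norm] at hy
      have h3 : ‖h.toFun y - X.h1.toFun x‖ ≤ ‖h.toFun y - h.toFun x‖ +
          ‖X.h1.toFun x - h.toFun x‖ := by
        rw [norm_sub_rev (X.h1.toFun x)]
        calc ‖h.toFun y - X.h1.toFun x‖ =
            ‖(h.toFun y - h.toFun x) + (h.toFun x - X.h1.toFun x)‖ := by congr 1; abel
          _ ≤ _ := norm_add_le _ _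
      linarith
    have h4 := prot_pk X.out hC₀ hi' (hk' hx) s.2 h0
    filter_upwards [nhdsWithin_mono x hk' h4, self_mem_nhdsWithin] with y hy hyk
    have h5 := hy l
    rw [hq y (hk' hyk) x (hk' hx)] at h5
    rw [Real.norm_eq_abs]
    linarith
  have hlip : ∀ l, ∀ x ∈ M.F k, ∀ y ∈ M.F k,
      |X.h1.toFun x l - X.h1.toFun y l| ≤ C₀ * q * ‖x - y‖ := fun l =>
    _root_.P073.H142.lip_of_local hcv (g := fun x => X.h1.toFun x l) (hloc l)
  have hne : ∀ e, ‖(edges M).b e - (edges M).a e‖ = ‖(edges M).b e - (edges M).a e‖ :=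
    fun _ => rfl
  refine FaceCl.of_lip (q := q) (L := 16 * r * C₀ * q) hq0.le (by positivity) hsq (fun e he => ?_)
    (fun x hx y hy => ?_) le_rfl le_rfl (by positivity) (by positivity)
  · have ha : (edges M).a e ∈ M.Q i' := hk' (he (left_mem_segment ℝ _ _))
    have hb' : (edges M).b e ∈ M.Q i' := hk' (he (right_mem_segment ℝ _ _))
    rw [← hq _ hb' _ ha]
    exact hb e he
  · have h1 := cstP_le Y₃ s.2 hWF (fun x hx => _root_.P073.H919.HB_PB (by norm_num)
      (by norm_num) s.1 (hHB x hx)) hr hx hy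
    have h2 := (bdd_le (L := Y₂.L) (s := s.1) (β := false)).trans (hlip (tg s.1 false) x hx y hy)
    have h3 := (bdd_le (L := Y₂.L) (s := s.1) (β := true)).trans (hlip (tg s.1 true) x hx y hy)
    have h4 := mul_le_mul_of_nonneg_left (add_le_add h2 h3) (show 0 ≤ 8 * r by linarith)
    refine h1.trans (h4.trans (le_of_eq (by ring)))

/-- **the faces in the strip around the plate** -/
theorem faceCl_strip (hC₀ : 0 ≤ C₀) (hfat : ∀ b : pB C J₀, 2048 * ω3T δ C b.1 ≤ X.fat b)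
    {k : M.κ} (hk : M.F k ⊆ M.Q i) (hkP : ∀ i' ∈ P, ¬ M.F k ⊆ M.Q i')
    (hkn : k ∉ (D.dat C).Peel (D.G C) X.h1)
    {b : (edges M).ε → ℝ} (hb : ∀ e, (edges M).seg e ⊆ M.F k → X.bn e ≤ b e)
    (hL : ∀ i' ∈ Wc D C, M.F k ⊆ M.Q i' → ∃ L > 0,
      (∀ x ∈ M.F k, ∀ y ∈ M.F k, ‖h.toFun x - h.toFun y‖ ≤ L * ‖x - y‖) ∧
      ∀ e, (edges M).seg e ⊆ M.F k → L * ‖(edges M).b e - (edges M).a e‖ ≤ b e)
    {r : ℝ} (hr : 0 ≤ r) :
    FaceCl M k (X.T k) b (32 * r * C₀) (1760 * r * C₀) (cstP Y₃ s.1 r) := by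
  obtain ⟨sq, hsq⟩ := face_squ Y₄ hi hk
  have hDF : k ∈ (D.dat C).DF := ⟨⟨i, hi.1.1, hk⟩, hkP⟩
  have hWF : k ∈ (D.dat C).WF (D.G C) X.h1 := Or.inl ⟨hDF, hkn⟩
  have hoff := Y₂.ex.offF hWF
  have hcv : Convex ℝ (M.F k) := (pgn_of_fat (M.fat k)).convex
  have hkΩ : M.F k ⊆ Ω := hk.trans (M.sub i)
  have hHB : ∀ x ∈ M.F k, X.h1.toFun x ∈ _root_.P073.H919.HB (D.G C) (29 / 32) (3 / 4) s.1 :=
    fun x hx => by rw [← hoff hx]; exact pos2 Y₄ hi (hk hx)
  have hpb : ∀ x ∈ M.F k, X.h1.toFun x ∈ (D.G C).PB (29 / 32) s.1 := fun x hx =>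
    _root_.P073.H919.HB_PB le_rfl (by norm_num) s.1 (hHB x hx)
  have hno : ∀ x ∈ M.F k, X.h1.toFun x ∉ (D.G C).PB 1 s.1 := fun x hx hxs =>
    hkn ⟨s.1, s.2, hDF, x, hx, hxs⟩
  have hfsq := _root_.P073.H950.face_eq hsq
  have hσ : (0:ℝ) < 1 / 2 / 2 ^ sq.1.1 := by positivity
  have hRr : (X.T k).R / (X.T k).rho = 1 := by
    obtain ⟨-, e1, e2⟩ := (X.T k).sq _ _ _ hσ hfsq
    rw [e1, e2, div_self hσ.ne']
  have hb0 : ∀ e, (edges M).seg e ⊆ M.F k → 0 ≤ b e := fun e he =>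
    (X.num.b_pos e).le.trans (hb e he)
  have hcon0 : ∀ e, (edges M).seg e ⊆ M.F k → 0 ≤ (X.T k).con (2 * C₀) b e := fun e he =>
    (X.T k).con_nonneg (by positivity) hb0 he
  have hcont : ∀ β, ContinuousOn (fun x => X.h1.toFun x (tg s.1 β)) (M.F k) := fun β =>
    (continuous_apply (tg s.1 β)).comp_continuousOn (X.h1.cont.mono hkΩ)
  have key : ∀ β e, (edges M).seg e ⊆ M.F k → ∀ x ∈ coneSetAt (X.T k).O ((edges M).seg e),
      ∀ y ∈ coneSetAt (X.T k).O ((edges M).seg e),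
      bdd Y₂.L s.1 β (X.h1.toFun x (tg s.1 β)) (X.h1.toFun y (tg s.1 β)) ≤
        (X.T k).con (2 * C₀) b e * ‖x - y‖ := by
    intro β
    rcases strip_tube' X hfat Y₂.bandp hi.1.1 s.2 hk hpb hno β with ⟨b', hRel, hax, hIn, hmg⟩ | h1
    · by_cases hA : k ∈ H238.K3.Act D C
      · intro e he x hx y hy
        have e1 := X.out.cone k hA b' hIn e he x hx y hy
        rw [hax] at e1
        have e2 := X.num.Lf_le k e he
        rw [hRr] at e2
        refine bdd_le.trans (e1.trans (mul_le_mul_of_nonneg_right (e2.trans ?_) (norm_nonneg _)))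
        unfold FStar.con
        have h3 : X.bn e / ‖(edges M).b e - (edges M).a e‖ ≤ b e / ‖(edges M).b e - (edges M).a e‖ :=
          div_le_div_of_nonneg_right (hb e he) (norm_nonneg _)
        have h4 : (∑ e ∈ ((edges M).fin_face k).toFinset, X.bn e) / (X.T k).rho ≤
            (∑ e ∈ ((edges M).fin_face k).toFinset, b e) / (X.T k).rho :=
          div_le_div_of_nonneg_right (Finset.sum_le_sum fun e he =>
            hb e (((edges M).fin_face k).mem_toFinset.1 he)) (X.T k).rho_pos.le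
        rw [show C₀ * (1 + 1) = 2 * C₀ by ring]
        exact mul_le_mul_of_nonneg_left (add_le_add h3 h4) (by positivity)
      · obtain ⟨i', hi', hki'⟩ : ∃ i' ∈ Wc D C, M.F k ⊆ M.Q i' := by
          unfold H238.K3.Act at hA
          simp only [mem_setOf_eq, not_forall, not_not] at hA
          obtain ⟨i', hi', hki'⟩ := hA
          rcases hi' with hi' | hi'
          · exact absurd hki' (hkP i' hi')
          · exact ⟨i', hi', hki'⟩
        obtain ⟨L, hL0, hLip, hLb⟩ := hL i' hi' hki'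
        have hxT : ∀ x ∈ M.F k, h.toFun x ∈ (D.G C).TB false b'.1 := fun x hx =>
          Geo.TB_true_subset b'.1 (hIn x hx (mem_closedBall_self (by
            have := D.ω3T_pos C b'.1
            positivity)))
        set lo := (D.G C).tlo true b'.1 b'.1.ax + 50 * ω3T δ C b'.1 with hlo
        set up := (D.G C).thi true b'.1 b'.1.ax - 50 * ω3T δ C b'.1 with hhi
        have hω := D.ω3T_pos C b'.1
        have hlh : lo ≤ up := by
          obtain ⟨x₀, hx₀⟩ := (pgn_of_fat (M.fat k)).nonempty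
          have := hmg x₀ hx₀
          linarith
        have hloc := X.out.lipf i' hi' k hki' L hL0 hLip b'.1 b'.2 lo up le_rfl hlh le_rfl
        have hlip := _root_.P073.H142.lip_of_local hcv
          (g := fun x => H238.K3.clm lo up (X.h1.toFun x b'.1.ax))
          (K := C₀ * L) fun x hx => by
            filter_upwards [hloc x hx (hxT x hx)] with y hy
            rw [Real.norm_eq_abs]
            exact hy
        -- the bands avoid the ends
        have hend : ∀ a ∈ Y₂.L.lv s.1 (tg s.1 β),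
            (a + Y₂.L.c s.1 β ≤ (D.G C).tlo true b'.1 b'.1.ax - 1024 * ω3T δ C b'.1 ∨
              lo ≤ a - Y₂.L.c s.1 β) ∧
            (a + Y₂.L.c s.1 β ≤ up ∨
              (D.G C).thi true b'.1 b'.1.ax + 1024 * ω3T δ C b'.1 ≤ a - Y₂.L.c s.1 β) := by
          intro a ha
          obtain ⟨-, m, hm, hma⟩ := PLev.mem_lv.1 ha
          rw [bt_tg] at hm hma
          have hc := (Y₂.L.lvs s.1 β).c0
          have hft := hfat b'
          have k1 := Y₂.bandp s.1 s.2 β m hm b' hRel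
            ((D.G C).tlo true b'.1 b'.1.ax - X.fat b', (D.G C).tlo true b'.1 b'.1.ax + X.fat b') (by
              unfold S1.slp
              exact Finset.mem_union_right _ (by simp))
          have k2 := Y₂.bandp s.1 s.2 β m hm b' hRel
            ((D.G C).thi true b'.1 b'.1.ax - X.fat b', (D.G C).thi true b'.1 b'.1.ax + X.fat b') (by
              unfold S1.slp
              exact Finset.mem_union_right _ (by simp))
          rw [hma] at k1 k2
          simp only at k1 k2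
          constructor
          · rcases k1 with k1 | k1
            · right; linarith
            · left; linarith
          · rcases k2 with k2 | k2
            · right; linarith
            · left; linarith
        have hwin : ∀ x ∈ M.F k, X.h1.toFun x (tg s.1 β) ∈
            Icc ((D.G C).tlo true b'.1 b'.1.ax - 1024 * ω3T δ C b'.1)
              ((D.G C).thi true b'.1 b'.1.ax + 1024 * ω3T δ C b'.1) := by
          intro x hx
          have e1 := X.out.dispT x (hkΩ hx) b'.1 b'.2 (hxT x hx)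
          have e2 := norm_le_pi_norm (X.h1.toFun x - h.toFun x) b'.1.ax
          rw [Pi.sub_apply, Real.norm_eq_abs] at e2
          have e3 := abs_le.1 (e2.trans e1)
          have e4 := hmg x hx
          rw [← hax]
          constructor <;> linarith [e3.1, e3.2, e4.1, e4.2]
        intro e he x hx y hy
        have hxF := (X.T k).cone_sub he hx
        have hyF := (X.T k).cone_sub he hy
        have e1 := hlip x hxF y hyF
        rw [Real.norm_eq_abs] at e1
        change |H238.K3.clm lo up (X.h1.toFun x b'.1.ax) -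
          H238.K3.clm lo up (X.h1.toFun y b'.1.ax)| ≤ _ at e1
        rw [hax] at e1
        rw [bdd_clm hlh hend (hwin x hxF) (hwin y hyF)]
        refine bdd_le.trans (e1.trans (mul_le_mul_of_nonneg_right ?_ (norm_nonneg _)))
        unfold FStar.con
        have hpos := _root_.P073.H142.elen_pos (edges M) e
        have h3 : L ≤ b e / ‖(edges M).b e - (edges M).a e‖ := (le_div_iff₀ hpos).2 (hLb e he)
        have h4 : 0 ≤ (∑ e ∈ ((edges M).fin_face k).toFinset, b e) / (X.T k).rho :=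
          div_nonneg (Finset.sum_nonneg fun e he =>
            hb0 e (((edges M).fin_face k).mem_toFinset.1 he)) (X.T k).rho_pos.le
        have h5 := mul_le_mul_of_nonneg_left h3 hC₀
        have h6 : 0 ≤ C₀ * (b e / ‖(edges M).b e - (edges M).a e‖) :=
          mul_nonneg hC₀ (hL0.le.trans h3)
        have h7 := mul_nonneg hC₀ h4
        linarith
    · intro e he x hx y hy
      rw [bdd_zero hcv.isPreconnected (hcont β) h1 ((X.T k).cone_sub he hx)
        ((X.T k).cone_sub he hy)]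
      exact mul_nonneg (hcon0 e he) (norm_nonneg _)
  have hcl := H233.FaceCl.of_cone (T := X.T k) hσ hfsq (C₁ := 32 * r * C₀) (by positivity) hb0
    (cst := fun x y => 8 * r * (bdd Y₂.L s.1 false (X.h1.toFun x (tg s.1 false))
      (X.h1.toFun y (tg s.1 false)) + bdd Y₂.L s.1 true (X.h1.toFun x (tg s.1 true))
        (X.h1.toFun y (tg s.1 true)))) (fun x => by rw [bdd_self, bdd_self]; ring)
    (fun x _ y _ z _ => by
      have h1 := bdd_tri (L := Y₂.L) (s := s.1) (β := false)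
        (t := X.h1.toFun x (tg s.1 false)) (t' := X.h1.toFun y (tg s.1 false))
        (t'' := X.h1.toFun z (tg s.1 false))
      have h2 := bdd_tri (L := Y₂.L) (s := s.1) (β := true)
        (t := X.h1.toFun x (tg s.1 true)) (t' := X.h1.toFun y (tg s.1 true))
        (t'' := X.h1.toFun z (tg s.1 true))
      have h3 := mul_le_mul_of_nonneg_left (add_le_add h1 h2) (show 0 ≤ 8 * r by linarith)
      linarith)
    (fun e he x hx y hy => by
      have h3 := mul_le_mul_of_nonneg_left (add_le_add (key false e he x hx y hy)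
        (key true e he x hx y hy)) (show 0 ≤ 8 * r by linarith)
      refine h3.trans (le_of_eq ?_)
      unfold FStar.con
      ring)
  refine hcl.mono hb0 (fun x hx y hy => ?_) le_rfl (by linarith)
  exact cstP_le Y₃ s.2 hWF (fun x hx => _root_.P073.H919.HB_PB (by norm_num)
    (by norm_num) s.1 (hHB x hx)) hr hx hy

/-- **all faces of a cell drawn in a plate** -/
theorem faceCl_P (hC₀ : 1 ≤ C₀) (hfat : ∀ b : pB C J₀, 2048 * ω3T δ C b.1 ≤ X.fat b)
    {k : M.κ} (hk : M.F k ⊆ M.Q i) {b : (edges M).ε → ℝ}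
    (hb : ∀ e, (edges M).seg e ⊆ M.F k → X.bn e ≤ b e)
    (hbh : ∀ e, (edges M).seg e ⊆ M.F k →
      ‖h.toFun ((edges M).b e) - h.toFun ((edges M).a e)‖ ≤ b e)
    (hL : ∀ i' ∈ Wc D C, M.F k ⊆ M.Q i' → ∃ L > 0,
      (∀ x ∈ M.F k, ∀ y ∈ M.F k, ‖h.toFun x - h.toFun y‖ ≤ L * ‖x - y‖) ∧
      ∀ e, (edges M).seg e ⊆ M.F k → L * ‖(edges M).b e - (edges M).a e‖ ≤ b e)
    {r q Cc : ℝ} (hr : 0 ≤ r)
    (hLa : k ∈ (D.dat C).Peel (D.G C) X.h1 → ∀ e, (edges M).seg e ⊆ M.F k →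
      Y₃.La e * ‖(edges M).b e - (edges M).a e‖ ≤ q * b e)
    (hWe : k ∈ (D.dat C).Peel (D.G C) X.h1 → ∀ e, (edges M).seg e ⊆ M.F k →
      Y₃.We e ≤ q * b e)
    (h1 : k ∉ Ys → 312 * (r * q) ≤ Cc) (h2 : k ∈ Ys → 2 * FW31.DK sc.K * (r * q) ≤ Cc)
    (hq : 0 ≤ q) (h3 : 1760 * r * C₀ ≤ Cc) :
    FaceCl M k (X.T k) b Cc Cc (cstP Y₃ s.1 r) := by
  have hb0 : ∀ e, (edges M).seg e ⊆ M.F k → 0 ≤ b e := fun e he =>
    (X.num.b_pos e).le.trans (hb e he)
  have hrC : 0 ≤ r * C₀ := by positivity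
  have hrq : 0 ≤ r * q := mul_nonneg hr hq
  by_cases hkp : k ∈ (D.dat C).Peel (D.G C) X.h1
  · obtain ⟨sq, hsq⟩ := face_squ Y₄ hi hk
    have hfsq := _root_.P073.H950.face_eq hsq
    have hσ : (0:ℝ) < 1 / 2 / 2 ^ sq.1.1 := by positivity
    have hRr : (X.T k).R / (X.T k).rho = 1 := by
      obtain ⟨-, e1, e2⟩ := (X.T k).sq _ _ _ hσ hfsq
      rw [e1, e2, div_self hσ.ne']
    refine faceCl_peel Y₄ hi hk hkp hb0 hr (hLa hkp) (hWe hkp) (fun hY => ?_) (fun hY => ?_)
    · rw [hRr]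
      have := h1 hY
      constructor <;> linarith
    · rw [hRr]
      have h4 := h2 hY
      have h5 : 0 ≤ FW31.DK sc.K * (r * q) :=
        mul_nonneg (by linarith [FW31.DK_ge sc.K]) hrq
      constructor <;> linarith
  · by_cases hkP : ∃ i' ∈ P, M.F k ⊆ M.Q i'
    · obtain ⟨i', hi', hki'⟩ := hkP
      exact (faceCl_prot Y₄ hi hC₀ hk hi' hki' hbh hr).mono hb0 (fun _ _ _ _ => le_rfl)
        (by linarith) (by linarith)
    · push Not at hkP
      exact (faceCl_strip Y₄ hi (by linarith) hfat hk hkP hkp hb hL hr).mono hb0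
        (fun _ _ _ _ => le_rfl) (by linarith) (by linarith)

end cell

end faces

end Vale.Agent.P073.H193
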