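import Vale.Agent.P073.H193.CellT
import Vale.Agent.P073.H429.TEx

/-!
# P073, block H193 ([CELL3], part e): cells drawn in the plates, through the layer of the tubes

* `plate_tube`: a point in a plate and in the support of the last staircase at an edge;
* `hkGO_cell_loc`: local facts on a drawn cell of a plate;
* `hkGO_cell_latT`: the map `Sm ∘ h6` on a cell drawn in a plate.
-/

open Set Metric Topology Filter MeasureTheory
open scoped ENNReal

set_option linter.unusedSectionVars false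

namespace Vale.Agent.P073.H193

open _root_.P073 _root_.P073.Net _root_.P073.PA691 _root_.P073.H936 _root_.P073.H936.K3
  _root_.P073.H142 _root_.P073.H880 _root_.P073.H880.RP _root_.P073.H345 _root_.P073.H236
  _root_.P073.H579 _root_.P073.H919 _root_.P073.H228 _root_.P073.H429
open Vale.Agent.P073
open Vale.Agent.P073.St (V)
open Vale.Agent.P073.AB (Idx squ)
open Vale.Agent.P073.H73 (Mesh)
open Vale.Agent.P073.H471 Vale.Agent.P073.H267
open Vale.Agent.P073.H233 (BdT PSet)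
open _root_.P073.H950 (Chart bsum bsum_nonneg)

/-! ### A plate and a tube -/

section geo

variable {Λ : Set V} {v : V} {K : BoxCx Λ v} {S : Rad K} {W : Wid K S} {B : Boxes W} {G : Geo B}

/-- **a point in a plate and in the support of the last staircase at the edge `e`** -/
theorem plate_tube {s : K.S} {e : K.G} {y : V}
    (hPB : y ∈ G.PB (7 / 8) s)
    (hy : y ∈ YB ((YS G).add (rT G) (rT_pos G) (fun e k => (YS_p_lt G e k).le)
      fun e k => (YS_q_lt G e k).le) e) :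
    K.edge e ⊆ K.sq s ∧ K.dir e ≠ K.nrm s ∧
    (K.slo s (K.dir e) + G.a s < y (K.dir e) ∧ y (K.dir e) < K.shi s (K.dir e) - G.a s) ∧
    (y (K.nrm s) ∈ Ioo (K.w (K.a e) (K.nrm s) - (YS G).p e (K.nrm s))
      (K.w (K.a e) (K.nrm s) + (YS G).q e (K.nrm s))) ∧
    ∀ j, j ≠ K.nrm s → j ≠ K.dir e → y j ∈ Ioo (K.w (K.a e) j - (YS G).p e j)
      (K.w (K.a e) j + (YS G).q e j) ∨
      y j ∈ Ioo (K.slo s j + G.a s) (K.shi s j - G.a s) := by
  have hPK : y ∈ PK G s := PB_sub_PK (by norm_num) s hPB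
  have hE : y ∈ B.E e := YB_sub_E _ e hy
  have hZe : y ∈ Ze W e := B.E_subset e hE
  have hes : K.edge e ⊆ K.sq s := edge_subset_sq (PK_sub_ss s hPK) hZe.1 (Ze_nJ hZe)
  have hne : K.dir e ≠ K.nrm s := (nrm_ne_dir hes).symm
  have ha := hes (TM.wa_mem K e)
  have hb := hes (TM.wb_mem K e)
  obtain ⟨hP1, hP2⟩ := Geo.mem_PB.1 hPB
  obtain ⟨⟨hy1, hy2⟩, -⟩ := mem_YB.1 hy
  unfold eal at hy1
  unfold ebe at hy2
  have hau := G.a_u s
  have huT := G.u_T s e hes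
  have hTa := B.T_le_a e
  have hTb := B.T_le_b e
  have hapos := G.a_pos s
  have hT := B.T_pos e
  have hτp := G.τ_p s
  have hpT := G.p_uT s e hes
  have hTT := uT_le_T G e
  have huTpos := G.uT_pos e
  have hτ := B.τ_pos s
  have hp := Geo.p_pos (G := G) s
  refine ⟨hes, hne, ⟨?_, ?_⟩, ?_, fun j hj hjd => ?_⟩
  · have := ha.1 (K.dir e)
    linarith
  · have := hb.2 (K.dir e)
    linarith
  · have h1 : K.w (K.a e) (K.nrm s) = K.slo s (K.nrm s) := TM.nrm_eq ha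
    have h2 := abs_le.1 hP2
    rw [h1, YS_p, YS_q]
    constructor <;> linarith [h2.1, h2.2]
  · have hq := S.q_pos e
    have hside := side_ge S hes hj hjd
    have hwe := W.we_le e
    have hTw := B.T_le e
    have h2 := abs_le.1 (hE.2 j hjd)
    have hlt := K.s_lt s j hj
    have hPj := hP1 j hj
    rcases edge_side hes hj hjd with h1 | h1
    · -- the plate is above
      by_cases h3 : y j < K.w (K.a e) j + (YS G).q e j
      · left
        refine ⟨?_, h3⟩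
        have := (YS G).p0 e j
        linarith
      · right
        rw [YS_q] at h3
        push Not at h3
        constructor
        · linarith
        · linarith [h2.2]
    · by_cases h3 : K.w (K.a e) j - (YS G).p e j < y j
      · left
        refine ⟨h3, ?_⟩
        have := (YS G).q0 e j
        linarith
      · right
        rw [YS_p] at h3
        push Not at h3
        constructor
        · linarith [h2.1]
        · linarith

end geo

/-! ### The drawn cells of the plates -/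

/-- clipping at a smaller level contracts -/
theorem abs_clp_sub_le {t r : ℝ} (t0 : 0 ≤ t) (htr : t ≤ r) (a b : ℝ) :
    |H880.clp t a - H880.clp t b| ≤ |H880.clp r a - H880.clp r b| := by
  have key : ∀ a, H880.clp t a = H880.clp t (H880.clp r a) := by
    intro a
    unfold H880.clp
    rcases le_total a r with h | h
    · rw [min_eq_left h]
      rcases le_total (-r) a with h1 | h1
      · rw [max_eq_right h1]
      · rw [max_eq_left h1, min_eq_left (by linarith : a ≤ t), min_eq_left (by linarith : -r ≤ t),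
          max_eq_left (by linarith : a ≤ -t), max_eq_left (by linarith : -r ≤ -t)]
    · rw [min_eq_right h, max_eq_right (by linarith : -r ≤ r), min_eq_right (htr.trans h),
        min_eq_right htr]
  have lip : ∀ a b, |H880.clp t a - H880.clp t b| ≤ |a - b| := by
    intro a b
    unfold H880.clp
    rw [max_comm (-t) (min a t), max_comm (-t) (min b t)]
    exact (abs_max_sub_max_le_abs (min a t) (min b t) (-t)).trans
      (abs_inf_sub_inf_le_abs a b t)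
  rw [key a, key b]
  exact lip _ _

theorem dsum_clip_le {ι E : Type*} [Fintype ι] {side : ι → Bool} {ax : Bool → Fin 3} {c w : ι → ℝ}
    {g : E → Fin 3 → ℝ} {t r : ℝ} (t0 : 0 ≤ t) (htr : t ≤ r) (x y : E) :
    dsum (wlev side ax t c w g) x y ≤ dsum (wlev side ax r c w g) x y :=
  Finset.sum_le_sum fun _ _ => abs_clp_sub_le t0 htr _ _

section plate

variable {Ω Λ : Set V} {v : V} {K : BoxCx Λ v} {S : Rad K} {W : Wid K S} {B : Boxes W}
  {G : Geo B} {L : PLev G} {S₀ : Set K.S} {F : Bool → BFam 3 S₀ Λ}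
  {T : Bool → ConHomeo Λ Λ} {M : Mesh Ω} {κ₀ κ₁ : V → V} {c d : ℝ} {Zb : S₀ → Set M.ι}
  {h2 h3 h4 : ConHomeo Ω Λ} {u : V}
  {H : HkG M L (Subtype.val : S₀ → K.S) F T κ₀ κ₁ c d Zb h2 h3 h4 u} {hΩ : IsOpen Ω}
  {r : S₀ → ℝ} {h5 : ConHomeo Ω Λ} {s : S₀} {i : M.ι}

/-- the levels of `h5` in the plate `s`, clipped at `t` -/
noncomputable abbrev plev (L : PLev G) (F : Bool → BFam 3 S₀ Λ) (t : ℝ) (h : V → V)
    (s : S₀) : _root_.P073.H919.PI L s.1 → V → ℝ :=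
  wlev (ι := _root_.P073.H919.PI L s.1) Sigma.fst (tg s.1) t (pcen L s.1)
    (pwid L (fun β => (F β).e s) s.1) h

/-- **the bound of the box of the plate on a drawn cell**, levels clipped at `t ≤ r s` -/
theorem hkGO_pieceR (O : HkGO H hΩ r h5) (hi : i ∈ Zb s) (r0 : 0 < r s) (r1 : r s < 1)
    {t : ℝ} (t0 : 0 ≤ t) (htr : t ≤ r s)
    {p : ℝ} (hp : 2 < p) {om ρ : ℝ} (hom : 0 ≤ om)
    (hρ : ∀ β, om ≤ ρ * stp (L.N s.1 β) (K.slo s.1 (tg s.1 β) + G.a s.1)
      (K.shi s.1 (tg s.1 β) - G.a s.1))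
    {𝓢 : Finset (Idx × Fin 3)} (hB : BdT u (H.idx i) 𝓢) {kf : Idx × Fin 3 → M.κ}
    (hkf : ∀ t ∈ 𝓢, M.F (kf t) = squ u t) (T' : ∀ k, FStar (edges M) k)
    {b : M.κ → (edges M).ε → ℝ} {C₁ C₂ : ℝ}
    (hb : ∀ t ∈ 𝓢, ∀ e, (edges M).seg e ⊆ M.F (kf t) → 0 ≤ b (kf t) e) (hC₂ : 0 ≤ C₂)
    (hcl : ∀ t ∈ 𝓢, FaceCl M (kf t) (T' (kf t)) (b (kf t)) C₁ C₂ (fun x y =>
      ρ * bandD (L.lv s.1) (L.loP s.1) (L.hiP s.1) (L.omP s.1) (h3.toFun x) (h3.toFun y))) :
    ∃ Kb : V → ℝ, Piece M p i u (H.idx i) 𝓢 kf T' b C₁ C₂ om Kb ∧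
      ∀ x ∈ M.Q i, ∀ᶠ y in 𝓝[M.Q i] x, om * dsum (plev L F t h5.toFun s) x y ≤
        Kb x * ‖y - x‖ := by
  obtain ⟨Kb, h1, h2⟩ := hkGO_piece O hi r0 r1 hp hom hρ hB hkf T' hb hC₂
    (fun t ht e he x hx y hy => (hcl t ht).cone e he x hx y hy)
    (fun t ht x hx y hy => by
      obtain ⟨γ', a1, a2, a3, a4, a5⟩ := (hcl t ht).path x (by rw [hkf t ht]; exact hx) y
        (by rw [hkf t ht]; exact hy)
      rw [hkf t ht] at a2
      exact ⟨γ', a1, a2, a3, a4, a5⟩)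
  refine ⟨Kb, h1, fun x hx => ?_⟩
  filter_upwards [h2 x hx] with y hy
  exact (mul_le_mul_of_nonneg_left (dsum_clip_le t0 htr x y) hom).trans hy

/-- **local facts on a drawn cell of a plate**: the map `f5 = S_σ ∘ h5` -/
theorem hkGO_cell_loc (O : HkGO H hΩ r h5) (hi : i ∈ Zb s) {Fσ : Bool → BFam 3 S₀ Λ}
    {ς : Bool → S₀ → ℝ} {Tσ : Bool → ConHomeo Λ Λ} (P : Sg3 L S₀ Fσ ς Tσ) {t : ℝ} (t0 : 0 ≤ t)
    (hw : ∀ β, 0 < bw (L.N s.1 β) (K.slo s.1 (tg s.1 β) + G.a s.1)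
      (K.shi s.1 (tg s.1 β) - G.a s.1) ((F β).e s))
    (he : ∀ β, (Fσ β).e s = stp (L.N s.1 β) (K.slo s.1 (tg s.1 β) + G.a s.1)
      (K.shi s.1 (tg s.1 β) - G.a s.1) / 2 - t * bw (L.N s.1 β)
        (K.slo s.1 (tg s.1 β) + G.a s.1) (K.shi s.1 (tg s.1 β) - G.a s.1) ((F β).e s))
    {a om : ℝ} (hA : ∀ β, slAK (Fσ β) (ς β) s * bw (L.N s.1 β)
      (K.slo s.1 (tg s.1 β) + G.a s.1) (K.shi s.1 (tg s.1 β) - G.a s.1) ((F β).e s) ≤ a * om)
    {K₂ ε : ℝ} {x : V} (hx : x ∈ M.Q i)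
    (hK : ∀ᶠ x' in 𝓝[M.Q i] x, ‖h5.toFun x' - h5.toFun x‖ ≤ K₂ * ‖x' - x‖)
    (hε : ∀ β, ς β s * K₂ ≤ ε) :
    PS.map Tσ (h5.toFun x) ∈ G.PB (7 / 8) s.1 ∧
    |PS.map Tσ (h5.toFun x) (K.nrm s.1) - K.slo s.1 (K.nrm s.1)| < B.τ s.1 ∧
    ∀ᶠ x' in 𝓝[M.Q i] x, ∀ j, j ≠ K.nrm s.1 → PS.map Tσ (h5.toFun x) j ∈ pwin G s.1 j →
      PS.map Tσ (h5.toFun x') j ∈ pwin G s.1 j →
      |PS.map Tσ (h5.toFun x') j - PS.map Tσ (h5.toFun x) j| ≤
        a * (om * dsum (plev L F t h5.toFun s) x x') + ε * ‖x' - x‖ := by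
  have hQΩ : M.Q i ⊆ Ω := M.sub i
  have hint' : ∀ y ∈ M.Q i, h4.toFun y ∈ interior (HB G c d s.1) := fun y hy =>
    H.int s i hi ⟨y, hy, rfl⟩
  have hi5 : ∀ y ∈ M.Q i, h5.toFun y ∈ interior (HB G c d s.1) := fun y hy =>
    hkGO_interior O (hQΩ hy) (hint' y hy)
  have hp : ∀ y ∈ M.Q i, h5.toFun y ∈ G.PB (7 / 8) s.1 := fun y hy =>
    HB_PB H.hc H.hd s.1 (interior_subset (hi5 y hy))
  refine ⟨P.mem_PB le_rfl (by norm_num) (hp x hx), ?_, ?_⟩
  · rw [P.nrm (hp x hx)]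
    have h1 := hi5 x hx
    have hτ := B.τ_pos s.1
    have hd1 : d * B.τ s.1 ≤ B.τ s.1 := by
      have := H.hd
      nlinarith
    rw [mem_interior_iff_mem_nhds] at h1
    obtain ⟨δ, hδ, hb⟩ := Metric.mem_nhds_iff.1 h1
    have key : ∀ σ : ℝ, |σ| < δ → |h5.toFun x (K.nrm s.1) + σ - K.slo s.1 (K.nrm s.1)| ≤
        d * B.τ s.1 := by
      intro σ hσ
      have h3 : Function.update (h5.toFun x) (K.nrm s.1) (h5.toFun x (K.nrm s.1) + σ) ∈
          HB G c d s.1 := by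
        refine hb ?_
        rw [mem_ball, dist_eq_norm]
        refine lt_of_le_of_lt ((pi_norm_le_iff_of_nonneg (abs_nonneg σ)).2 fun j => ?_) hσ
        rw [Pi.sub_apply, Real.norm_eq_abs]
        by_cases hj : j = K.nrm s.1
        · subst hj
          rw [Function.update_self, add_sub_cancel_left]
        · rw [Function.update_of_ne hj, sub_self, abs_zero]
          exact abs_nonneg _
      have h4 := (mem_HB.1 h3).2
      rwa [Function.update_self] at h4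
    have h5' := key (δ / 2) (by rw [abs_of_pos (by linarith)]; linarith)
    have h6 := key (-(δ / 2)) (by rw [abs_neg, abs_of_pos (by linarith)]; linarith)
    rw [abs_le] at h5' h6
    rw [abs_lt]
    constructor <;> linarith [h5'.2, h6.1]
  · filter_upwards [self_mem_nhdsWithin, hK] with x' hx' hK' j hj hwj hwj'
    rw [P.mem_win (hp x hx) hj] at hwj
    rw [P.mem_win (hp x' hx') hj] at hwj'
    have h6 := P.lip (g := h5.toFun) (hp x hx) (hp x' hx') t0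
      (e := fun β => (F β).e s) hw he hA hj hwj hwj'
    have hς := ((P.isS (bt s.1 j)).s0 s).le
    have h8 : |h5.toFun x' j - h5.toFun x j| ≤ K₂ * ‖x' - x‖ := by
      refine le_trans ?_ hK'
      have := norm_le_pi_norm (h5.toFun x' - h5.toFun x) j
      rwa [Pi.sub_apply, Real.norm_eq_abs] at this
    have h9 : ς (bt s.1 j) s * |h5.toFun x' j - h5.toFun x j| ≤ ε * ‖x' - x‖ := by
      calc _ ≤ ς (bt s.1 j) s * (K₂ * ‖x' - x‖) := mul_le_mul_of_nonneg_left h8 hς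
        _ = ς (bt s.1 j) s * K₂ * ‖x' - x‖ := by ring
        _ ≤ _ := mul_le_mul_of_nonneg_right (hε _) (norm_nonneg _)
    rw [← mul_assoc]
    linarith

variable {γ : Type} {φ : γ → K.G} {sl : γ → Finset (ℝ × ℝ)} {μ : γ → ℝ} {S₁ : Set K.S}
  {Th : ∀ b, Thn (eal W (φ b)) (ebe W (φ b)) (sl b) (μ b)} {f5 h6 : ConHomeo Ω Λ}
  {Sm : ConHomeo Λ Λ} {D : Set V} {hφ : Function.Injective φ} {ςT : γ → ℝ}
  {h0 : ∀ b, 0 < ςT b} {h1 : ∀ b, ςT b ≤ 1}
  {ι' : γ → Type} [∀ b, Fintype (ι' b)] {l h : ∀ b, ι' b → ℝ}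

/-- **the map `Sm ∘ h6` on a cell drawn in the plate `s`** -/
theorem hkGO_cell_latT (O : HkGO H hΩ r h5) {X : PSet K} (hX : PClosed X) (hs : s.1 ∈ X.s)
    (hi : i ∈ Zb s) {Fσ : Bool → BFam 3 S₀ Λ} {ς : Bool → S₀ → ℝ} {Tσ : Bool → ConHomeo Λ Λ}
    (P : Sg3 L S₀ Fσ ς Tσ) {t : ℝ} (t0 : 0 ≤ t)
    (hw : ∀ β, 0 < bw (L.N s.1 β) (K.slo s.1 (tg s.1 β) + G.a s.1)
      (K.shi s.1 (tg s.1 β) - G.a s.1) ((F β).e s))
    (he : ∀ β, (Fσ β).e s = stp (L.N s.1 β) (K.slo s.1 (tg s.1 β) + G.a s.1)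
      (K.shi s.1 (tg s.1 β) - G.a s.1) / 2 - t * bw (L.N s.1 β)
        (K.slo s.1 (tg s.1 β) + G.a s.1) (K.shi s.1 (tg s.1 β) - G.a s.1) ((F β).e s))
    {a om : ℝ} (hA : ∀ β, slAK (Fσ β) (ς β) s * bw (L.N s.1 β)
      (K.slo s.1 (tg s.1 β) + G.a s.1) (K.shi s.1 (tg s.1 β) - G.a s.1) ((F β).e s) ≤ a * om)
    (ha : 0 ≤ a) (hom : 0 ≤ om)
    (HT : TLay B φ (fun b => YB (YT G S₁) (φ b))
      (tfam (YS G) (rT G) (rT_pos G) (fun e k => (YS_p_lt G e k).le)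
        (fun e k => (YS_q_lt G e k).le) hφ Th h0 h1) D l h ςT f5 h6 Sm)
    (hD : Disjoint (M.Q i) D) (hf5 : ∀ x ∈ Ω, f5.toFun x = PS.map Tσ (h5.toFun x))
    {K₂ ε ε' : ℝ} {K₆ : γ → ℝ} (hε0 : 0 ≤ ε) (hε0' : 0 ≤ ε') {x : V} (hx : x ∈ M.Q i)
    (hsl : ∀ b, slG ((tfam (YS G) (rT G) (rT_pos G)
      (fun e k => (YS_p_lt G e k).le) (fun e k => (YS_q_lt G e k).le) hφ Th h0 h1).X b).al
      ((tfam (YS G) (rT G) (rT_pos G) (fun e k => (YS_p_lt G e k).le)
      (fun e k => (YS_q_lt G e k).le) hφ Th h0 h1).X b).be (l b) (h b) (ςT b) ≤ 2)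
    (hκ : ∀ b, 4 * (μ b * (ebe W (φ b) - eal W (φ b))) ≤ G.uT (φ b))
    (hμ : ∀ b, 0 ≤ μ b)
    (hK : ∀ᶠ x' in 𝓝[M.Q i] x, ‖h5.toFun x' - h5.toFun x‖ ≤ K₂ * ‖x' - x‖)
    (hε : ∀ β, ς β s * K₂ ≤ ε)
    (hK₆ : ∀ b, h6.toFun x ∈ YB ((YS G).add (rT G) (rT_pos G) (fun e k => (YS_p_lt G e k).le)
      fun e k => (YS_q_lt G e k).le) (φ b) →
      ∀ᶠ x' in 𝓝[M.Q i] x, ‖h6.toFun x' - h6.toFun x‖ ≤ K₆ b * ‖x' - x‖)
    (hε₆ : ∀ b, h6.toFun x ∈ YB ((YS G).add (rT G) (rT_pos G) (fun e k => (YS_p_lt G e k).le)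
      fun e k => (YS_q_lt G e k).le) (φ b) → ςT b * K₆ b ≤ ε') :
    LAtC B X (fun x' => 3 * a * (om * dsum (plev L F t h5.toFun s) x x') +
      (3 * ε + ε') * ‖x' - x‖) (M.Q i) (fun y => Sm.toFun (h6.toFun y)) x := by
  have hQΩ : M.Q i ⊆ Ω := M.sub i
  obtain ⟨hPB, hn, hloc⟩ := hkGO_cell_loc O hi P t0 hw he hA hx hK hε
  rw [← hf5 x (hQΩ hx)] at hPB hn
  have hloc' : ∀ᶠ x' in 𝓝[M.Q i] x, ∀ j, j ≠ K.nrm s.1 → f5.toFun x j ∈ pwin G s.1 j →
      f5.toFun x' j ∈ pwin G s.1 j → |f5.toFun x' j - f5.toFun x j| ≤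
        a * (om * dsum (plev L F t h5.toFun s) x x') + ε * ‖x' - x‖ := by
    filter_upwards [hloc, self_mem_nhdsWithin] with x' h3 hx' j hj h4 h5'
    rw [hf5 x (hQΩ hx)] at h4 ⊢
    rw [hf5 x' (hQΩ hx')] at h5' ⊢
    exact h3 j hj h4 h5'
  have hc : ContinuousWithinAt f5.toFun (M.Q i) x := (f5.cont.mono hQΩ) x hx
  have hd0 : ∀ x', 0 ≤ dsum (plev L F t h5.toFun s) x x' := fun x' =>
    Finset.sum_nonneg fun _ _ => abs_nonneg _
  have hc0 : ∀ x', 0 ≤ a * (om * dsum (plev L F t h5.toFun s) x x') + ε * ‖x' - x‖ := fun x' =>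
    add_nonneg (mul_nonneg ha (mul_nonneg hom (hd0 x'))) (mul_nonneg hε0 (norm_nonneg _))
  -- coordinates strictly inside the window
  have hwin : ∀ j, j ≠ K.nrm s.1 →
      f5.toFun x j ∈ Ioo (K.slo s.1 j + G.a s.1) (K.shi s.1 j - G.a s.1) →
      ∀ᶠ x' in 𝓝[M.Q i] x, |f5.toFun x' j - f5.toFun x j| ≤
        a * (om * dsum (plev L F t h5.toFun s) x x') + ε * ‖x' - x‖ := by
    intro j hj hm
    have h3 : Tendsto (fun x' => f5.toFun x' j) (𝓝[M.Q i] x) (𝓝 (f5.toFun x j)) :=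
      ((continuous_apply j).tendsto _).comp hc
    filter_upwards [h3.eventually (Ioo_mem_nhds hm.1 hm.2), hloc'] with x' h4 h5'
    exact h5' j hj ⟨hm.1.le, hm.2.le⟩ ⟨h4.1.le, h4.2.le⟩
  refine HT.latC hQΩ hx (fun hoff => ?_) fun b hb => ?_
  · refine latC_peeled G hX hs (c₀ := 7 / 8) (by norm_num) hc hPB hn ?_
    filter_upwards [hloc'] with x' h3 j hj h4 h5'
    refine (h3 j hj h4 h5').trans ?_
    have h6' := mul_nonneg ha (mul_nonneg hom (hd0 x'))
    have h7 := mul_nonneg hε0 (norm_nonneg (x' - x))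
    have h8 := mul_nonneg hε0' (norm_nonneg (x' - x))
    nlinarith
  · have hbK := hb
    change f5.toFun x ∈ (tX (YS G) (rT G) (rT_pos G) (Th b) (h0 b) (h1 b)).K at hbK
    rw [tX_K (hp := fun e k => (YS_p_lt G e k).le) (hq := fun e k => (YS_q_lt G e k).le)]
      at hbK
    obtain ⟨g1, g2, g3, g4, g5⟩ := plate_tube hPB hbK
    have hb6 : h6.toFun x ∈ YB ((YS G).add (rT G) (rT_pos G) (fun e k => (YS_p_lt G e k).le)
      fun e k => (YS_q_lt G e k).le) (φ b) := by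
      have h6 : h6.toFun x ∈ (tX (YS G) (rT G) (rT_pos G) (Th b) (h0 b) (h1 b)).K :=
        (HT.memK (hQΩ hx)).2 hb
      rwa [tX_K (hp := fun e k => (YS_p_lt G e k).le) (hq := fun e k => (YS_q_lt G e k).le)] at h6
    refine ⟨hX.e s.1 hs _ g1, hX.a s.1 hs _ g1, hX.b s.1 hs _ g1, ?_⟩
    have huT := G.uT_pos (φ b)
    have hDρ : ((tfam (YS G) (rT G) (rT_pos G) (fun e k => (YS_p_lt G e k).le)
        (fun e k => (YS_q_lt G e k).le) hφ Th h0 h1).X b).D / (G.uT (φ b) / 4) ≤ 1 := by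
      rw [div_le_one (by positivity)]
      have h3 : ((tfam (YS G) (rT G) (rT_pos G) (fun e k => (YS_p_lt G e k).le)
        (fun e k => (YS_q_lt G e k).le) hφ Th h0 h1).X b).D ≤
          μ b * (ebe W (φ b) - eal W (φ b)) := (Th b).disp_le (hμ b)
      have h4 := hκ b
      linarith
    refine HT.estC (c₀ := fun x' => a * (om * dsum (plev L F t h5.toFun s) x x') + ε * ‖x' - x‖)
      (c₁ := fun x' => a * (om * dsum (plev L F t h5.toFun s) x x') + ε * ‖x' - x‖)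
      (c₂ := fun x' => K₆ b * ‖x' - x‖) hQΩ hD hx (HT.Ese b hb) (ρ := G.uT (φ b) / 4)
      (by positivity) (fun k => le_rfl) (hsl b) hDρ ?_ (fun k hk => ?_)
      (Eventually.of_forall hc0) ?_ (Eventually.of_forall fun x' => ?_)
    · exact hwin _ g2 g3
    · change k ≠ K.dir (φ b) at hk
      by_cases hkn : k = K.nrm s.1
      · subst hkn
        left
        have h3 : ylo (YS G) (φ b) (K.nrm s.1) =
            K.w (K.a (φ b)) (K.nrm s.1) - (YS G).p (φ b) (K.nrm s.1) := by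
          simp only [ylo, if_neg hk]
        have h4 : yhi (YS G) (φ b) (K.nrm s.1) =
            K.w (K.a (φ b)) (K.nrm s.1) + (YS G).q (φ b) (K.nrm s.1) := by
          simp only [yhi, if_neg hk]
        show f5.toFun x (K.nrm s.1) ∈ Ioo (ylo (YS G) (φ b) (K.nrm s.1))
          (yhi (YS G) (φ b) (K.nrm s.1))
        rw [h3, h4]
        exact g4
      · rcases g5 k hkn hk with h5' | h5'
        · left
          have h3 : ylo (YS G) (φ b) k =
              K.w (K.a (φ b)) k - (YS G).p (φ b) k := by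
            simp only [ylo, if_neg hk]
          have h4 : yhi (YS G) (φ b) k =
              K.w (K.a (φ b)) k + (YS G).q (φ b) k := by
            simp only [yhi, if_neg hk]
          show f5.toFun x k ∈ Ioo (ylo (YS G) (φ b) k) (yhi (YS G) (φ b) k)
          rw [h3, h4]
          exact h5'
        · right
          exact hwin k hkn h5'
    · filter_upwards [hK₆ b hb6] with x' h3
      refine le_trans ?_ h3
      have := norm_le_pi_norm (h6.toFun x' - h6.toFun x) (K.dir (φ b))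
      rwa [Pi.sub_apply, Real.norm_eq_abs] at this
    · have h3 := mul_le_mul_of_nonneg_right (hε₆ b hb6) (norm_nonneg (x' - x))
      nlinarith [hc0 x']

end plate

end Vale.Agent.P073.H193
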