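import Vale.Agent.P073.H193.CellF
import Vale.Agent.P073.H193.CellPT
import Vale.Agent.P073.H233.Tail3I

/-!
# P073, block H193 ([CELL3]): the drawn cells over `S4`, `S5`

* `faceCl_of_loc`: the clauses of a square face from local estimates on the cones;
* `pieceP`, `latP`: the cells drawn in the plates;
* `pieceT`, `latT`: the cells drawn in the tubes;
* `latV`: the cells whose image is in the zone of a vertex.
-/

open Set Metric Topology Filter MeasureTheory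
open scoped ENNReal

set_option linter.unusedSectionVars false

namespace Vale.Agent.P073.H193

open _root_.P073 _root_.P073.Net _root_.P073.PA691 _root_.P073.H936 _root_.P073.H936.K3
  _root_.P073.H142 _root_.P073.H880 _root_.P073.H880.RP _root_.P073.H345 _root_.P073.H236
  _root_.P073.H579 _root_.P073.H919 _root_.P073.H228 _root_.P073.H429
open Vale.Agent.P073
open Vale.Agent.P073.St (V)
open Vale.Agent.P073.AB (Idx squ)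
open Vale.Agent.P073.H73 (Mesh)
open Vale.Agent.P073.H471 Vale.Agent.P073.H267
open Vale.Agent.P073.H926
open Vale.Agent.P073.H238.K3 (Zd Wc Act TOut3)
open Vale.Agent.P073.H267.K3
open Vale.Agent.P073.H233 (BdT PSet Xp)

section loc

variable {Ω : Set V} {M : Mesh Ω} {v : V}

/-- **the clauses of a square face** from local estimates on the cones -/
theorem faceCl_of_loc {k : M.κ} {T : FStar (edges M) k} {s : Idx × Fin 3} (hk : M.F k = squ v s)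
    {b : (edges M).ε → ℝ} (hb : ∀ e, (edges M).seg e ⊆ M.F k → 0 ≤ b e) {C ρ : ℝ} (hC : 0 ≤ C)
    (hρ : 0 ≤ ρ) {g : V → ℝ} (hloc : ∀ e, (edges M).seg e ⊆ M.F k →
      ∀ x ∈ coneSetAt T.O ((edges M).seg e), ∀ᶠ y in 𝓝[coneSetAt T.O ((edges M).seg e)] x,
        |g y - g x| ≤ T.con C b e * ‖y - x‖) :
    FaceCl M k T b (ρ * C) (55 * (ρ * C)) (fun x y => ρ * |g x - g y|) := by
  have hσ : (0:ℝ) < 1 / 2 / 2 ^ s.1.1 := by positivity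
  refine H233.FaceCl.of_cone (T := T) hσ (_root_.P073.H950.face_eq hk) (by positivity) hb
    (fun x => by rw [sub_self, abs_zero, mul_zero]) (fun x _ y _ z _ => ?_)
    fun e he x hx y hy => ?_
  · rw [← mul_add]
    exact mul_le_mul_of_nonneg_left (abs_sub_le _ _ _) hρ
  · have h1 := _root_.P073.H142.lip_of_local (_root_.P073.H142.convex_cone_seg T.O e) (g := g)
      (K := T.con C b e) (fun x hx => by
        filter_upwards [hloc e he x hx] with y hy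
        rw [Real.norm_eq_abs]
        exact hy) x hx y hy
    rw [Real.norm_eq_abs] at h1
    have h2 := mul_le_mul_of_nonneg_left h1 hρ
    refine h2.trans (le_of_eq ?_)
    unfold FStar.con
    ring

end loc

variable {c₀ n δ : ℝ} {j : ℕ} {Ω Λ : Set V} {v w : V} {ρ : V → ℝ} {M : Mesh Ω} {h : ConHomeo Ω Λ}
  {J₀ J : Set (ℕ × (Fin 3 → ℤ))} {P Z : Set M.ι} {K : BoxCx Λ w}
  {D : KIn3 c₀ n j δ v w ρ M h J₀ J P Z} {C : Cells ρ w K} {C₀ μT : ℝ}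
  {X : S1 D C C₀ μT} {Y₂ : S2 X} {Ys : Set M.κ} {sc : Sharp} {Y₃ : S3 Y₂ Ys sc}

/-- the processed edges and vertices of the processed squares -/
theorem xpc (C : Cells ρ w K) (J₀ : Set (ℕ × (Fin 3 → ℤ))) : PClosed (Xp C J₀) where
  e := fun s hs i hi => pG_of_pS hs hi
  a := fun s hs i hi => pW_of_pS hs (hi (TM.wa_mem K i))
  b := fun s hs i hi => pW_of_pS hs (hi (TM.wb_mem K i))

/-- dyadic cubes are convex -/
theorem dyc_convex' (v : V) (m : ℕ) (z : Fin 3 → ℤ) : Convex ℝ (dyc v m z) := by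
  have h : dyc v m z = Set.pi univ
      (fun k => Icc (v k + z k / 2 ^ m) (v k + (z k + 1) / 2 ^ m)) := by
    ext x
    simp only [dyc, Set.mem_ofPred_eq, Set.mem_pi, mem_univ, forall_true_left, mem_Icc]
  rw [h]
  exact convex_pi fun k _ => convex_Icc _ _

/-- distinct cells -/
theorem cell_disj (M : Mesh Ω) {i : M.ι} {A : Set M.ι} (hi : i ∉ A) :
    Disjoint (M.Q i) (⋃ i' ∈ A, interior (M.Q i')) := by
  rw [Set.disjoint_left]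
  intro x hx hx'
  obtain ⟨i', hi', hx'⟩ := mem_iUnion₂.1 hx'
  exact Set.disjoint_left.1 (M.disj i' i (fun h => hi (h ▸ hi'))) hx' hx

section plate

variable {s : (D.dat C).S₀} {i : M.ι}

/-- **the bound of a cell drawn in a plate** -/
theorem pieceP (Y₄ : S4 Y₃) (hi : i ∈ _root_.P073.H919.ZbP (D.G C) (D.dat C) Y₃.h4 s) {p : ℝ}
    (hp : 2 < p) {𝓢 : Finset (Idx × Fin 3)} (hB : BdT v (Y₄.H.idx i) 𝓢) {kf : Idx × Fin 3 → M.κ}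
    (hkf : ∀ t ∈ 𝓢, M.F (kf t) = squ v t) (hkQ : ∀ t ∈ 𝓢, M.F (kf t) ⊆ M.Q i)
    {b : (edges M).ε → ℝ} (hb : ∀ t ∈ 𝓢, ∀ e, (edges M).seg e ⊆ M.F (kf t) → 0 ≤ b e) {Cc : ℝ}
    (hCc : 0 ≤ Cc) (hcl : ∀ t ∈ 𝓢, FaceCl M (kf t) (X.T (kf t)) b Cc Cc (cstP Y₃ s.1 1)) :
    ∃ Kb : V → ℝ, Piece M p i v (Y₄.H.idx i) 𝓢 kf X.T (fun _ => b) Cc Cc (Y₂.Lw.om s.1 false) Kb ∧
      ∀ x ∈ M.Q i, ∀ᶠ y in 𝓝[M.Q i] x, Y₂.Lw.om s.1 false *
        dsum (plev Y₃.Lt Y₃.F (Y₄.q s * Y₄.r s) Y₄.h5.toFun s) x y ≤ Kb x * ‖y - x‖ := by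
  have h0 : 0 ≤ Y₂.Lw.om s.1 false := (stp_pos (Y₃.Lt.bx false s.1)).le
  refine hkGO_pieceR (ρ := 1) Y₄.hko hi (Y₄.r0 s) (Y₄.r1 s) (Y₄.p0 s).le
    (mul_le_of_le_one_left (Y₄.r0 s).le (Y₄.q1 s).le) hp h0 (fun β => ?_) hB hkf X.T
    (b := fun _ => b) hb hCc fun t ht => ?_
  · rw [one_mul]
    exact (Y₂.Lw.om_eq s.1 false β).le
  · refine (hcl t ht).mono (hb t ht) (fun x hx y hy => le_of_eq ?_) le_rfl le_rfl
    unfold cstP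
    rw [h3p_eq Y₄ hi (hkQ t ht hx), h3p_eq Y₄ hi (hkQ t ht hy)]

/-- **the last map on a cell drawn in a plate** -/
theorem latP {Y₄ : S4 Y₃} (Y₅ : S5 Y₄)
    (hi : i ∈ _root_.P073.H919.ZbP (D.G C) (D.dat C) Y₃.h4 s) (hqr : 1 / 2 ≤ Y₄.q s * Y₄.r s)
    (μ0 : ∀ b, 0 ≤ Y₅.μ b) (μ1 : ∀ b, Y₅.μ b ≤ 1)
    (μu : ∀ b : pG C J₀, 4 * (Y₅.μ b * (ebe (D.W C) b.1 - eal (D.W C) b.1)) ≤ (D.G C).uT b.1)
    {ε ε' : ℝ} (hε : Y₄.ε s ≤ ε) (hε0 : 0 ≤ ε') (hε' : ∀ b : pG C J₀, (∃ x ∈ M.Q i, Y₅.h6.toFun x ∈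
      YB ((YS (D.G C)).add (rT (D.G C)) (rT_pos (D.G C)) (fun e k => (YS_p_lt (D.G C) e k).le)
        fun e k => (YS_q_lt (D.G C) e k).le) b.1) → Y₅.ε b ≤ ε') {x : V} (hx : x ∈ M.Q i) :
    LAtC (D.B C) (Xp C J₀) (fun x' => 3 * (Y₂.Lw.om s.1 false *
        dsum (plev Y₃.Lt Y₃.F (Y₄.q s * Y₄.r s) Y₄.h5.toFun s) x x') +
      (3 * ε + ε') * ‖x' - x‖) (M.Q i) Y₅.f.toFun x := by
  have PST := _root_.P073.H919.PSt.of_PS3 Y₃.ps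
  have h0 : 0 ≤ Y₂.Lw.om s.1 false := (stp_pos (Y₃.Lt.bx false s.1)).le
  have hε1 : 0 ≤ ε := ((Y₄.ς0 true s).le.trans (Y₄.ςε true s)).trans hε
  have hiT : ∀ b, i ∉ ZbT Y₄ b := fun b hb => hb.2.1 s hi
  have h5m : Y₄.h5.toFun x ∈ PK (D.G C) s.1 := by
    have h1 := hkGO_interior Y₄.hko (M.sub i hx) (Y₄.H.int s i hi ⟨x, hx, rfl⟩)
    exact PB_sub_PK (by norm_num) s.1 (_root_.P073.H919.HB_PB (c := 7 / 8) (by norm_num)
      (by norm_num) s.1 (interior_subset h1))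
  have key := hkGO_cell_latT (r := Y₄.r) (a := 1) (om := Y₂.Lw.om s.1 false) (K₂ := Y₄.K₂ s)
    (ε := ε) (ε' := ε') (K₆ := Y₅.K₂) Y₄.hko (xpc C J₀) (X := Xp C J₀) s.2 hi Y₄.sg (Y₄.p0 s).le
    (fun β => bw_pos' PST β s) (fun β => sfam_e PST Y₄.p0 Y₄.p1 β s) (fun β => ?_) zero_le_one h0
    Y₅.lay ?_ Y₄.map5 hε1 hε0 hx (fun b => ?_) μu μ0 ?_ (fun β => (Y₄.ςK β s).trans hε) (fun b hb => ?_)
    (fun b hb => (Y₅.ςK b).trans (hε' b ⟨x, hx, hb⟩))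
  · refine key.mono (Eventually.of_forall fun x' => le_of_eq ?_)
    ring
  · have h1 := slAK_sfam_plate PST Y₄.p0 Y₄.p1 (ς := Y₄.ς β) (fun b => (Y₄.ς0 β b).le) β s
    refine h1.trans ?_
    have h2 : stp (Y₃.Lt.N s.1 β) (K.slo s.1 (tg s.1 β) + (D.G C).a s.1)
      (K.shi s.1 (tg s.1 β) - (D.G C).a s.1) = Y₂.Lw.om s.1 false := Y₂.Lw.om_eq s.1 β false
    rw [h2, div_le_iff₀ (Y₄.p0 s)]
    nlinarith
  · rw [Set.disjoint_left]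
    intro y hy hy'
    obtain ⟨b', hy'⟩ := mem_iUnion.1 hy'
    exact Set.disjoint_left.1 (cell_disj M (hiT b')) hy hy'
  · exact ((Y₅.Th b).slG_le (Y₅.ς0 b).le (Y₅.ς1 b) (μ0 b)).trans (by linarith [μ1 b])
  · exact nhdsWithin_le_nhds (Y₄.lip5 s x (M.sub i hx) h5m)
  · exact nhdsWithin_le_nhds (Y₅.lip6 b x (M.sub i hx) hb)

end plate

section tube

variable {b : pG C J₀} {i : M.ι} {Y₄ : S4 Y₃}

/-- **the bound of a cell drawn in a tube** -/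
theorem pieceT (Y₅ : S5 Y₄) (hi : i ∈ ZbT Y₄ b) {p : ℝ} (hp : 2 < p)
    {𝓢 : Finset (Idx × Fin 3)} (hB : BdT v (Y₅.H.idx i) 𝓢) {kf : Idx × Fin 3 → M.κ}
    (hkf : ∀ t ∈ 𝓢, M.F (kf t) = squ v t) {bb : (edges M).ε → ℝ}
    (hb : ∀ t ∈ 𝓢, ∀ e, (edges M).seg e ⊆ M.F (kf t) → 0 ≤ bb e) {Cc : ℝ} (hCc : 0 ≤ Cc)
    (hcl : ∀ t ∈ 𝓢, FaceCl M (kf t) (X.T (kf t)) bb Cc Cc (fun x y =>
      1 * |Y₄.f5.toFun x (K.dir b.1) - Y₄.f5.toFun y (K.dir b.1)|)) :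
    ∃ Kb : V → ℝ, Piece M p i v (Y₅.H.idx i) 𝓢 kf X.T (fun _ => bb) Cc Cc (Y₅.Th b).hw Kb ∧
      ∀ x ∈ M.Q i, ∀ᶠ y in 𝓝[M.Q i] x,
        (Y₅.Th b).hw * dsum (tlev Y₅.Th Y₅.h6.toFun b) x y ≤ Kb x * ‖y - x‖ :=
  hkT_piece Y₅.H D.bΩ.1 Y₅.tube hi hp (Y₅.Th b).hw_pos.le zero_le_one (by rw [one_mul]) hB hkf
    X.T (bb := fun _ => bb) hb hCc hcl

/-- **the last map on a cell drawn in a tube** -/
theorem latT (Y₅ : S5 Y₄) (hi : i ∈ ZbT Y₄ b) (μ0 : ∀ b, 0 ≤ Y₅.μ b) (μ1 : Y₅.μ b ≤ 1) {x : V}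
    (hx : x ∈ M.Q i) :
    LAtC (D.B C) (Xp C J₀) (fun x' => 2 * ((Y₅.Th b).hw *
        dsum (tlev Y₅.Th Y₅.h6.toFun b) x x') + Y₅.ε b * ‖x' - x‖) (M.Q i) Y₅.f.toFun x := by
  have hYp : ∀ e k, (YT (D.G C) (pS C J₀)).p e k ≤ (YS (D.G C)).p e k := YT_YS_p (D.G C) (pS C J₀)
  have hYq : ∀ e k, (YT (D.G C) (pS C J₀)).q e k ≤ (YS (D.G C)).q e k := YT_YS_q (D.G C) (pS C J₀)
  have hcv : Convex ℝ (M.Q i) := by
    rw [Y₅.H.idx_spec hi]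
    exact dyc_convex' _ _ _
  have hlip := _root_.P073.H142.lip_of_local hcv (g := Y₅.h6.toFun) (K := Y₅.K₂ b) fun x hx => by
    refine nhdsWithin_le_nhds (Y₅.lip6 b x (M.sub i hx) ?_)
    exact YB_mono (fun e k => (hYp e k).trans (by
      show (YS (D.G C)).p e k ≤ (YS (D.G C)).p e k + rT (D.G C) e k
      linarith [rT_pos (D.G C) e k])) (fun e k => (hYq e k).trans (by
      show (YS (D.G C)).q e k ≤ (YS (D.G C)).q e k + rT (D.G C) e k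
      linarith [rT_pos (D.G C) e k])) _ (HkT.cell Y₅.tube hi hx)
  exact hkT_latC Y₅.H D.bΩ.1 Y₅.tube hYp hYq μ0 Y₅.isH (YS_p_lt (D.G C)) (YS_q_lt (D.G C))
    (X := Xp C J₀) b.2 (pW_of_pG b.2 (Or.inl rfl)) (pW_of_pG b.2 (Or.inr rfl)) hi (a := 2) (om := (Y₅.Th b).hw)
    (mul_le_mul_of_nonneg_right (by linarith) (Y₅.Th b).hw_pos.le) hlip (Y₅.ςK b) hx

end tube

/-- **the last map on a cell whose image is in the zone of a vertex** -/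
theorem latV {Y₄ : S4 Y₃} (Y₅ : S5 Y₄) {i : M.ι} {i' : K.W} (hi' : i' ∈ pW C J₀)
    (hV : Y₅.f.toFun '' M.Q i ⊆ interior (Zv (D.W C) i')) {e : ℝ} {x : V} (hx : x ∈ M.Q i) :
    LAtC (D.B C) (Xp C J₀) (fun y => e * ‖y - x‖) (M.Q i) Y₅.f.toFun x :=
  Or.inr (Or.inr (Or.inr ⟨i', hi', hV ⟨x, hx, rfl⟩⟩))

end Vale.Agent.P073.H193
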