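import Vale.Agent.P073.H193.LipCell

/-!
# P073, block H193 ([CELL-IN]): the interface of the clauses `drawn` and `lip` for a drawn cell

* `faceData_cst`: face data from the cone and path clauses of any cost which bounds the levels;
* `cell_piece`: one box gives one bound `Kb` (energy and sup);
* `CellIn`: all boxes of one drawn cell; `CellIn.drawn`, `CellIn.lipOn`.
-/

open Set Metric Topology Filter MeasureTheory
open scoped ENNReal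

namespace Vale.Agent.P073.H193

open Vale.Agent.P073.St (V)
open Vale.Agent.P073.AB (Idx squ)
open Vale.Agent.P073.AB.P86 (sc)
open Vale.Agent.P073.H73 (onSeg Mesh Adapted sqr)
open Vale.Agent.P073.H233 (BdT fInt ZS cp)
open Vale.Agent.P073.H304 (LipBd)
open Vale.Agent.P073.H155 (vv ce)
open _root_.P073 (ConHomeo coneSetAt)
open _root_.P073.H155 (cm ab cn)
open _root_.P073.H142 (FStar Num FaceData Loc old LevIn)
open _root_.P073.H880 (cvar dsum dsum_nonneg)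
open _root_.P073.H936.K3 (BoxK)
open _root_.P073.H579 (bandD)
open _root_.P073.H950 (bsum bsum_nonneg Tiny dK Chart pm upperSemicontinuous_pm eventually_le_pm
  pm_nonneg)
open _root_.P073.Net (len dyc dyo)

variable {Ω : Set V} {M : Mesh Ω} {p C₁ C₂ : ℝ} {v : V} {z : Idx} {𝓢 : Finset (Idx × Fin 3)}
  {kf : Idx × Fin 3 → M.κ} {b : M.κ → (edges M).ε → ℝ}

/-! ### The face data -/

section face

variable {ι : Type*} [Fintype ι] {side : ι → Bool} {ax : Bool → Fin 3} {lo hi : Fin 3 → ℝ}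
  {c w : ι → ℝ} {U : Set V} {Qt : Type}

/-- **the face data of a drawn cell** from the cone and path clauses of a cost `cst s` on each
square; the levels of the box (weight `om`) are bounded by `2 * cst s` -/
theorem faceData_cst (D : BoxK side ax lo hi c w U Qt) {om : ℝ}
    (hkf : ∀ s ∈ 𝓢, M.F (kf s) = squ v s) (T : ∀ k, FStar (edges M) k)
    (hb : ∀ s ∈ 𝓢, ∀ e, (edges M).seg e ⊆ M.F (kf s) → 0 ≤ b (kf s) e) (hC₂ : 0 ≤ C₂)
    {cst : Idx × Fin 3 → V → V → ℝ}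
    (hcst : ∀ s ∈ 𝓢, ∀ x ∈ squ v s, ∀ y ∈ squ v s, om * dsum (old D) x y ≤ 2 * cst s x y)
    (hcone : ∀ s ∈ 𝓢, ∀ e, (edges M).seg e ⊆ M.F (kf s) →
      ∀ x ∈ coneSetAt (T (kf s)).O ((edges M).seg e),
      ∀ y ∈ coneSetAt (T (kf s)).O ((edges M).seg e),
      cst s x y ≤ (T (kf s)).con C₁ (b (kf s)) e * ‖x - y‖)
    (hpath : ∀ s ∈ 𝓢, ∀ x ∈ squ v s, ∀ y ∈ squ v s, ∃ γ : ℝ → V, ContinuousOn γ (Icc 0 3) ∧
      MapsTo γ (Icc 0 3) (squ v s) ∧ γ 0 = x ∧ γ 3 = y ∧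
      cvar (fun t t' => ENNReal.ofReal (cst s (γ t) (γ t'))) 0 3 ≤
        ENNReal.ofReal (C₂ * bsum M (kf s) (b (kf s)))) :
    FaceData D v om 𝓢 (fun s x => 2 * (T (kf s)).G C₁ (b (kf s)) x)
      (fun s => 2 * (C₂ * bsum M (kf s) (b (kf s)))) where
  usc := fun s hs => by
    have h1 : UpperSemicontinuous ((T (kf s)).G C₁ (b (kf s))) :=
      _root_.P073.H155.usc_cm _ _ _ _
    have hc : Continuous fun x : ℝ => 2 * x := by fun_prop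
    exact (hc.comp_upperSemicontinuous h1 fun a b hab => by
      show 2 * a ≤ 2 * b
      linarith).upperSemicontinuousOn _
  nonneg := fun s _ x _ => mul_nonneg zero_le_two (_root_.P073.H155.cm_nonneg _ _ _ _ _)
  lip := fun s hs x hx => by
    have h1 := (T (kf s)).star.ev_lip (cost := fun y x => cst s x y)
      (A := ab C₁ (T (kf s)).rho ((T (kf s)).C.n + 1) (vv (T (kf s)).C)
        (fun j => b (kf s) (ce (T (kf s)).C j)))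
      (fun j _ x hx y hy => by
        rw [(T (kf s)).ab_eq, dist_eq_norm, norm_sub_rev]
        rw [(T (kf s)).cn_eq] at hx hy
        exact hcone s hs _ ((T (kf s)).C.sub _) x hx y hy) x
    rw [hkf s hs] at h1
    filter_upwards [h1, self_mem_nhdsWithin] with y hy hyF
    refine (hcst s hs x hx y hyF).trans ?_
    have h2 : cst s x y ≤ (T (kf s)).G C₁ (b (kf s)) x * dist y x := hy
    linarith
  A0 := fun s hs => mul_nonneg zero_le_two (mul_nonneg hC₂ (bsum_nonneg (hb s hs)))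
  path := fun s hs x hx y hy => by
    obtain ⟨γ, h1, h2, h3, h4, h5⟩ := hpath s hs x hx y hy
    refine ⟨γ, 0, 3, by norm_num, h1, h2, h3, h4, ?_⟩
    refine (_root_.P073.H142.cvar_mul_le (K := ENNReal.ofReal 2)
      (c' := fun t t' => ENNReal.ofReal (cst s (γ t) (γ t'))) fun t ht t' ht' _ => ?_).trans ?_
    · rw [← ENNReal.ofReal_mul zero_le_two]
      exact ENNReal.ofReal_le_ofReal (hcst s hs _ (h2 ht) _ (h2 ht'))
    · rw [ENNReal.ofReal_mul zero_le_two]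
      gcongr

/-! ### One box -/

/-- the properties of one bound `Kb` on the drawn cell `i` -/
structure Piece (M : Mesh Ω) (p : ℝ) (i : M.ι) (v : V) (z : Idx) (𝓢 : Finset (Idx × Fin 3))
    (kf : Idx × Fin 3 → M.κ) (T : ∀ k, FStar (edges M) k) (b : M.κ → (edges M).ε → ℝ)
    (C₁ C₂ : ℝ) (om : ℝ) (Kb : V → ℝ) : Prop where
  usc : UpperSemicontinuous Kb
  nonneg : ∀ x, 0 ≤ Kb x
  int : ∫⁻ x in M.Q i, ENNReal.ofReal (Kb x ^ p) ≤ ENNReal.ofReal (cp p) *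
        ((∑ s ∈ 𝓢, ENNReal.ofReal (2 ^ s.1.1 / 2 ^ z.1) *
          fInt p v s (fun x => 2 * (T (kf s)).G C₁ (b (kf s)) x)) +
          ENNReal.ofReal ((1 / 2 ^ z.1) * ZS p 𝓢 (fun s => 2 * (C₂ * bsum M (kf s) (b (kf s)))) +
            (1 / 2 ^ z.1 : ℝ) ^ (3 - p) * om ^ p))
  sup : ∀ L, 0 ≤ L → (∀ s ∈ 𝓢, ∀ x ∈ squ v s, 2 * (T (kf s)).G C₁ (b (kf s)) x ≤ L) →
      (∀ s ∈ 𝓢, 2 * (C₂ * bsum M (kf s) (b (kf s))) ≤ L / 2 ^ s.1.1) →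
      ∀ x, Kb x ≤ cs p * (L + om * 2 ^ z.1)

/-- **one box of one drawn cell**: functions `u` which change locally at most as the levels of the
drawn sheets of the box -/
theorem cell_piece (hp : 2 < p) {i : M.ι} (hQ : M.Q i = dyc v z.1 z.2) (H : BdT v z 𝓢)
    {T : ∀ k, FStar (edges M) k} {D : BoxK side ax lo hi c w U Qt} {κ : Type*} [Fintype κ]
    {u : κ → V → ℝ} (hu : Loc D u) {q : Qt} (hC : dyc v z.1 z.2 = D.K.C q)
    (hS : dyc v z.1 z.2 \ dyo v z.1 z.2 = frontier (D.K.C q))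
    (hch : D.K.chart q = (Chart.dya v z).cast hC hS) {om : ℝ} (hom : 0 ≤ om)
    (F : FaceData D v om 𝓢 (fun s x => 2 * (T (kf s)).G C₁ (b (kf s)) x)
      (fun s => 2 * (C₂ * bsum M (kf s) (b (kf s))))) :
    ∃ Kb : V → ℝ, Piece M p i v z 𝓢 kf T b C₁ C₂ om Kb ∧
      ∀ x ∈ M.Q i, ∀ᶠ y in 𝓝[M.Q i] x, om * dsum u x y ≤ Kb x * ‖y - x‖ := by
  obtain ⟨Kb, h1, h2, h3, h4, h5⟩ := hu.cellp_sup hp hC hS hch H hom F
  have e : M.Q i = D.K.C q := hQ.trans hC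
  refine ⟨Kb, ⟨h1, h2, by rw [e]; exact h4, h5⟩, fun x hx => ?_⟩
  rw [e] at hx ⊢
  filter_upwards [h3 x hx] with y hy
  rw [← dist_eq_norm]
  exact hy

end face

/-! ### All boxes of one drawn cell -/

/-- **[CELL-IN]** the data of one drawn cell: finitely many bounds, one for each box -/
structure CellIn (M : Mesh Ω) (p : ℝ) (i : M.ι) (v : V) (z : Idx) (𝓢 : Finset (Idx × Fin 3))
    (kf : Idx × Fin 3 → M.κ) (T : ∀ k, FStar (edges M) k) (b : M.κ → (edges M).ε → ℝ)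
    (C₁ C₂ : ℝ) {J : Type*} [Fintype J] (Kb : J → V → ℝ) (om : J → ℝ) (a e : ℝ) (g : V → V) :
    Prop where
  hQ : M.Q i = dyc v z.1 z.2
  bd : BdT v z 𝓢
  hkf : ∀ s ∈ 𝓢, M.F (kf s) = squ v s
  piece : ∀ j, Piece M p i v z 𝓢 kf T b C₁ C₂ (om j) (Kb j)
  a0 : 0 ≤ a
  e0 : 0 ≤ e
  lip : ∀ x ∈ M.Q i, ∀ᶠ y in 𝓝[M.Q i] x, ‖g y - g x‖ ≤ (a * ∑ j, Kb j x + e) * ‖y - x‖

section cellIn

variable {i : M.ι} {T : ∀ k, FStar (edges M) k} {J : Type*} [Fintype J] {Kb : J → V → ℝ}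
  {om : J → ℝ} {a e : ℝ} {g : V → V}

/-- the squares of the cell are in the cell -/
theorem CellIn.kQ (I : CellIn M p i v z 𝓢 kf T b C₁ C₂ Kb om a e g) :
    ∀ s ∈ 𝓢, M.F (kf s) ⊆ M.Q i := by
  intro s hs x hx
  rw [I.hkf s hs] at hx
  have h1 : x ∈ dyc v z.1 z.2 \ dyo v z.1 z.2 := I.bd.bd_eq.ge (mem_iUnion₂.2 ⟨s, hs, hx⟩)
  rw [I.hQ]
  exact h1.1

/-- **the clause `drawn`** -/
theorem CellIn.drawn (I : CellIn M p i v z 𝓢 kf T b C₁ C₂ Kb om a e g) (hp : 2 < p)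
    {h : V → V} {D₀ : ℝ} (hD₀ : 0 ≤ D₀) {ε : M.κ → ℝ} (hε : ∀ k, 0 < ε k)
    (hb : ∀ s ∈ 𝓢, Num (kf s) h D₀ (ε (kf s)) (b (kf s))) (hC₁ : 0 ≤ C₁) (hC₂ : 0 ≤ C₂)
    (hom : ∀ j, Tiny M p z 𝓢 kf b (om j)) (heT : Tiny M p z 𝓢 kf b e) {C : ℝ}
    (hC : 2 ^ (p - 1) * ((a * Fintype.card J) ^ p + 1) * dK p C₁ C₂ D₀ ≤ C) :
    ∃ G : V → ℝ, LipBd g (M.Q i) G ∧
    ∀ (v : V) (m : ℕ) (z : Fin 3 → ℤ), M.Q i = dyc v m z →
    ∀ (E : {k // M.F k ⊆ M.Q i} → Finset (V × V)) (σ : {k // M.F k ⊆ M.Q i} → ℝ)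
      (ℓ : V × V → ℝ≥0∞), (∀ k, Vale.Agent.P073.H73.Adapted M k.1 (E k)) →
      (∀ k, 0 < σ k ∧ ∃ a l, M.F k.1 = sqr a l (σ k)) →
      (∀ k, ∀ e ∈ E k, len (onSeg h e) (Icc 0 1) ≤ ℓ e) →
      ∫⁻ x in M.Q i, ENNReal.ofReal (G x ^ p) ≤ ENNReal.ofReal (C / 2 ^ m) *
        ∑' k, ENNReal.ofReal (σ k) * ∑ e ∈ E k, ENNReal.ofReal (‖e.2 - e.1‖ ^ (1 - p)) *
          (ℓ e + ENNReal.ofReal (ε k.1 * ‖e.2 - e.1‖ / σ k)) ^ p :=
  _root_.P073.H950.drawn_cell hp I.hQ I.bd I.hkf T hD₀ hε hb hC₁ hC₂ (fun j => (I.piece j).usc)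
    (fun j => (I.piece j).nonneg) hom (fun j => (I.piece j).int) I.a0 I.e0 heT I.lip hC

/-- **the clause `lip`** -/
theorem CellIn.lipOn (I : CellIn M p i v z 𝓢 kf T b C₁ C₂ Kb om a e g) (hp : 2 < p)
    {h : V → V} {D₀ lam : ℝ} (hC₁ : 0 ≤ C₁) (hC₂ : 0 ≤ C₂) (hD₀ : 1 ≤ D₀)
    (hlam : ∀ K, (∀ x ∈ M.Q i, ∀ y ∈ M.Q i, ‖h x - h y‖ ≤ K * ‖x - y‖) → lam ≤ K)
    {εL : (edges M).ε → ℝ} (hεL : ∀ e, (edges M).seg e ⊆ M.Q i → ∀ K,
      (∀ x ∈ M.Q i, ∀ y ∈ M.Q i, ‖h x - h y‖ ≤ K * ‖x - y‖) →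
      εL e ≤ K * ‖(edges M).b e - (edges M).a e‖)
    (hb : ∀ s ∈ 𝓢, ∀ e, (edges M).seg e ⊆ M.F (kf s) →
      ENNReal.ofReal (b (kf s) e) ≤ ENNReal.ofReal D₀ *
        (len (onSeg h ((edges M).a e, (edges M).b e)) (Icc 0 1) + ENNReal.ofReal (εL e)))
    (hom : ∀ j, om j * 2 ^ z.1 ≤ lam) (he : e ≤ lam) {C : ℝ}
    (hC : 3 * D₀ * (a * (Fintype.card J * (cs p * (26 * C₁ + 12 * C₂ + 1))) + 1) ≤ C) :
    LipOn M h g i C :=
  LipOn.cell hp I.hkf I.kQ T hC₁ hC₂ hD₀ hlam hεL hb (fun j => (I.piece j).sup) hom I.a0 he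
    I.lip hC

/-- **assembly**: the change of the map is bounded by the levels of finitely many boxes -/
theorem cellIn_of_boxes {i : M.ι} (hQ : M.Q i = dyc v z.1 z.2) (H : BdT v z 𝓢)
    (hkf : ∀ s ∈ 𝓢, M.F (kf s) = squ v s) {T : ∀ k, FStar (edges M) k} {J : Type*} [Fintype J]
    {om : J → ℝ} {κ : J → Type*} [∀ j, Fintype (κ j)] {u : ∀ j, κ j → V → ℝ}
    (hK : ∀ j, ∃ Kb : V → ℝ, Piece M p i v z 𝓢 kf T b C₁ C₂ (om j) Kb ∧
      ∀ x ∈ M.Q i, ∀ᶠ y in 𝓝[M.Q i] x, om j * dsum (u j) x y ≤ Kb x * ‖y - x‖)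
    {a e : ℝ} (ha : 0 ≤ a) (he : 0 ≤ e) {g : V → V}
    (hg : ∀ x ∈ M.Q i, ∀ᶠ y in 𝓝[M.Q i] x,
      ‖g y - g x‖ ≤ a * ∑ j, om j * dsum (u j) x y + e * ‖y - x‖) :
    ∃ Kb : J → V → ℝ, CellIn M p i v z 𝓢 kf T b C₁ C₂ Kb om a e g := by
  choose Kb h1 h2 using hK
  refine ⟨Kb, ⟨hQ, H, hkf, h1, ha, he, fun x hx => ?_⟩⟩
  have h3 : ∀ᶠ y in 𝓝[M.Q i] x, ∀ j, om j * dsum (u j) x y ≤ Kb j x * ‖y - x‖ :=
    eventually_all.2 fun j => h2 j x hx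
  filter_upwards [hg x hx, h3] with y h4 h5
  refine h4.trans ?_
  rw [add_mul, mul_assoc, Finset.sum_mul]
  have h6 := Finset.sum_le_sum fun j (_ : j ∈ Finset.univ) => h5 j
  have h7 := mul_le_mul_of_nonneg_left h6 ha
  linarith

end cellIn

end Vale.Agent.P073.H193
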