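import Vale.Agent.P073.H193.CellPre
import Vale.Agent.P073.H193.BdMesh
import Vale.Agent.P073.H142.Face3P

/-!
# P073, block H193 ([CELL3], part b): cells drawn in the plates

* `latC_peeled`: `LAtC` at a point of a processed plate;
* `hkGO_cell_latC`: the map `f5 = S_σ ∘ h5` on a drawn cell;
* `hkGO_piece`: the bound of the box on a drawn cell.
-/

open Set Metric Topology Filter MeasureTheory
open scoped ENNReal

set_option linter.unusedSectionVars false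

namespace Vale.Agent.P073.H193

open _root_.P073 _root_.P073.Net _root_.P073.PA691 _root_.P073.H936 _root_.P073.H936.K3
  _root_.P073.H142 _root_.P073.H880 _root_.P073.H880.RP _root_.P073.H345 _root_.P073.H236
  _root_.P073.H579 _root_.P073.H919 _root_.P073.H228
open Vale.Agent.P073
open Vale.Agent.P073.St (V)
open Vale.Agent.P073.AB (Idx squ)
open Vale.Agent.P073.H73 (Mesh)
open Vale.Agent.P073.H471 Vale.Agent.P073.H267
open Vale.Agent.P073.H233 (BdT)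
open _root_.P073.H950 (Chart bsum bsum_nonneg)

/-! ### Alive coordinates in the processed plates -/

section peel

variable {Ω Λ : Set V} {v : V} {K : BoxCx Λ v} {S : Rad K} {W : Wid K S} {B : Boxes W}
  {X : H233.PSet K}

/-- **`LAtC` at a point of a processed plate** -/
theorem latC_peeled (G : Geo B) (hX : PClosed X) {s : K.S} (hs : s ∈ X.s) {c₀ : ℝ}
    (hc : 0 ≤ c₀) {c : V → ℝ} {A : Set V} {f : V → V} {x : V} (hcx : ContinuousWithinAt f A x)
    (hPB : f x ∈ G.PB c₀ s) (hn : |f x (K.nrm s) - K.slo s (K.nrm s)| < B.τ s)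
    (hlip : ∀ᶠ x' in 𝓝[A] x, ∀ j, j ≠ K.nrm s → f x j ∈ pwin G s j →
      f x' j ∈ pwin G s j → |f x' j - f x j| ≤ c x') : LAtC B X c A f x := by
  have ha := G.a_pos s
  have hau := G.a_u s
  have key : ∀ j, j ≠ K.nrm s → K.slo s j + 2 * G.a s ≤ f x j → f x j ≤ K.shi s j - 2 * G.a s →
      ∀ᶠ x' in 𝓝[A] x, |f x' j - f x j| ≤ c x' := by
    intro j hj h1 h2
    have h3 : Tendsto (fun x' => f x' j) (𝓝[A] x) (𝓝 (f x j)) :=
      ((continuous_apply j).tendsto _).comp hcx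
    have h4 : Ioo (K.slo s j + G.a s) (K.shi s j - G.a s) ∈ 𝓝 (f x j) :=
      Ioo_mem_nhds (by linarith) (by linarith)
    filter_upwards [h3 h4, hlip] with x' h5 h6
    exact h6 j hj ⟨by linarith, by linarith⟩ ⟨h5.1.le, h5.2.le⟩
  rcases G.cover_pt hc hPB hn with ⟨h1, -, h2⟩ | ⟨i, h1, -, h2, h3, h4⟩ | ⟨i, hi, h1⟩
  · refine Or.inr (Or.inl ⟨s, hs, h1, ?_⟩)
    rw [eventually_all]
    intro j
    by_cases hj : j = K.nrm s
    · exact Eventually.of_forall fun x' h => absurd hj h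
    · obtain ⟨h3, h4⟩ := h2 j hj
      filter_upwards [key j hj (by linarith) (by linarith)] with x' hx' _
      exact hx'
  · refine Or.inr (Or.inr (Or.inl ⟨i, hX.e s hs i h1, ?_,
      key _ (nrm_ne_dir h1).symm (by linarith) (by linarith)⟩))
    have hT := B.T_pos i
    exact mem_interior_iff_mem_nhds.2 (mem_of_superset (closedBall_mem_nhds _ (by positivity)) h2)
  · rcases h1 with h1 | h1
    · exact Or.inr (Or.inr (Or.inr ⟨_, hX.a s hs i hi, h1.1⟩))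
    · exact Or.inr (Or.inr (Or.inr ⟨_, hX.b s hs i hi, h1.1⟩))

end peel

/-! ### The drawn cells of the plates -/

section plate

variable {Ω Λ : Set V} {v : V} {K : BoxCx Λ v} {S : Rad K} {W : Wid K S} {B : Boxes W}
  {G : Geo B} {L : PLev G} {S₀ : Set K.S} {F : Bool → BFam 3 S₀ Λ}
  {T : Bool → ConHomeo Λ Λ} {M : Mesh Ω} {κ₀ κ₁ : V → V} {c d : ℝ} {Zb : S₀ → Set M.ι}
  {h2 h3 h4 : ConHomeo Ω Λ} {u : V}
  {H : HkG M L (Subtype.val : S₀ → K.S) F T κ₀ κ₁ c d Zb h2 h3 h4 u} {hΩ : IsOpen Ω}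
  {r : S₀ → ℝ} {h5 : ConHomeo Ω Λ} {s : S₀} {i : M.ι}

/-- **the map `f5 = S_σ ∘ h5` on a cell drawn in the plate `s`** -/
theorem hkGO_cell_latC (O : HkGO H hΩ r h5) {X : H233.PSet K} (hX : PClosed X) (hs : s.1 ∈ X.s)
    (hi : i ∈ Zb s) {Fσ : Bool → BFam 3 S₀ Λ} {ς : Bool → S₀ → ℝ} {Tσ : Bool → ConHomeo Λ Λ}
    (P : Sg3 L S₀ Fσ ς Tσ) (r0 : 0 < r s)
    (hw : ∀ β, 0 < bw (L.N s.1 β) (K.slo s.1 (tg s.1 β) + G.a s.1)
      (K.shi s.1 (tg s.1 β) - G.a s.1) ((F β).e s))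
    (he : ∀ β, (Fσ β).e s = stp (L.N s.1 β) (K.slo s.1 (tg s.1 β) + G.a s.1)
      (K.shi s.1 (tg s.1 β) - G.a s.1) / 2 - r s * bw (L.N s.1 β)
        (K.slo s.1 (tg s.1 β) + G.a s.1) (K.shi s.1 (tg s.1 β) - G.a s.1) ((F β).e s))
    {a om : ℝ} (hA : ∀ β, slAK (Fσ β) (ς β) s * bw (L.N s.1 β)
      (K.slo s.1 (tg s.1 β) + G.a s.1) (K.shi s.1 (tg s.1 β) - G.a s.1) ((F β).e s) ≤ a * om)
    {K₂ ε : ℝ} (h2' : ∀ x ∈ M.Q i, ∀ y ∈ M.Q i, ‖h5.toFun x - h5.toFun y‖ ≤ K₂ * ‖x - y‖)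
    (hε : ∀ β, ς β s * K₂ ≤ ε) {x : V} (hx : x ∈ M.Q i) :
    LAtC B X (fun x' => a * (om * dsum (wlev (ι := _root_.P073.H919.PI L s.1) Sigma.fst (tg s.1) (r s)
      (pcen L s.1) (pwid L (fun β => (F β).e s) s.1) h5.toFun) x x') + ε * ‖x' - x‖)
      (M.Q i) (fun y => PS.map Tσ (h5.toFun y)) x := by
  have hQΩ : M.Q i ⊆ Ω := M.sub i
  have hint' : ∀ y ∈ M.Q i, h4.toFun y ∈ interior (HB G c d s.1) := fun y hy =>
    H.int s i hi ⟨y, hy, rfl⟩
  have hi5 : ∀ y ∈ M.Q i, h5.toFun y ∈ interior (HB G c d s.1) := fun y hy =>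
    hkGO_interior O (hQΩ hy) (hint' y hy)
  have hp : ∀ y ∈ M.Q i, h5.toFun y ∈ G.PB (7 / 8) s.1 := fun y hy =>
    HB_PB H.hc H.hd s.1 (interior_subset (hi5 y hy))
  have hcont : ContinuousOn (fun y => PS.map Tσ (h5.toFun y)) (M.Q i) := by
    have h1 : ContinuousOn (Tσ false).toFun Λ := (Tσ false).cont
    have h2 : ContinuousOn (Tσ true).toFun Λ := (Tσ true).cont
    have h6 : ContinuousOn (fun y => (Tσ false).toFun (h5.toFun y)) (M.Q i) :=
      h1.comp (h5.cont.mono hQΩ) fun y hy => h5.mapsTo (hQΩ hy)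
    exact h2.comp h6 fun y hy => (Tσ false).mapsTo (h5.mapsTo (hQΩ hy))
  refine latC_peeled G hX hs (c₀ := 7 / 8) (by norm_num) (hcont x hx)
    (P.mem_PB le_rfl (by norm_num) (hp x hx)) ?_ ?_
  · rw [P.nrm (hp x hx)]
    -- the normal coordinate
    have h1 := hi5 x hx
    have hτ := B.τ_pos s.1
    have hd1 : d * B.τ s.1 ≤ B.τ s.1 := by
      have := H.hd
      nlinarith
    rw [mem_interior_iff_mem_nhds] at h1
    obtain ⟨δ, hδ, hb⟩ := Metric.mem_nhds_iff.1 h1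
    have key : ∀ σ : ℝ, |σ| < δ → |h5.toFun x (K.nrm s.1) + σ - K.slo s.1 (K.nrm s.1)| ≤
        d * B.τ s.1 := by
      intro σ hσ
      have h3 : Function.update (h5.toFun x) (K.nrm s.1) (h5.toFun x (K.nrm s.1) + σ) ∈
          HB G c d s.1 := by
        refine hb ?_
        rw [mem_ball, dist_eq_norm]
        refine lt_of_le_of_lt ((pi_norm_le_iff_of_nonneg (abs_nonneg σ)).2 fun j => ?_) hσ
        rw [Pi.sub_apply, Real.norm_eq_abs]
        by_cases hj : j = K.nrm s.1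
        · subst hj
          rw [Function.update_self, add_sub_cancel_left]
        · rw [Function.update_of_ne hj, sub_self, abs_zero]
          exact abs_nonneg _
      have h4 := (mem_HB.1 h3).2
      rwa [Function.update_self] at h4
    have h5' := key (δ / 2) (by rw [abs_of_pos (by linarith)]; linarith)
    have h6 := key (-(δ / 2)) (by rw [abs_neg, abs_of_pos (by linarith)]; linarith)
    rw [abs_le] at h5' h6
    rw [abs_lt]
    constructor <;> linarith [h5'.2, h6.1]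
  · filter_upwards [self_mem_nhdsWithin] with x' hx' j hj hwj hwj'
    rw [P.mem_win (hp x hx) hj] at hwj
    rw [P.mem_win (hp x' hx') hj] at hwj'
    have h6 := P.lip (g := h5.toFun) (hp x hx) (hp x' hx') r0.le
      (e := fun β => (F β).e s) hw he hA hj hwj hwj'
    have hς := ((P.isS (bt s.1 j)).s0 s).le
    have h8 : |h5.toFun x' j - h5.toFun x j| ≤ K₂ * ‖x' - x‖ := by
      refine le_trans ?_ (h2' x' hx' x hx)
      have := norm_le_pi_norm (h5.toFun x' - h5.toFun x) j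
      rwa [Pi.sub_apply, Real.norm_eq_abs] at this
    have h9 : ς (bt s.1 j) s * |h5.toFun x' j - h5.toFun x j| ≤ ε * ‖x' - x‖ := by
      calc _ ≤ ς (bt s.1 j) s * (K₂ * ‖x' - x‖) := mul_le_mul_of_nonneg_left h8 hς
        _ = ς (bt s.1 j) s * K₂ * ‖x' - x‖ := by ring
        _ ≤ _ := mul_le_mul_of_nonneg_right (hε _) (norm_nonneg _)
    rw [← mul_assoc]
    linarith

/-- **the bound of the box of the plate on a drawn cell**: `om` is the weight, `hcone` and `hpath`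
are the clauses of the faces of the cell for the positions of `h3` in the flats -/
theorem hkGO_piece (O : HkGO H hΩ r h5) (hi : i ∈ Zb s) (r0 : 0 < r s) (r1 : r s < 1)
    {p : ℝ} (hp : 2 < p) {om ρ : ℝ} (hom : 0 ≤ om)
    (hρ : ∀ β, om ≤ ρ * stp (L.N s.1 β) (K.slo s.1 (tg s.1 β) + G.a s.1)
      (K.shi s.1 (tg s.1 β) - G.a s.1))
    {𝓢 : Finset (Idx × Fin 3)} (hB : BdT u (H.idx i) 𝓢) {kf : Idx × Fin 3 → M.κ}
    (hkf : ∀ t ∈ 𝓢, M.F (kf t) = squ u t) (T' : ∀ k, FStar (edges M) k)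
    {b : M.κ → (edges M).ε → ℝ} {C₁ C₂ : ℝ}
    (hb : ∀ t ∈ 𝓢, ∀ e, (edges M).seg e ⊆ M.F (kf t) → 0 ≤ b (kf t) e) (hC₂ : 0 ≤ C₂)
    (hcone : ∀ t ∈ 𝓢, ∀ e, (edges M).seg e ⊆ M.F (kf t) →
      ∀ x ∈ coneSetAt (T' (kf t)).O ((edges M).seg e),
      ∀ y ∈ coneSetAt (T' (kf t)).O ((edges M).seg e),
      ρ * bandD (L.lv s.1) (L.loP s.1) (L.hiP s.1) (L.omP s.1) (h3.toFun x) (h3.toFun y) ≤
        (T' (kf t)).con C₁ (b (kf t)) e * ‖x - y‖)
    (hpath : ∀ t ∈ 𝓢, ∀ x ∈ squ u t, ∀ y ∈ squ u t, ∃ γ : ℝ → V, ContinuousOn γ (Icc 0 3) ∧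
      MapsTo γ (Icc 0 3) (squ u t) ∧ γ 0 = x ∧ γ 3 = y ∧
      cvar (fun t t' => ENNReal.ofReal (ρ * bandD (L.lv s.1) (L.loP s.1) (L.hiP s.1) (L.omP s.1)
        (h3.toFun (γ t)) (h3.toFun (γ t')))) 0 3 ≤
        ENNReal.ofReal (C₂ * bsum M (kf t) (b (kf t)))) :
    ∃ Kb : V → ℝ, Piece M p i u (H.idx i) 𝓢 kf T' b C₁ C₂ om Kb ∧
      ∀ x ∈ M.Q i, ∀ᶠ y in 𝓝[M.Q i] x, om * dsum (wlev (ι := _root_.P073.H919.PI L s.1)
        Sigma.fst (tg s.1) (r s) (pcen L s.1) (pwid L (fun β => (F β).e s) s.1) h5.toFun) x y ≤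
        Kb x * ‖y - x‖ := by
  have hQi : M.Q i = dyc u (H.idx i).1 (H.idx i).2 := H.idx_spec hi
  have hsub : ∀ t ∈ 𝓢, squ u t ⊆ M.Q i := by
    intro t ht x hx
    have h1 : x ∈ dyc u (H.idx i).1 (H.idx i).2 \ dyo u (H.idx i).1 (H.idx i).2 :=
      hB.bd_eq.ge (mem_iUnion₂.2 ⟨t, ht, hx⟩)
    rw [hQi]
    exact h1.1
  have hfd := faceData_cst ((H.hookIn s).boxK hΩ) (v := u) (𝓢 := 𝓢) (kf := kf) (b := b)
    (C₁ := C₁) (C₂ := C₂) (om := om) hkf T' hb hC₂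
    (cst := fun _ x y => ρ * bandD (L.lv s.1) (L.loP s.1) (L.hiP s.1) (L.omP s.1)
      (h3.toFun x) (h3.toFun y))
    (fun t ht x hx y hy => by
      have h1 := H.old_le hΩ s hom hρ (H.cell_sub_U hi (hsub t ht hx))
        (H.cell_sub_U hi (hsub t ht hy))
      linarith)
    hcone hpath
  exact cell_piece hp hQi hB (O.loc s r0 r1) (q := ⟨i, hi⟩) rfl
    (_root_.P073.H142.frontier_dyc' u _ _).symm rfl hom hfd

end plate

end Vale.Agent.P073.H193
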