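import Vale.Agent.P073.H142.K3CellP

/-!
# P073, H193 ([CELL-SUP]): the sup bound for the Lipschitz constant of a drawn cell

The bound `K` of `cellp` (block H233) is bounded by `C p * (L + w * 2 ^ q.1)` on the cell if the
local Lipschitz constants `g s` on the squares are at most `L` and the oscillations `A s` at most
`L` times the side of the square.
-/

open Set MeasureTheory Metric Topology Filter
open scoped ENNReal

namespace Vale.Agent.P073.H193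

open Vale.Agent.P073.St (V)
open Vale.Agent.P073.SQ (ev cube)
open Vale.Agent.P073.AB Vale.Agent.P073.AB.P86
open Vale.Agent.P073.H233
open P073.Net (dyc dyo)
open _root_.P073 (ConSphere)
open _root_.P073.H267
open _root_.P073.H950
open _root_.P073.H950.Chart (dya)

variable {v : V} {t s : Idx × Fin 3} {𝓢 : Finset (Idx × Fin 3)} {p : ℝ} {q : Idx}

/-- two intervals on the same side of a common point have a common inner point -/
theorem common_pt {a b a' b' x : ℝ} (h1 : a ≤ x) (h2 : x ≤ b) (h3 : a' ≤ x) (h4 : x ≤ b')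
    (h5 : a < b) (h6 : a' < b') (h : x < b ↔ x < b') : ∃ y, (a < y ∧ y < b) ∧ a' < y ∧ y < b' := by
  by_cases hx : x < b
  · have hx' := h.1 hx
    have e3 := min_le_left b b'
    have e4 := min_le_right b b'
    have e5 := lt_min hx hx'
    exact ⟨(x + min b b') / 2, ⟨by linarith, by linarith⟩, by linarith, by linarith⟩
  · have hx' : ¬ x < b' := fun h' => hx (h.2 h')
    have e1 : x = b := le_antisymm h2 (not_lt.1 hx)
    have e2 : x = b' := le_antisymm h4 (not_lt.1 hx')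
    have e3 := le_max_left a a'
    have e4 := le_max_right a a'
    have e5 : max a a' < x := max_lt (by linarith) (by linarith)
    exact ⟨(max a a' + x) / 2, ⟨by linarith, by linarith⟩, by linarith, by linarith⟩

open Classical in
/-- the type of a square at the point `θ` -/
noncomputable def typ12 (v θ : V) (s : Idx × Fin 3) : Fin 3 × Bool × Bool :=
  (s.2, decide (θ (s.2 + 1) < v (s.2 + 1) + (s.1.2 (s.2 + 1) + 1) / 2 ^ s.1.1),
    decide (θ (s.2 + 2) < v (s.2 + 2) + (s.1.2 (s.2 + 2) + 1) / 2 ^ s.1.1))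

/-- two squares at `θ` with the same type have a common inner point -/
theorem rel_inter_of_typ {s s' : Idx × Fin 3} {θ : V} (hs : θ ∈ squ v s) (hs' : θ ∈ squ v s')
    (h : typ12 v θ s = typ12 v θ s') : (rel v s ∩ rel v s').Nonempty := by
  obtain ⟨⟨m, a⟩, k⟩ := s
  obtain ⟨⟨m', a'⟩, k'⟩ := s'
  have hk : k = k' := congrArg Prod.fst h
  subst hk
  have h1 : θ (k + 1) < v (k + 1) + ((a (k + 1) : ℝ) + 1) / 2 ^ m ↔
      θ (k + 1) < v (k + 1) + ((a' (k + 1) : ℝ) + 1) / 2 ^ m' :=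
    decide_eq_decide.1 (congrArg (fun z => z.2.1) h)
  have h2 : θ (k + 2) < v (k + 2) + ((a (k + 2) : ℝ) + 1) / 2 ^ m ↔
      θ (k + 2) < v (k + 2) + ((a' (k + 2) : ℝ) + 1) / 2 ^ m' :=
    decide_eq_decide.1 (congrArg (fun z => z.2.2) h)
  have hp : ∀ n : ℕ, (0:ℝ) < 1 / 2 ^ n := fun n => by positivity
  have key : ∀ j, j ≠ k → ∃ y : ℝ, (v j + (a j : ℝ) / 2 ^ m < y ∧ y < v j + ((a j : ℝ) + 1) / 2 ^ m) ∧
      v j + (a' j : ℝ) / 2 ^ m' < y ∧ y < v j + ((a' j : ℝ) + 1) / 2 ^ m' := by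
    intro j hj
    have e1 := hs.2 j hj
    have e2 := hs'.2 j hj
    refine common_pt e1.1 e1.2 e2.1 e2.2 (by rw [div_add_one]; linarith [hp m])
      (by rw [div_add_one]; linarith [hp m']) ?_
    rcases f3a k j with rfl | rfl | rfl
    · exact absurd rfl hj
    · exact h1
    · exact h2
  choose! y hy using key
  refine ⟨fun j => if j = k then θ k else y j, ⟨?_, fun j hj => ?_⟩, ⟨?_, fun j hj => ?_⟩⟩
  · show (if k = k then θ k else y k) = _
    rw [if_pos rfl]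
    exact hs.1
  · have hj : j ≠ k := hj
    simp only [if_neg hj]
    exact (hy j hj).1
  · show (if k = k then θ k else y k) = _
    rw [if_pos rfl]
    exact hs'.1
  · have hj : j ≠ k := hj
    simp only [if_neg hj]
    exact (hy j hj).2

open Classical in
/-- a point is on at most twelve squares of a tiling -/
theorem card_at_le (H : BdT v q 𝓢) (θ : V) : (𝓢.filter fun s => θ ∈ squ v s).card ≤ 12 := by
  have h1 : (𝓢.filter fun s => θ ∈ squ v s).card ≤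
      (Finset.univ : Finset (Fin 3 × Bool × Bool)).card := by
    refine Finset.card_le_card_of_injOn (typ12 v θ) (fun _ _ => Finset.mem_univ _) ?_
    intro s hs s' hs' e
    have h2 := Finset.mem_filter.1 hs
    have h3 := Finset.mem_filter.1 hs'
    exact H.dis s h2.1 s' h3.1 (rel_inter_of_typ h2.2 h3.2 e)
  refine h1.trans (le_of_eq ?_)
  rw [Finset.card_univ, Fintype.card_prod, Fintype.card_prod, Fintype.card_fin, Fintype.card_bool]

/-- the sup bound of the sum of the face functions -/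
theorem gsum_le (H : BdT v q 𝓢) {g : Idx × Fin 3 → V → ℝ} {L : ℝ} (hL : 0 ≤ L)
    (hg : ∀ s ∈ 𝓢, ∀ x ∈ squ v s, g s x ≤ L) (θ : V) : gsum v 𝓢 g θ ≤ 12 * L := by
  classical
  calc gsum v 𝓢 g θ = ∑ s ∈ 𝓢, (squ v s).indicator (g s) θ := rfl
    _ = ∑ s ∈ 𝓢.filter (fun s => θ ∈ squ v s), g s θ := by
        rw [Finset.sum_filter]
        refine Finset.sum_congr rfl fun s _ => ?_
        by_cases h : θ ∈ squ v s
        · rw [indicator_of_mem h, if_pos h]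
        · rw [indicator_of_notMem h, if_neg h]
    _ ≤ ∑ s ∈ 𝓢.filter (fun s => θ ∈ squ v s), L := Finset.sum_le_sum fun s hs =>
        hg s (Finset.mem_filter.1 hs).1 θ (Finset.mem_filter.1 hs).2
    _ = ((𝓢.filter fun s => θ ∈ squ v s).card : ℝ) * L := by rw [Finset.sum_const, nsmul_eq_mul]
    _ ≤ 12 * L := mul_le_mul_of_nonneg_right (by exact_mod_cast card_at_le H θ) hL

theorem angK_le (H : BdT v q 𝓢) {g : Idx × Fin 3 → V → ℝ} {L : ℝ} (hL : 0 ≤ L)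
    (hg : ∀ s ∈ 𝓢, ∀ x ∈ squ v s, g s x ≤ L) (z : V) : angK v q 𝓢 g z ≤ 12 * L := by
  unfold angK
  by_cases h : z ∈ (dya v q).sh
  · rw [indicator_of_mem h]
    exact gsum_le H hL hg _
  · rw [indicator_of_notMem h]
    positivity

/-! ### the energy of the oscillations -/

theorem _root_.Vale.Agent.P073.H233.SqT.sum_sq_le (H : SqT v t 𝓢) :
    ∑ s ∈ 𝓢, (1 / 2 ^ s.1.1 : ℝ) ^ 2 ≤ (1 / 2 ^ t.1.1) ^ 2 := by
  classical
  have hinj : Set.InjOn pl (𝓢 : Set (Idx × Fin 3)) := fun s hs s' hs' e =>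
    pl_inj (cop_of_sub (H.sub s hs)) (cop_of_sub (H.sub s' hs')) e
  have h1 := sum_sq_inn_le H.tlg (pl t)
  have h2 : inn (𝓢.image pl) (pl t) = 𝓢.image pl := by
    ext F
    rw [mem_inn]
    exact ⟨fun h => h.1, fun h => ⟨h, H.tlg.sub F h⟩⟩
  rw [h2, Finset.sum_image hinj] at h1
  exact h1

/-- the six faces of a cube -/
noncomputable def fc (q : Idx) (b : Fin 3 × Bool) : Idx × Fin 3 :=
  ((q.1, if b.2 then Function.update q.2 b.1 (q.2 b.1 + 1) else q.2), b.1)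

theorem fc_face (q : Idx) (b : Fin 3 × Bool) : FaceOf (fc q b) q := by
  obtain ⟨k, b⟩ := b
  cases b
  · exact ⟨rfl, Or.inl rfl, fun j _ => rfl⟩
  · refine ⟨rfl, Or.inr ?_, fun j hj => ?_⟩
    · show Function.update q.2 k (q.2 k + 1) k = q.2 k + 1
      rw [Function.update_self]
    · exact Function.update_of_ne hj _ _

theorem exists_fc (h : FaceOf t q) : ∃ b, t = fc q b := by
  obtain ⟨⟨m, a⟩, k⟩ := t
  obtain ⟨h1, h2, h3⟩ := h
  have h1 : m = q.1 := h1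
  subst h1
  rcases h2 with h2 | h2
  · refine ⟨(k, false), Prod.ext (Prod.ext rfl ?_) rfl⟩
    funext j
    by_cases hj : j = k
    · subst hj; exact h2
    · exact h3 j hj
  · refine ⟨(k, true), Prod.ext (Prod.ext rfl ?_) rfl⟩
    funext j
    show a j = Function.update q.2 k (q.2 k + 1) j
    by_cases hj : j = k
    · subst hj; rw [Function.update_self]; exact h2
    · rw [Function.update_of_ne hj]; exact h3 j hj

/-- **the area of the boundary** -/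
theorem _root_.Vale.Agent.P073.H233.BdT.sum_sq_le (H : BdT v q 𝓢) :
    ∑ s ∈ 𝓢, (1 / 2 ^ s.1.1 : ℝ) ^ 2 ≤ 6 * (1 / 2 ^ q.1) ^ 2 := by
  classical
  have h1 : ∀ s ∈ 𝓢, (1 / 2 ^ s.1.1 : ℝ) ^ 2 ≤ ∑ b : Fin 3 × Bool,
      if squ v s ⊆ squ v (fc q b) then (1 / 2 ^ s.1.1 : ℝ) ^ 2 else 0 := by
    intro s hs
    obtain ⟨t, ht, hst⟩ := H.sub s hs
    obtain ⟨b, rfl⟩ := exists_fc ht
    refine le_trans (le_of_eq ?_) (Finset.single_le_sum (f := fun b : Fin 3 × Bool =>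
      if squ v s ⊆ squ v (fc q b) then (1 / 2 ^ s.1.1 : ℝ) ^ 2 else 0)
      (fun b _ => by split_ifs <;> positivity) (Finset.mem_univ b))
    rw [if_pos hst]
  refine (Finset.sum_le_sum h1).trans ?_
  rw [Finset.sum_comm]
  have h2 : ∀ b : Fin 3 × Bool, (∑ s ∈ 𝓢, if squ v s ⊆ squ v (fc q b) then
      (1 / 2 ^ s.1.1 : ℝ) ^ 2 else 0) ≤ (1 / 2 ^ q.1) ^ 2 := by
    intro b
    rw [← Finset.sum_filter]
    exact (H.sqT (fc_face q b)).sum_sq_le
  refine (Finset.sum_le_sum fun b _ => h2 b).trans (le_of_eq ?_)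
  rw [Finset.sum_const, Finset.card_univ, Fintype.card_prod, Fintype.card_fin, Fintype.card_bool,
    nsmul_eq_mul]
  norm_num

theorem ZS_le_sup (hp : 2 < p) (H : BdT v q 𝓢) {A : Idx × Fin 3 → ℝ} (hA : ∀ s ∈ 𝓢, 0 ≤ A s)
    {L : ℝ} (hL : 0 ≤ L) (hAL : ∀ s ∈ 𝓢, A s ≤ L / 2 ^ s.1.1) :
    ZS p 𝓢 A ≤ 6 * L ^ p * (1 / 2 ^ q.1) ^ 2 := by
  have hp0 : 0 < p := by linarith
  have h1 : ∀ s ∈ 𝓢, (1 / 2 ^ s.1.1 : ℝ) ^ (2 - p) * A s ^ p ≤ L ^ p * (1 / 2 ^ s.1.1) ^ 2 := by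
    intro s hs
    have hr : (0:ℝ) < 1 / 2 ^ s.1.1 := by positivity
    have h2 : A s ^ p ≤ L ^ p * (1 / 2 ^ s.1.1 : ℝ) ^ p := by
      rw [← Real.mul_rpow hL hr.le]
      refine Real.rpow_le_rpow (hA s hs) ((hAL s hs).trans (le_of_eq ?_)) hp0.le
      ring
    calc (1 / 2 ^ s.1.1 : ℝ) ^ (2 - p) * A s ^ p
        ≤ (1 / 2 ^ s.1.1 : ℝ) ^ (2 - p) * (L ^ p * (1 / 2 ^ s.1.1 : ℝ) ^ p) :=
          mul_le_mul_of_nonneg_left h2 (by positivity)
      _ = L ^ p * ((1 / 2 ^ s.1.1 : ℝ) ^ (2 - p) * (1 / 2 ^ s.1.1 : ℝ) ^ p) := by ring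
      _ = L ^ p * (1 / 2 ^ s.1.1) ^ 2 := by
          rw [← Real.rpow_add hr, sub_add_cancel]
          norm_num
  unfold ZS
  refine (Finset.sum_le_sum h1).trans ?_
  rw [← Finset.mul_sum]
  have h3 := mul_le_mul_of_nonneg_left H.sum_sq_le (Real.rpow_nonneg hL p)
  refine h3.trans (le_of_eq ?_)
  ring

theorem morrey_sup {R L Z : ℝ} (hp : 2 < p) (hR : 0 < R) (hL : 0 ≤ L) (hZ0 : 0 ≤ Z)
    (hZ : Z ≤ 6 * L ^ p * R ^ 2) : R ^ (1 - 2 / p) * Z ^ (1 / p) ≤ 6 * L * R := by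
  have hp0 : 0 < p := by linarith
  have h1 : Z ^ (1 / p) ≤ (6 * L ^ p * R ^ 2) ^ (1 / p) :=
    Real.rpow_le_rpow hZ0 hZ (by positivity)
  have h2 : (6 * L ^ p * R ^ 2) ^ (1 / p) = 6 ^ (1 / p) * L * R ^ (2 / p) := by
    rw [Real.mul_rpow (by positivity) (by positivity), Real.mul_rpow (by norm_num) (by positivity),
      ← Real.rpow_mul hL, mul_one_div_cancel hp0.ne', Real.rpow_one, ← Real.rpow_natCast R 2,
      ← Real.rpow_mul hR.le]
    congr 2
    push_cast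
    ring
  have h3 : (6:ℝ) ^ (1 / p) ≤ 6 := by
    calc (6:ℝ) ^ (1 / p) ≤ 6 ^ (1:ℝ) := Real.rpow_le_rpow_of_exponent_le (by norm_num)
          (by rw [div_le_one hp0]; linarith)
      _ = 6 := Real.rpow_one _
  calc R ^ (1 - 2 / p) * Z ^ (1 / p) ≤ R ^ (1 - 2 / p) * (6 ^ (1 / p) * L * R ^ (2 / p)) := by
        rw [← h2]
        exact mul_le_mul_of_nonneg_left h1 (by positivity)
    _ = 6 ^ (1 / p) * L * (R ^ (1 - 2 / p) * R ^ (2 / p)) := by ring
    _ = 6 ^ (1 / p) * L * R := by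
        rw [← Real.rpow_add hR, sub_add_cancel, Real.rpow_one]
    _ ≤ 6 * L * R := by
        have := mul_nonneg hL hR.le
        nlinarith

/-- the constant of the sup bound -/
noncomputable def cs (p : ℝ) : ℝ := 576 * mor p + 72

theorem cs_pos (hp : 2 < p) : 0 < cs p := by
  unfold cs
  have := mor_pos hp
  positivity

/-- **[CELL-SUP]** `cellp` with the sup bound. -/
theorem cellp_sup (hp : 2 < p) (H : BdT v q 𝓢) {Q S : Set V} (hQ : dyc v q.1 q.2 = Q)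
    (hSq : dyc v q.1 q.2 \ dyo v q.1 q.2 = S) (hS : ConSphere 2 S) {J : Type*} [Fintype J]
    {R : Rings S J} {p0 : V} (hp0 : p0 ∈ S) (d : R.Discs p0) {w : ℝ} (hw : 0 ≤ w)
    {A : Idx × Fin 3 → ℝ} (hA : ∀ s ∈ 𝓢, 0 ≤ A s)
    (hosc : ∀ s ∈ 𝓢, ∀ x ∈ squ v s, ∀ y ∈ squ v s,
      ∑ c, w * |(d.ncircles hS).s c x - (d.ncircles hS).s c y| ≤ A s)
    {g : Idx × Fin 3 → V → ℝ}
    (hg : FaceB v 𝓢 (fun θ' θ => ∑ c, w * |(d.ncircles hS).s c θ' - (d.ncircles hS).s c θ|) g) :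
    ∃ K : V → ℝ, UpperSemicontinuous K ∧ (∀ z, 0 ≤ K z) ∧
      (∀ z ∈ Q, ∀ᶠ y in 𝓝[Q] z, ∑ c, w * |((dya v q).cast hQ hSq).lev (d.ncircles hS) c y -
        ((dya v q).cast hQ hSq).lev (d.ncircles hS) c z| ≤ K z * dist y z) ∧
      (∫⁻ z in Q, ENNReal.ofReal (K z ^ p) ≤ ENNReal.ofReal (cp p) *
        ((∑ s ∈ 𝓢, ENNReal.ofReal (2 ^ s.1.1 / 2 ^ q.1) * fInt p v s (g s)) +
          ENNReal.ofReal ((1 / 2 ^ q.1) * ZS p 𝓢 A + (1 / 2 ^ q.1 : ℝ) ^ (3 - p) * w ^ p))) ∧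
      ∀ L, 0 ≤ L → (∀ s ∈ 𝓢, ∀ x ∈ squ v s, g s x ≤ L) → (∀ s ∈ 𝓢, A s ≤ L / 2 ^ s.1.1) →
        ∀ z, K z ≤ cs p * (L + w * 2 ^ q.1) := by
  subst hQ hSq
  have hnm := nm_le_morrey hp H rfl hS hp0 d (ω := fun _ => w) (fun _ => le_rfl) hw hA hosc
  set C : ℝ := 2 * (w * (4 * (d.nm : ℝ) + 1) * (4 * 2 ^ q.1)) with hC
  have hC0 : 0 ≤ C := by positivity
  have h2 : (0:ℝ) < 2 ^ q.1 := by positivity
  have e2 : C = (8 * 2 ^ q.1) * (4 * (w * d.nm) + w) := by rw [hC]; ring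
  refine ⟨fun z => 6 * angK v q 𝓢 g z + C, ?_, fun z => ?_, fun z hz => ?_, ?_, ?_⟩
  · have hc : Continuous fun x : ℝ => 6 * x + C := by fun_prop
    exact hc.comp_upperSemicontinuous (angK_usc hg) fun a b hab => by
      show 6 * a + C ≤ 6 * b + C
      linarith
  · have := angK_nonneg (q := q) hg z
    positivity
  · exact cell_local (d.ncircles hS) hw H hg hz
  · refine lintegral_cell_le hp H hg (ZS_nonneg hA) hw hC0 ?_
    rw [e2]
    have e1 : 96 * mor p * ((1 / 2 ^ q.1 : ℝ) ^ (1 - 2 / p) * ZS p 𝓢 A ^ (1 / p)) / (1 / 2 ^ q.1) +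
        72 * w / (1 / 2 ^ q.1) = (8 * 2 ^ q.1) * (4 * (3 * (mor p *
          ((1 / 2 ^ q.1 : ℝ) ^ (1 - 2 / p) * ZS p 𝓢 A ^ (1 / p))) + 2 * w) + w) := by
      field_simp
      ring
    rw [e1]
    refine mul_le_mul_of_nonneg_left ?_ (by positivity)
    linarith
  · intro L hL hgL hAL z
    have h3 := angK_le H hL hgL z
    have h4 := morrey_sup hp (R := 1 / 2 ^ q.1) (by positivity) hL (ZS_nonneg hA)
      (ZS_le_sup hp H hA hL hAL)
    have hm := mor_pos hp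
    have h5 := mul_le_mul_of_nonneg_left h4 hm.le
    have h6 : 4 * (w * (d.nm : ℝ)) + w ≤ 4 * (3 * (mor p * (6 * L * (1 / 2 ^ q.1))) + 2 * w) + w := by
      linarith
    have h7 : C ≤ (8 * 2 ^ q.1) * (4 * (3 * (mor p * (6 * L * (1 / 2 ^ q.1))) + 2 * w) + w) := by
      rw [e2]
      exact mul_le_mul_of_nonneg_left h6 (by positivity)
    have h8 : (8 * 2 ^ q.1) * (4 * (3 * (mor p * (6 * L * (1 / 2 ^ q.1))) + 2 * w) + w) =
        576 * mor p * L + 72 * (w * 2 ^ q.1) := by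
      field_simp
      ring
    rw [h8] at h7
    have h9 : 0 ≤ mor p * (w * 2 ^ q.1) := by positivity
    show 6 * angK v q 𝓢 g z + C ≤ cs p * (L + w * 2 ^ q.1)
    unfold cs
    nlinarith

end Vale.Agent.P073.H193

namespace P073.H142

open P073 P073.H936 P073.TR P073.H267 P073.H880 P073.H936.K3 P073.H950
open Vale.Agent.P073.St (V)
open Vale.Agent.P073.AB (Idx squ)
open Vale.Agent.P073.H233 (BdT FaceB fInt ZS cp)
open Vale.Agent.P073.H193 (cs cellp_sup)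
open P073.Net (dyc dyo)

variable {ι : Type*} [Fintype ι] {side : ι → Bool} {ax : Bool → Fin 3} {lo hi : Fin 3 → ℝ}
  {c w : ι → ℝ} {U : Set V} {Q : Type}

/-- **[K3CELL] with the sup bound.** The energy of a drawn cell (`Loc.cellp`), and
`K ≤ cs p * (L + om * 2 ^ z.1)` if `g s ≤ L` and `A s ≤ L / 2 ^ s.1.1` on all squares. -/
theorem Loc.cellp_sup {p : ℝ} (hp : 2 < p) {D : BoxK side ax lo hi c w U Q} {κ : Type*} [Fintype κ]
    {u : κ → V → ℝ} (hu : Loc D u) {q : Q} {v : V} {z : Idx} (hC : dyc v z.1 z.2 = D.K.C q)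
    (hS : dyc v z.1 z.2 \ dyo v z.1 z.2 = frontier (D.K.C q))
    (hch : D.K.chart q = (Chart.dya v z).cast hC hS) {𝓢 : Finset (Idx × Fin 3)} (H : BdT v z 𝓢)
    {om : ℝ} (hom : 0 ≤ om) {g : Idx × Fin 3 → V → ℝ} {A : Idx × Fin 3 → ℝ}
    (F : FaceData D v om 𝓢 g A) :
    ∃ K : V → ℝ, UpperSemicontinuous K ∧ (∀ x, 0 ≤ K x) ∧
      (∀ x ∈ D.K.C q, ∀ᶠ y in 𝓝[D.K.C q] x, om * dsum u x y ≤ K x * dist y x) ∧
      (∫⁻ x in D.K.C q, ENNReal.ofReal (K x ^ p) ≤ ENNReal.ofReal (cp p) *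
        ((∑ s ∈ 𝓢, ENNReal.ofReal (2 ^ s.1.1 / 2 ^ z.1) * fInt p v s (g s)) +
          ENNReal.ofReal ((1 / 2 ^ z.1) * ZS p 𝓢 A + (1 / 2 ^ z.1 : ℝ) ^ (3 - p) * om ^ p))) ∧
      ∀ L, 0 ≤ L → (∀ s ∈ 𝓢, ∀ x ∈ squ v s, g s x ≤ L) → (∀ s ∈ 𝓢, A s ≤ L / 2 ^ s.1.1) →
        ∀ x, K x ≤ cs p * (L + om * 2 ^ z.1) := by
  let _ := D.bi.fintypeJ q
  have hsub : ∀ s ∈ 𝓢, squ v s ⊆ frontier (D.K.C q) := by
    intro s hs x hx
    rw [← hS]
    exact H.bd_eq.ge (mem_iUnion₂.2 ⟨s, hs, hx⟩)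
  have e1 : ∀ x y, ∑ d, om * |(D.bi.nestCirc q).D.s d y - (D.bi.nestCirc q).D.s d x| =
      om * dsum (fun d => (D.bi.nestCirc q).D.s d) x y := by
    intro x y
    rw [dsum, Finset.mul_sum]
  obtain ⟨K, h1, h2, h3, h4, h5⟩ := Vale.Agent.P073.H193.cellp_sup hp H hC hS (D.bi.C_sph q)
    (D.bi.base_mem q) (D.bi.discs q) hom F.A0 (g := g) (A := A) (by
      intro s hs x hx y hy
      obtain ⟨γ, a, b, hab, hγ, hm, hγa, hγb, hv⟩ := F.path s hs y hy x hx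
      have h5 := dsum_le_cvar (u := fun d x => om * (D.bi.nestCirc q).D.s d x)
        (Z := frontier (D.K.C q)) (cst := fun x y => om * dsum (old D) x y)
        (fun x y => by rw [dsum_comm]) (fun θ hθ => by
          filter_upwards [eventually_sum_s_le D q hθ] with θ' h6
          rw [dsum_mul hom]
          exact mul_le_mul_of_nonneg_left h6 hom) hab hγ fun t ht => hsub s hs (hm ht)
      rw [dsum_mul hom, hγa, hγb] at h5
      have h6 := (ENNReal.ofReal_le_ofReal_iff (F.A0 s hs)).1 (h5.trans hv)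
      refine le_trans (le_of_eq ?_) h6
      exact e1 y x) ⟨F.usc, F.nonneg, fun s hs θ hθ => by
        filter_upwards [F.lip s hs θ hθ, (eventually_sum_s_le D q (hsub s hs hθ)).filter_mono
          (nhdsWithin_mono θ (hsub s hs))] with θ' h5 h6
        refine le_trans (le_of_eq (e1 θ θ')) (le_trans (mul_le_mul_of_nonneg_left h6 hom) h5)⟩
  refine ⟨K, h1, h2, fun x hx => ?_, h4, h5⟩
  filter_upwards [h3 x hx, hu.cell q hx] with y h5 h6
  refine le_trans (mul_le_mul_of_nonneg_left h6 hom) (le_trans (le_of_eq ?_) h5)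
  rw [dsum, Finset.mul_sum, hch]
  rfl

end P073.H142
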