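import Vale.Agent.P073.H193.CellP
import Vale.Agent.P073.H193.CellQ
import Vale.Agent.P073.H142.FaceT
import Vale.Agent.P073.H429.THk

/-!
# P073, block H193 ([CELL3], part d): cells drawn in the tubes

* `hkT_piece`: the bound of the box of the tube on a drawn cell;
* `hkT_latC`: the map `f = Sm ∘ h6` on a drawn cell of a tube.
-/

open Set Metric Topology Filter MeasureTheory
open scoped ENNReal

set_option linter.unusedSectionVars false

namespace Vale.Agent.P073.H193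

open _root_.P073 _root_.P073.Net _root_.P073.PA691 _root_.P073.H936 _root_.P073.H936.K3
  _root_.P073.H142 _root_.P073.H880 _root_.P073.H236 _root_.P073.H429 _root_.P073.H919
open Vale.Agent.P073
open Vale.Agent.P073.St (V)
open Vale.Agent.P073.AB (Idx squ)
open Vale.Agent.P073.H73 (Mesh)
open Vale.Agent.P073.H471 Vale.Agent.P073.H267
open Vale.Agent.P073.H233 (BdT PSet)
open _root_.P073.H950 (Chart bsum bsum_nonneg)

variable {Ω Λ : Set V} {v : V} {K : BoxCx Λ v} {S : Rad K} {W : Wid K S} {B : Boxes W}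
  {M : Mesh Ω} {γ : Type} {φ : γ → K.G} {sl : γ → Finset (ℝ × ℝ)} {μ : γ → ℝ} {Y : Lat B}
  {T : ∀ b, Thn (eal W (φ b)) (ebe W (φ b)) (sl b) (μ b)} {Zb : γ → Set M.ι}
  {f5 h6 : ConHomeo Ω Λ} {Sm : ConHomeo Λ Λ} {u : V} {p : ℝ}
  {r : K.G → Fin 3 → ℝ} {hr : ∀ e k, 0 < r e k}
  {Y' : Lat B} {hp : ∀ e k, Y'.p e k + r e k ≤ B.T e} {hq : ∀ e k, Y'.q e k + r e k ≤ B.T e}
  {hφ : Function.Injective φ} {ς : γ → ℝ} {h0 : ∀ b, 0 < ς b} {h1 : ∀ b, ς b ≤ 1}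

/-- the levels of `h6` in the box of the tube `b` -/
noncomputable abbrev tlev (T : ∀ b, Thn (eal W (φ b)) (ebe W (φ b)) (sl b) (μ b)) (h : V → V)
    (b : γ) : (T b).I → V → ℝ :=
  wlev (ι := (T b).I) (fun _ => true) (dax (φ b)) 1 (T b).c (T b).w h

/-- **the bound of the box of the tube on a drawn cell**: `om` is the weight; the clauses of the
faces are for the coordinate of `f5` in the direction of the edge -/
theorem hkT_piece (H : HkT M Y φ T Zb f5 u) (hΩ : IsOpen Ω) (O : HTube hΩ H.hookIn h6) {b : γ}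
    {i : M.ι} (hi : i ∈ Zb b) (hp2 : 2 < p) {om ρ : ℝ} (hom : 0 ≤ om) (hρ : 0 ≤ ρ)
    (homρ : om ≤ ρ * (T b).hw) {𝓢 : Finset (Idx × Fin 3)} (hB : BdT u (H.idx i) 𝓢)
    {kf : Idx × Fin 3 → M.κ} (hkf : ∀ t ∈ 𝓢, M.F (kf t) = squ u t)
    (T' : ∀ k, FStar (edges M) k) {bb : M.κ → (edges M).ε → ℝ} {C₁ C₂ : ℝ}
    (hb : ∀ t ∈ 𝓢, ∀ e, (edges M).seg e ⊆ M.F (kf t) → 0 ≤ bb (kf t) e) (hC₂ : 0 ≤ C₂)
    (hcl : ∀ t ∈ 𝓢, FaceCl M (kf t) (T' (kf t)) (bb (kf t)) C₁ C₂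
      (fun x y => ρ * |f5.toFun x (K.dir (φ b)) - f5.toFun y (K.dir (φ b))|)) :
    ∃ Kb : V → ℝ, Piece M p i u (H.idx i) 𝓢 kf T' bb C₁ C₂ om Kb ∧
      ∀ x ∈ M.Q i, ∀ᶠ y in 𝓝[M.Q i] x, om * dsum (tlev T h6.toFun b) x y ≤ Kb x * ‖y - x‖ := by
  have hQi : M.Q i = dyc u (H.idx i).1 (H.idx i).2 := H.idx_spec hi
  have hfd := faceData_cst ((H.hookIn b).boxK hΩ) (v := u) (𝓢 := 𝓢) (kf := kf) (b := bb)
    (C₁ := C₁) (C₂ := C₂) (om := om) hkf T' hb hC₂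
    (cst := fun _ x y => ρ * |f5.toFun x (K.dir (φ b)) - f5.toFun y (K.dir (φ b))|)
    (fun t ht x hx y hy => by
      have h1 := H.old_le_mul hΩ b hρ homρ x y
      have h2 : 0 ≤ ρ * |f5.toFun x (K.dir (φ b)) - f5.toFun y (K.dir (φ b))| :=
        mul_nonneg hρ (abs_nonneg _)
      linarith)
    (fun t ht e he x hx y hy => (hcl t ht).cone e he x hx y hy)
    (fun t ht x hx y hy => by
      obtain ⟨γ', a1, a2, a3, a4, a5⟩ := (hcl t ht).path x (by rw [hkf t ht]; exact hx) y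
        (by rw [hkf t ht]; exact hy)
      rw [hkf t ht] at a2
      exact ⟨γ', a1, a2, a3, a4, a5⟩)
  exact cell_piece hp2 hQi hB (HkT.loc O b) (q := ⟨i, hi⟩) rfl
    (_root_.P073.H142.frontier_dyc' u _ _).symm rfl hom hfd

/-- **the map `f = Sm ∘ h6` on a cell drawn in the tube `b`** -/
theorem hkT_latC (H : HkT M Y φ T Zb f5 u) (hΩ : IsOpen Ω) (O : HTube hΩ H.hookIn h6)
    (hYp : ∀ e k, Y.p e k ≤ Y'.p e k) (hYq : ∀ e k, Y.q e k ≤ Y'.q e k)
    (hμ : ∀ b, 0 ≤ μ b) (hS : (tfam Y' r hr hp hq hφ T h0 h1).IsH Sm)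
    (hp' : ∀ e k, Y'.p e k + r e k < B.T e) (hq' : ∀ e k, Y'.q e k + r e k < B.T e)
    {X : PSet K} {b : γ} (hXe : φ b ∈ X.e) (hXa : K.a (φ b) ∈ X.w) (hXb : K.b (φ b) ∈ X.w)
    {i : M.ι} (hi : i ∈ Zb b) {a om : ℝ} (ha : (1 + μ b) * (T b).hw ≤ a * om)
    {K₂ ε : ℝ} (hK : ∀ x ∈ M.Q i, ∀ y ∈ M.Q i, ‖h6.toFun x - h6.toFun y‖ ≤ K₂ * ‖x - y‖)
    (hε : ς b * K₂ ≤ ε) {x : V} (hx : x ∈ M.Q i) :
    LAtC B X (fun x' => a * (om * dsum (tlev T h6.toFun b) x x') + ε * ‖x' - x‖)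
      (M.Q i) (fun y => Sm.toFun (h6.toFun y)) x := by
  have hY : ∀ y ∈ M.Q i, h6.toFun y ∈ YB Y' (φ b) := fun y hy =>
    YB_mono hYp hYq _ (HkT.cell O hi hy)
  have hyK : Sm.toFun (h6.toFun x) ∈ YB (Y'.add r hr hp hq) (φ b) := by
    have h3 : h6.toFun x ∈ (tX Y' r hr (T b) (h0 b) (h1 b)).K := by
      rw [tX_K (hp := hp) (hq := hq)]
      exact YB_mono (fun e k => by show Y'.p e k ≤ Y'.p e k + r e k; linarith [hr e k])
        (fun e k => by show Y'.q e k ≤ Y'.q e k + r e k; linarith [hr e k]) _ (hY x hx)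
    have h2 : Sm.toFun (h6.toFun x) ∈ (tX Y' r hr (T b) (h0 b) (h1 b)).K := hS.mem (b := b) h3
    rwa [tX_K (hp := hp) (hq := hq)] at h2
  obtain ⟨⟨hy1, hy2⟩, h3⟩ := mem_YB.1 hyK
  have hwa := W.wv_pos (K.a (φ b))
  have hwb := W.wv_pos (K.b (φ b))
  have hTa := B.T_le_a (φ b)
  have hTb := B.T_le_b (φ b)
  have h3' : ∀ k, k ≠ K.dir (φ b) → |Sm.toFun (h6.toFun x) k - K.w (K.a (φ b)) k| <
      B.T (φ b) := by
    intro k hk
    have h4 := h3 k hk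
    change K.w (K.a (φ b)) k - (Y'.p (φ b) k + r (φ b) k) ≤ Sm.toFun (h6.toFun x) k ∧
      Sm.toFun (h6.toFun x) k ≤ K.w (K.a (φ b)) k + (Y'.q (φ b) k + r (φ b) k) at h4
    have h5 := hp' (φ b) k
    have h6 := hq' (φ b) k
    rw [abs_lt]
    constructor <;> linarith [h4.1, h4.2]
  unfold eal at hy1
  unfold ebe at hy2
  by_cases hca : Sm.toFun (h6.toFun x) (K.dir (φ b)) ≤
      K.w (K.a (φ b)) (K.dir (φ b)) + W.wv (K.a (φ b)) / 2
  · refine Or.inr (Or.inr (Or.inr ⟨_, hXa, ?_⟩))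
    show Sm.toFun (h6.toFun x) ∈ _
    rw [Zv, interior_closedBall _ hwa.ne', mem_ball, dist_pi_lt_iff hwa]
    intro k
    rw [Real.dist_eq, abs_lt]
    by_cases hk : k = K.dir (φ b)
    · subst hk
      constructor <;> linarith
    · have h4 := abs_lt.1 (h3' k hk)
      constructor <;> linarith
  by_cases hcb : K.w (K.b (φ b)) (K.dir (φ b)) - W.wv (K.b (φ b)) / 2 ≤
      Sm.toFun (h6.toFun x) (K.dir (φ b))
  · refine Or.inr (Or.inr (Or.inr ⟨_, hXb, ?_⟩))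
    show Sm.toFun (h6.toFun x) ∈ _
    rw [Zv, interior_closedBall _ hwb.ne', mem_ball, dist_pi_lt_iff hwb]
    intro k
    rw [Real.dist_eq, abs_lt]
    by_cases hk : k = K.dir (φ b)
    · subst hk
      constructor <;> linarith
    · have h4 := abs_lt.1 (h3' k hk)
      rw [← wab K (φ b) hk]
      constructor <;> linarith
  push Not at hca hcb
  refine Or.inr (Or.inr (Or.inl ⟨φ b, hXe, ?_, ?_⟩))
  · show Sm.toFun (h6.toFun x) ∈ _
    rw [mem_interior_iff_mem_nhds]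
    have e1 : ∀ᶠ z : V in 𝓝 (Sm.toFun (h6.toFun x)),
        K.w (K.a (φ b)) (K.dir (φ b)) + W.wv (K.a (φ b)) / 2 < z (K.dir (φ b)) ∧
        z (K.dir (φ b)) < K.w (K.b (φ b)) (K.dir (φ b)) - W.wv (K.b (φ b)) / 2 :=
      ((continuous_apply (K.dir (φ b))).tendsto _).eventually (Ioo_mem_nhds hca hcb)
    have e2 : ∀ᶠ z : V in 𝓝 (Sm.toFun (h6.toFun x)), ∀ k, k ≠ K.dir (φ b) →
        |z k - K.w (K.a (φ b)) k| < B.T (φ b) := by
      rw [eventually_all]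
      intro k
      by_cases hk : k = K.dir (φ b)
      · exact Eventually.of_forall fun z h => absurd hk h
      · have h4 : Continuous fun z : V => |z k - K.w (K.a (φ b)) k| := by fun_prop
        filter_upwards [h4.tendsto _ |>.eventually (gt_mem_nhds (h3' k hk))] with z hz _
        exact hz
    filter_upwards [e1, e2] with z h4 h5
    exact ⟨⟨h4.1.le, h4.2.le⟩, fun k hk => (h5 k hk).le⟩
  · filter_upwards [self_mem_nhdsWithin] with x' hx'
    refine (abs_tfam_comp_le hμ hS (h := h6.toFun) (hY x hx) (hY x' hx')).trans ?_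
    have hd : 0 ≤ dsum (tlev T h6.toFun b) x x' := Finset.sum_nonneg fun _ _ => abs_nonneg _
    have h4 : (1 + μ b) * ((T b).hw * dsum (tlev T h6.toFun b) x x') ≤
        a * (om * dsum (tlev T h6.toFun b) x x') := by
      rw [← mul_assoc, ← mul_assoc]
      exact mul_le_mul_of_nonneg_right ha hd
    have h5 : |h6.toFun x' (K.dir (φ b)) - h6.toFun x (K.dir (φ b))| ≤ K₂ * ‖x' - x‖ := by
      refine le_trans ?_ (hK x' hx' x hx)
      have := norm_le_pi_norm (h6.toFun x' - h6.toFun x) (K.dir (φ b))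
      rwa [Pi.sub_apply, Real.norm_eq_abs] at this
    have h6' : ς b * |h6.toFun x' (K.dir (φ b)) - h6.toFun x (K.dir (φ b))| ≤ ε * ‖x' - x‖ := by
      calc _ ≤ ς b * (K₂ * ‖x' - x‖) := mul_le_mul_of_nonneg_left h5 (h0 b).le
        _ = ς b * K₂ * ‖x' - x‖ := by ring
        _ ≤ _ := mul_le_mul_of_nonneg_right hε (norm_nonneg _)
    linarith

end Vale.Agent.P073.H193
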