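import Vale.Agent.P073.H193.CellSup
import Vale.Agent.P073.H950.Dsum4
import Vale.Agent.P073.H142.NumE
import Vale.Agent.P073.H304.R1CostA

/-!
# P073, block H193 ([LIP-P]): the sup bound on a drawn cell from the Lipschitz constant of the input

`lip_cell`: the twin of `H950.drawn_cell` for the clause `lip` of `H304.Out`: if the map `h` of the
input is `K`-Lipschitz on the cell, then the numbers of its edges are at most `D₀ * K * (length)`,
the data of its faces are at most `C * K`, and the new map is `C * K`-Lipschitz on the cell.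
-/

open Set Metric Topology Filter MeasureTheory
open scoped ENNReal

namespace Vale.Agent.P073.H193

open Vale.Agent.P073.St (V)
open Vale.Agent.P073.AB (Idx squ)
open Vale.Agent.P073.AB.P86 (sc)
open Vale.Agent.P073.H73 (onSeg Mesh Adapted sqr)
open Vale.Agent.P073.H233 (BdT fInt ZS cp)
open Vale.Agent.P073.H304 (LipBd)
open Vale.Agent.P073.H155 (vv ce)
open Vale.Agent.P073.H471
open _root_.P073 (ConHomeo coneSetAt)
open _root_.P073.H155 (cm ab cn)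
open _root_.P073.H142 (FStar Num)
open _root_.P073.H950 (bsum bsum_nonneg perim_face face_eq mem_fin_face)
open _root_.P073.Net (len dyc dyo)

variable {Ω : Set V} {M : Mesh Ω}

/-! ### Lower bounds for the Lipschitz constants -/

theorem exists_two {Q : Set V} (h : (interior Q).Nonempty) : ∃ x ∈ Q, ∃ y ∈ Q, x ≠ y := by
  obtain ⟨x, hx⟩ := h
  obtain ⟨r, hr, hb⟩ := Metric.isOpen_iff.1 isOpen_interior x hx
  refine ⟨x, interior_subset hx, x + fun _ => r / 2, interior_subset (hb ?_), fun h => ?_⟩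
  · rw [mem_ball, dist_eq_norm, add_sub_cancel_left]
    have : ‖(fun _ : Fin 3 => r / 2)‖ ≤ r / 2 := by
      refine (pi_norm_le_iff_of_nonneg (by positivity)).2 fun _ => ?_
      rw [Real.norm_of_nonneg (by positivity)]
    linarith
  · have := congrFun h 0
    simp only [Pi.add_apply, left_eq_add] at this
    linarith

/-- **the Lipschitz constants of an injective map on the cells are bounded from below** -/
theorem exists_lipMin (M : Mesh Ω) {h : V → V} (hinj : InjOn h Ω) :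
    ∃ lam : M.ι → ℝ, (∀ i, 0 < lam i) ∧ ∀ i K,
      (∀ x ∈ M.Q i, ∀ y ∈ M.Q i, ‖h x - h y‖ ≤ K * ‖x - y‖) → lam i ≤ K := by
  have key : ∀ i, ∃ l : ℝ, 0 < l ∧ ∀ K,
      (∀ x ∈ M.Q i, ∀ y ∈ M.Q i, ‖h x - h y‖ ≤ K * ‖x - y‖) → l ≤ K := by
    intro i
    obtain ⟨x, hx, y, hy, hxy⟩ := exists_two (M.poly i).int
    have h1 : 0 < ‖x - y‖ := norm_pos_iff.2 (sub_ne_zero.2 hxy)
    have h2 : 0 < ‖h x - h y‖ := norm_pos_iff.2 (sub_ne_zero.2 fun h =>
      hxy (hinj (M.sub i hx) (M.sub i hy) h))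
    exact ⟨‖h x - h y‖ / ‖x - y‖, div_pos h2 h1, fun K hK => (div_le_iff₀ h1).2 (hK x hx y hy)⟩
  choose lam h1 h2 using key
  exact ⟨lam, h1, h2⟩

/-- **tiny numbers of the edges**: at most `K` times the length of the edge, for every Lipschitz
constant `K` on a cell which contains the edge -/
theorem exists_epsLip (M : Mesh Ω) {h : V → V} (hinj : InjOn h Ω) :
    ∃ εL : (edges M).ε → ℝ, (∀ e, 0 < εL e) ∧ ∀ e i, (edges M).seg e ⊆ M.Q i → ∀ K,
      (∀ x ∈ M.Q i, ∀ y ∈ M.Q i, ‖h x - h y‖ ≤ K * ‖x - y‖) →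
      εL e ≤ K * ‖(edges M).b e - (edges M).a e‖ := by
  obtain ⟨lam, h1, h2⟩ := exists_lipMin M hinj
  have hfin : ∀ e : (edges M).ε, {i | (edges M).seg e ⊆ M.Q i}.Finite := by
    intro e
    refine (M.fin ((edges M).seg e) ((edges M).seg_sub_Ω e) ((edges M).isCompact_seg e)).subset ?_
    intro i hi
    exact ⟨(edges M).a e, hi (left_mem_segment ℝ _ _), left_mem_segment ℝ _ _⟩
  obtain ⟨m, hm0, hm⟩ := Vale.Agent.P073.H669.exists_le_of_finite
    (R := fun (e : (edges M).ε) i => (edges M).seg e ⊆ M.Q i) hfin (f := lam) h1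
  refine ⟨fun e => m e * ‖(edges M).b e - (edges M).a e‖,
    fun e => mul_pos (hm0 e) (_root_.P073.H142.elen_pos (edges M) e), fun e i he K hK => ?_⟩
  exact mul_le_mul_of_nonneg_right ((hm e i he).trans (h2 i K hK)) (norm_nonneg _)

/-- the numbers of the edges of a cell on which `h` is `K`-Lipschitz -/
theorem num_le {i : M.ι} {e : (edges M).ε} (he : (edges M).seg e ⊆ M.Q i) {h : V → V}
    {K D₀ εe be : ℝ} (hD₀ : 0 ≤ D₀) (hK0 : 0 ≤ K)
    (hK : ∀ x ∈ M.Q i, ∀ y ∈ M.Q i, ‖h x - h y‖ ≤ K * ‖x - y‖)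
    (hε : εe ≤ K * ‖(edges M).b e - (edges M).a e‖)
    (hb : ENNReal.ofReal be ≤ ENNReal.ofReal D₀ *
      (len (onSeg h ((edges M).a e, (edges M).b e)) (Icc 0 1) + ENNReal.ofReal εe)) :
    be ≤ 3 * D₀ * K * ‖(edges M).b e - (edges M).a e‖ := by
  have h1 := Vale.Agent.P073.H304.len_le_lip (h := h) (e := ((edges M).a e, (edges M).b e)) hK0
    fun x hx y hy => hK x (he hx) y (he hy)
  have hn := norm_nonneg ((edges M).b e - (edges M).a e)
  have h2 : ENNReal.ofReal be ≤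
      ENNReal.ofReal (3 * D₀ * K * ‖(edges M).b e - (edges M).a e‖) := by
    refine hb.trans ?_
    calc _ ≤ ENNReal.ofReal D₀ * (ENNReal.ofReal (2 * K * ‖(edges M).b e - (edges M).a e‖) +
          ENNReal.ofReal (K * ‖(edges M).b e - (edges M).a e‖)) :=
          mul_le_mul_right (add_le_add h1 (ENNReal.ofReal_le_ofReal hε)) _
      _ = _ := by
          rw [← ENNReal.ofReal_add (by positivity) (by positivity), ← ENNReal.ofReal_mul hD₀]
          congr 1; ring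
  exact (ENNReal.ofReal_le_ofReal_iff (by positivity)).1 h2

/-! ### The data of the faces -/

section face

variable {k : M.κ} {v : V} {s : Idx × Fin 3} {b : (edges M).ε → ℝ} {B C₁ : ℝ}

/-- the sum of the numbers of the edges of a square -/
theorem bsum_le_sup (T : FStar (edges M) k) (hk : M.F k = squ v s) (hB : 0 ≤ B)
    (hb : ∀ e, (edges M).seg e ⊆ M.F k → b e ≤ B * ‖(edges M).b e - (edges M).a e‖) :
    bsum M k b ≤ 6 * B / 2 ^ s.1.1 := by
  have h1 := perim_face T (σ := 1 / 2 / 2 ^ s.1.1) (by positivity) (face_eq hk)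
  calc bsum M k b ≤ ∑ e ∈ ((edges M).fin_face k).toFinset,
        B * ‖(edges M).b e - (edges M).a e‖ :=
        Finset.sum_le_sum fun e he => hb e (mem_fin_face he)
    _ ≤ B * (12 * (1 / 2 / 2 ^ s.1.1)) := by
        rw [← Finset.mul_sum]
        exact mul_le_mul_of_nonneg_left h1 hB
    _ = _ := by ring

/-- the constants of the cones of a square -/
theorem con_le_sup (T : FStar (edges M) k) (hk : M.F k = squ v s) (hB : 0 ≤ B) (hC₁ : 0 ≤ C₁)
    (hb : ∀ e, (edges M).seg e ⊆ M.F k → b e ≤ B * ‖(edges M).b e - (edges M).a e‖)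
    {e : (edges M).ε} (he : (edges M).seg e ⊆ M.F k) : T.con C₁ b e ≤ 13 * C₁ * B := by
  have h1 := bsum_le_sup T hk hB hb
  have h2 : T.rho = 1 / 2 / 2 ^ s.1.1 := (T.sq _ _ _ (by positivity) (face_eq hk)).2.1
  have h3 : b e / ‖(edges M).b e - (edges M).a e‖ ≤ B :=
    (div_le_iff₀ (_root_.P073.H142.elen_pos (edges M) e)).2 (hb e he)
  have h4 : bsum M k b / T.rho ≤ 12 * B := by
    rw [h2, div_le_iff₀ (by positivity)]
    refine h1.trans (le_of_eq ?_)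
    ring
  unfold FStar.con
  change C₁ * (b e / ‖(edges M).b e - (edges M).a e‖ + bsum M k b / T.rho) ≤ _
  calc _ ≤ C₁ * (B + 12 * B) := mul_le_mul_of_nonneg_left (add_le_add h3 h4) hC₁
    _ = _ := by ring

/-- the local Lipschitz bound of a square -/
theorem G_le_sup (T : FStar (edges M) k) (hk : M.F k = squ v s) (hB : 0 ≤ B) (hC₁ : 0 ≤ C₁)
    (hb : ∀ e, (edges M).seg e ⊆ M.F k → b e ≤ B * ‖(edges M).b e - (edges M).a e‖) (x : V) :
    T.G C₁ b x ≤ 13 * C₁ * B := by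
  unfold FStar.G
  refine _root_.P073.H155.cm_le.2 ⟨by positivity, fun j _ _ => ?_⟩
  rw [T.ab_eq]
  exact con_le_sup T hk hB hC₁ hb (T.C.sub _)

end face

/-! ### One drawn cell -/

variable {p C₁ C₂ B : ℝ} {v : V} {z : Idx} {𝓢 : Finset (Idx × Fin 3)} {kf : Idx × Fin 3 → M.κ}
  {b : M.κ → (edges M).ε → ℝ}

theorem convex_Q (M : Mesh Ω) (i : M.ι) : Convex ℝ (M.Q i) := by
  obtain ⟨n, ν, t, h⟩ := (M.poly i).half
  rw [h]
  intro x hx y hy α β hα hβ hαβ j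
  rw [map_add, map_smul, map_smul, smul_eq_mul, smul_eq_mul]
  calc α * ν j x + β * ν j y ≤ α * t j + β * t j :=
        add_le_add (mul_le_mul_of_nonneg_left (hx j) hα) (mul_le_mul_of_nonneg_left (hy j) hβ)
    _ = t j := by rw [← add_mul, hαβ, one_mul]

/-- the number `L` of `Loc.cellp_sup` for the faces of a cell -/
noncomputable def lsup (C₁ C₂ B : ℝ) : ℝ := (26 * C₁ + 12 * C₂) * B

/-- **[LIP-P], one cell**: `Kb j` are the bounds of `H142.Loc.cellp_sup` for finitely many boxes,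
`om j`, `e` are tiny numbers. -/
theorem lip_cell (hp : 2 < p) {i : M.ι}
    (hkf : ∀ s ∈ 𝓢, M.F (kf s) = squ v s) (T : ∀ k, FStar (edges M) k)
    (hC₁ : 0 ≤ C₁) (hC₂ : 0 ≤ C₂) (hB : 0 ≤ B)
    (hb : ∀ s ∈ 𝓢, ∀ e, (edges M).seg e ⊆ M.F (kf s) →
      b (kf s) e ≤ B * ‖(edges M).b e - (edges M).a e‖)
    {J : Type*} [Fintype J] {Kb : J → V → ℝ} {om : J → ℝ}
    (hsup : ∀ j, ∀ L, 0 ≤ L →
      (∀ s ∈ 𝓢, ∀ x ∈ squ v s, 2 * (T (kf s)).G C₁ (b (kf s)) x ≤ L) →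
      (∀ s ∈ 𝓢, 2 * (C₂ * bsum M (kf s) (b (kf s))) ≤ L / 2 ^ s.1.1) →
      ∀ x, Kb j x ≤ cs p * (L + om j * 2 ^ z.1))
    (hom : ∀ j, om j * 2 ^ z.1 ≤ B)
    {g : V → V} {a e : ℝ} (ha : 0 ≤ a) (he : e ≤ B)
    (hlip : ∀ x ∈ M.Q i, ∀ᶠ y in 𝓝[M.Q i] x, ‖g y - g x‖ ≤ (a * ∑ j, Kb j x + e) * ‖y - x‖) :
    ∀ x ∈ M.Q i, ∀ y ∈ M.Q i, ‖g x - g y‖ ≤
      (a * (Fintype.card J * (cs p * (26 * C₁ + 12 * C₂ + 1))) + 1) * B * ‖x - y‖ := by
  refine _root_.P073.H142.lip_of_local (convex_Q M i) fun x hx => ?_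
  filter_upwards [hlip x hx] with y hy
  refine hy.trans (mul_le_mul_of_nonneg_right ?_ (norm_nonneg _))
  have hcs := (cs_pos hp).le
  have h1 : ∀ j, Kb j x ≤ cs p * ((26 * C₁ + 12 * C₂ + 1) * B) := by
    intro j
    refine (hsup j (lsup C₁ C₂ B) (by unfold lsup; positivity) (fun s hs y _ => ?_)
      (fun s hs => ?_) x).trans ?_
    · have h2 := G_le_sup (T (kf s)) (hkf s hs) hB hC₁ (hb s hs) y
      unfold lsup
      nlinarith [mul_nonneg hC₂ hB]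
    · have h2 := bsum_le_sup (T (kf s)) (hkf s hs) hB (hb s hs)
      have h3 : 2 * (C₂ * bsum M (kf s) (b (kf s))) ≤ 2 * (C₂ * (6 * B / 2 ^ s.1.1)) := by gcongr
      refine h3.trans ?_
      unfold lsup
      have e1 : 2 * (C₂ * (6 * B / 2 ^ s.1.1)) = (12 * C₂ * B) / 2 ^ s.1.1 := by ring
      rw [e1]
      refine div_le_div_of_nonneg_right ?_ (by positivity)
      nlinarith [mul_nonneg hC₁ hB]
    · refine mul_le_mul_of_nonneg_left ?_ hcs
      unfold lsup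
      linarith [hom j]
  have h2 : ∑ j, Kb j x ≤ Fintype.card J * (cs p * ((26 * C₁ + 12 * C₂ + 1) * B)) := by
    refine (Finset.sum_le_sum fun j _ => h1 j).trans (le_of_eq ?_)
    rw [Finset.sum_const, nsmul_eq_mul, Finset.card_univ]
  have h3 := mul_le_mul_of_nonneg_left h2 ha
  calc a * ∑ j, Kb j x + e ≤ a * (Fintype.card J * (cs p * ((26 * C₁ + 12 * C₂ + 1) * B))) + B :=
        add_le_add h3 he
    _ = _ := by ring

/-! ### The clause `lip` for one cell -/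

/-- the clause `lip` of `H304.Out` for the cell `i`, with the constant `C` -/
def LipOn (M : Mesh Ω) (h g : V → V) (i : M.ι) (C : ℝ) : Prop :=
  ∀ K > 0, (∀ i', (M.Q i ∩ M.Q i').Nonempty →
      ∀ x ∈ M.Q i', ∀ y ∈ M.Q i', ‖h x - h y‖ ≤ K * ‖x - y‖) →
    ∀ x ∈ M.Q i, ∀ y ∈ M.Q i, ‖g x - g y‖ ≤ C * K * ‖x - y‖

theorem own_cell {h : V → V} {i : M.ι} {K : ℝ}
    (hK : ∀ i', (M.Q i ∩ M.Q i').Nonempty →
      ∀ x ∈ M.Q i', ∀ y ∈ M.Q i', ‖h x - h y‖ ≤ K * ‖x - y‖) :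
    ∀ x ∈ M.Q i, ∀ y ∈ M.Q i, ‖h x - h y‖ ≤ K * ‖x - y‖ := by
  refine hK i ?_
  rw [inter_self]
  exact (M.poly i).int.mono interior_subset

theorem LipOn.mono {h g : V → V} {i : M.ι} {C C' : ℝ} (H : LipOn M h g i C) (hC : C ≤ C') :
    LipOn M h g i C' := fun K hK hh x hx y hy => (H K hK hh x hx y hy).trans (by gcongr)

theorem LipOn.congr {h g g' : V → V} {i : M.ι} {C : ℝ} (H : LipOn M h g i C)
    (hg : EqOn g' g (M.Q i)) : LipOn M h g' i C := fun K hK hh x hx y hy => by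
  rw [hg hx, hg hy]
  exact H K hK hh x hx y hy

/-- the input itself -/
theorem lipOn_self (M : Mesh Ω) (h : V → V) (i : M.ι) : LipOn M h h i 1 := by
  intro K hK hh x hx y hy
  rw [one_mul]
  exact own_cell hh x hx y hy

/-- **(b)** a map which is locally Lipschitz relative to another map, up to a tiny number -/
theorem LipOn.rel {h f g : V → V} {i : M.ι} {C C' lam e : ℝ} (H : LipOn M h f i C)
    (hlam : ∀ K, (∀ x ∈ M.Q i, ∀ y ∈ M.Q i, ‖h x - h y‖ ≤ K * ‖x - y‖) → lam ≤ K)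
    (he : e ≤ lam) (hC' : 0 ≤ C')
    (hg : ∀ x ∈ M.Q i, ∀ᶠ y in 𝓝[M.Q i] x, ‖g y - g x‖ ≤ C' * ‖f y - f x‖ + e * ‖y - x‖) :
    LipOn M h g i (C' * C + 1) := by
  intro K hK hh
  refine _root_.P073.H142.lip_of_local (convex_Q M i) fun x hx => ?_
  filter_upwards [hg x hx, self_mem_nhdsWithin] with y hy hyQ
  have h1 := mul_le_mul_of_nonneg_left (H K hK hh y hyQ x hx) hC'
  have h2 := mul_le_mul_of_nonneg_right (he.trans (hlam K (own_cell hh))) (norm_nonneg (y - x))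
  calc ‖g y - g x‖ ≤ C' * (C * K * ‖y - x‖) + K * ‖y - x‖ := by linarith
    _ = _ := by ring

/-- **(a) [LIP-P]** a drawn cell -/
theorem LipOn.cell (hp : 2 < p) {i : M.ι} (hkf : ∀ s ∈ 𝓢, M.F (kf s) = squ v s)
    (hkQ : ∀ s ∈ 𝓢, M.F (kf s) ⊆ M.Q i) (T : ∀ k, FStar (edges M) k)
    {h : V → V} {D₀ lam : ℝ} (hC₁ : 0 ≤ C₁) (hC₂ : 0 ≤ C₂) (hD₀ : 1 ≤ D₀)
    (hlam : ∀ K, (∀ x ∈ M.Q i, ∀ y ∈ M.Q i, ‖h x - h y‖ ≤ K * ‖x - y‖) → lam ≤ K)
    {εL : (edges M).ε → ℝ} (hεL : ∀ e, (edges M).seg e ⊆ M.Q i → ∀ K,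
      (∀ x ∈ M.Q i, ∀ y ∈ M.Q i, ‖h x - h y‖ ≤ K * ‖x - y‖) →
      εL e ≤ K * ‖(edges M).b e - (edges M).a e‖)
    (hb : ∀ s ∈ 𝓢, ∀ e, (edges M).seg e ⊆ M.F (kf s) →
      ENNReal.ofReal (b (kf s) e) ≤ ENNReal.ofReal D₀ *
        (len (onSeg h ((edges M).a e, (edges M).b e)) (Icc 0 1) + ENNReal.ofReal (εL e)))
    {J : Type*} [Fintype J] {Kb : J → V → ℝ} {om : J → ℝ}
    (hsup : ∀ j, ∀ L, 0 ≤ L →
      (∀ s ∈ 𝓢, ∀ x ∈ squ v s, 2 * (T (kf s)).G C₁ (b (kf s)) x ≤ L) →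
      (∀ s ∈ 𝓢, 2 * (C₂ * bsum M (kf s) (b (kf s))) ≤ L / 2 ^ s.1.1) →
      ∀ x, Kb j x ≤ cs p * (L + om j * 2 ^ z.1))
    (hom : ∀ j, om j * 2 ^ z.1 ≤ lam)
    {g : V → V} {a e : ℝ} (ha : 0 ≤ a) (he : e ≤ lam)
    (hlip : ∀ x ∈ M.Q i, ∀ᶠ y in 𝓝[M.Q i] x, ‖g y - g x‖ ≤ (a * ∑ j, Kb j x + e) * ‖y - x‖)
    {C : ℝ} (hC : 3 * D₀ * (a * (Fintype.card J * (cs p * (26 * C₁ + 12 * C₂ + 1))) + 1) ≤ C) :
    LipOn M h g i C := by
  intro K hK hh x hx y hy
  have hh' := own_cell hh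
  have hl := hlam K hh'
  have hB : lam ≤ 3 * D₀ * K := hl.trans (by nlinarith)
  have h1 := lip_cell hp hkf T hC₁ hC₂ (B := 3 * D₀ * K) (by positivity)
    (fun s hs e he => num_le (he.trans (hkQ s hs)) (by linarith) hK.le hh'
      (hεL e (he.trans (hkQ s hs)) K hh') (hb s hs e he)) hsup
    (fun j => (hom j).trans hB) ha (he.trans hB) hlip x hx y hy
  refine h1.trans ?_
  refine mul_le_mul_of_nonneg_right ?_ (norm_nonneg _)
  calc _ = 3 * D₀ * (a * (Fintype.card J * (cs p * (26 * C₁ + 12 * C₂ + 1))) + 1) * K := by ring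
    _ ≤ C * K := mul_le_mul_of_nonneg_right hC hK.le

end Vale.Agent.P073.H193
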