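import Vale.Agent.P073.H193.BandT
import Vale.Agent.P073.H267.K3Last
import Vale.Agent.P073.H237.LipW

/-!
# P073, block H193 ([CELL3]): the rows `cell` and `lip` of `Last3`

* `CellNum`: the numbers of the drawn cells; `TFaces`: the clauses of the faces of the cells drawn
  in the tubes;
* `cellPre_drawn`: the data of a drawn cell;
* `S5.cell`: the clause `cell`;
* `S5.lip`: the clause `lip`.
-/

open Set Metric Topology Filter MeasureTheory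
open scoped ENNReal

set_option linter.unusedSectionVars false

namespace Vale.Agent.P073.H193

open _root_.P073 _root_.P073.Net _root_.P073.PA691 _root_.P073.H936 _root_.P073.H936.K3
  _root_.P073.H142 _root_.P073.H880 _root_.P073.H880.RP _root_.P073.H345 _root_.P073.H236
  _root_.P073.H579 _root_.P073.H919 _root_.P073.H228 _root_.P073.H429
open Vale.Agent.P073
open Vale.Agent.P073.St (V)
open Vale.Agent.P073.AB (Idx squ)
open Vale.Agent.P073.H73 (Mesh onSeg)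
open Vale.Agent.P073.H304 (Nb Zmax)
open Vale.Agent.P073.H471 Vale.Agent.P073.H267
open Vale.Agent.P073.H926
open Vale.Agent.P073.H238.K3 (Zd Wc Act TOut3)
open Vale.Agent.P073.H267.K3
open Vale.Agent.P073.H233 (BdT PSet Xp CellPre CellOK3 LAt Adm FullJ)
open _root_.P073.H950 (bsum bsum_nonneg Tiny)

variable {c₀ n δ : ℝ} {j : ℕ} {Ω Λ : Set V} {v w : V} {ρ : V → ℝ} {M : Mesh Ω} {h : ConHomeo Ω Λ}
  {J₀ J : Set (ℕ × (Fin 3 → ℤ))} {P Z : Set M.ι} {K : BoxCx Λ w}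
  {D : KIn3 c₀ n j δ v w ρ M h J₀ J P Z} {C : Cells ρ w K} {C₀ μT : ℝ}
  {X : S1 D C C₀ μT} {Y₂ : S2 X} {Ys : Set M.κ} {sc : Sharp} {Y₃ : S3 Y₂ Ys sc} {Y₄ : S4 Y₃}

/-- the support of the staircase of the tube `b` -/
abbrev supT (D : KIn3 c₀ n j δ v w ρ M h J₀ J P Z) (C : Cells ρ w K) (b : K.G) : Set V :=
  YB ((YS (D.G C)).add (rT (D.G C)) (rT_pos (D.G C)) (fun e k => (YS_p_lt (D.G C) e k).le)
    fun e k => (YS_q_lt (D.G C) e k).le) b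

/-- **the numbers of the drawn cells** -/
structure CellNum (Y₅ : S5 Y₄) (p D₀ : ℝ) (ε : M.κ → ℝ) (εL : (edges M).ε → ℝ)
    (lam tin : M.ι → ℝ) : Prop where
  tin0 : ∀ i, 0 < tin i
  cd : ∀ i, (∀ k, M.F k ⊆ M.Q i → ∃ s, M.F k = squ v s) → ∀ z : Idx, M.Q i = dyc v z.1 z.2 →
    ∃ (𝓢 : Finset (Idx × Fin 3)) (kf : Idx × Fin 3 → M.κ),
      CellD M p (fun _ e => 2 * X.bn e) (lam i) i v z 𝓢 kf (tin i)
  num : ∀ k, (∀ e, (edges M).seg e ⊆ M.F k → ∀ i ∈ Wc D C, ¬ (edges M).seg e ⊆ M.Q i) →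
    Num k h.toFun D₀ (ε k) (fun e => 2 * X.bn e)
  numL : ∀ e, (∀ i ∈ Wc D C, ¬ (edges M).seg e ⊆ M.Q i) →
    ENNReal.ofReal (2 * X.bn e) ≤ ENNReal.ofReal D₀ *
      (len (onSeg h.toFun ((edges M).a e, (edges M).b e)) (Icc 0 1) + ENNReal.ofReal (εL e))
  om : ∀ s i, i ∈ _root_.P073.H919.ZbP (D.G C) (D.dat C) Y₃.h4 s → Y₂.Lw.om s.1 false ≤ tin i
  ε5 : ∀ s i, i ∈ _root_.P073.H919.ZbP (D.G C) (D.dat C) Y₃.h4 s → 48 * Y₄.ε s ≤ tin i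
  hw : ∀ b i, i ∈ ZbT Y₄ b → (Y₅.Th b).hw ≤ tin i
  ε6 : ∀ (b : pG C J₀) i, (∃ x ∈ M.Q i, Y₅.h6.toFun x ∈ supT D C b.1) → 16 * Y₅.ε b ≤ tin i

/-- **the clauses of the faces of the cells drawn in the tubes**; `kT`, `kT'`: the constants off
and on the sharp faces -/
def TFaces (Y₅ : S5 Y₄) (kT kT' : ℝ) : Prop :=
  ∀ (b : pG C J₀) i, i ∈ ZbT Y₄ b → ∀ k, M.F k ⊆ M.Q i → ∀ bb : (edges M).ε → ℝ,
    (∀ e, (edges M).seg e ⊆ M.F k → X.bn e ≤ bb e) →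
    (∀ e, (edges M).seg e ⊆ M.F k →
      ‖h.toFun ((edges M).b e) - h.toFun ((edges M).a e)‖ ≤ bb e) →
    (∀ i' ∈ Wc D C, M.F k ⊆ M.Q i' → ∃ L > 0,
      (∀ x ∈ M.Q i', ∀ y ∈ M.Q i', ‖h.toFun x - h.toFun y‖ ≤ L * ‖x - y‖) ∧
      ∀ e, (edges M).seg e ⊆ M.F k → L * ‖(edges M).b e - (edges M).a e‖ ≤ bb e) →
    ∀ Cc, (k ∉ Ys → kT ≤ Cc) → (k ∈ Ys → kT' ≤ Cc) →
      FaceCl M k (X.T k) bb Cc Cc (fun x y => bds (Y₅.Th b) (Y₄.f5.toFun x (K.dir b.1))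
        (Y₄.f5.toFun y (K.dir b.1)))

/-- **the cover** (the conclusion of `S5.cover`) -/
def Covered (Y₅ : S5 Y₄) : Prop :=
  ∀ i ∈ (D.dat C).Zd, i ∉ (D.dat C).Pr →
    (∃ s, i ∈ _root_.P073.H919.ZbP (D.G C) (D.dat C) Y₃.h4 s) ∨ (∃ b, i ∈ ZbT Y₄ b) ∨
      ∃ i' ∈ pW C J₀, Y₅.f.toFun '' M.Q i ⊆ interior (Zv (D.W C) i')

/-- the drawn cells of a tube after the hook -/
theorem h6_cell (Y₅ : S5 Y₄) {b : pG C J₀} {i : M.ι} (hi : i ∈ ZbT Y₄ b) {x : V}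
    (hx : x ∈ M.Q i) : Y₅.h6.toFun x ∈ supT D C b.1 := by
  have hYp : ∀ e k, (YT (D.G C) (pS C J₀)).p e k ≤ (YS (D.G C)).p e k := YT_YS_p (D.G C) (pS C J₀)
  have hYq : ∀ e k, (YT (D.G C) (pS C J₀)).q e k ≤ (YS (D.G C)).q e k := YT_YS_q (D.G C) (pS C J₀)
  exact YB_mono (fun e k => (hYp e k).trans (by
      show (YS (D.G C)).p e k ≤ (YS (D.G C)).p e k + rT (D.G C) e k
      linarith [rT_pos (D.G C) e k])) (fun e k => (hYq e k).trans (by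
      show (YS (D.G C)).q e k ≤ (YS (D.G C)).q e k + rT (D.G C) e k
      linarith [rT_pos (D.G C) e k])) _ (HkT.cell Y₅.tube hi hx)

section pre

variable {p lam tin Cc : ℝ} {i : M.ι} {z : Idx} {𝓢 : Finset (Idx × Fin 3)}
  {kf : Idx × Fin 3 → M.κ} {b₀ : M.κ → (edges M).ε → ℝ}

/-- **the data of a drawn cell** -/
theorem cellPre_drawn (Y₅ : S5 Y₄) (hp : 2 < p) (Cd : CellD M p b₀ lam i v z 𝓢 kf tin)
    (hcov : (∃ s, i ∈ _root_.P073.H919.ZbP (D.G C) (D.dat C) Y₃.h4 s) ∨ (∃ b, i ∈ ZbT Y₄ b) ∨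
      ∃ i' ∈ pW C J₀, Y₅.f.toFun '' M.Q i ⊆ interior (Zv (D.W C) i'))
    (hqr : ∀ s, 1 / 2 ≤ Y₄.q s * Y₄.r s) (μ0 : ∀ b, 0 ≤ Y₅.μ b) (μ1 : ∀ b, Y₅.μ b ≤ 1)
    (μu : ∀ b : pG C J₀, 4 * (Y₅.μ b * (ebe (D.W C) b.1 - eal (D.W C) b.1)) ≤ (D.G C).uT b.1)
    (hom : ∀ s, i ∈ _root_.P073.H919.ZbP (D.G C) (D.dat C) Y₃.h4 s → Y₂.Lw.om s.1 false ≤ tin)
    (hε5 : ∀ s, i ∈ _root_.P073.H919.ZbP (D.G C) (D.dat C) Y₃.h4 s → 48 * Y₄.ε s ≤ tin)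
    (hhw : ∀ b, i ∈ ZbT Y₄ b → (Y₅.Th b).hw ≤ tin)
    (hε6 : ∀ b : pG C J₀, (∃ x ∈ M.Q i, Y₅.h6.toFun x ∈ supT D C b.1) → 16 * Y₅.ε b ≤ tin)
    {bb : (edges M).ε → ℝ} (hb : ∀ t ∈ 𝓢, ∀ e, (edges M).seg e ⊆ M.F (kf t) → 0 ≤ bb e)
    (hCc : 0 ≤ Cc)
    (hclP : ∀ s, i ∈ _root_.P073.H919.ZbP (D.G C) (D.dat C) Y₃.h4 s → ∀ t ∈ 𝓢,
      FaceCl M (kf t) (X.T (kf t)) bb Cc Cc (cstP Y₃ s.1 1))
    (hclT : ∀ b, i ∈ ZbT Y₄ b → ∀ t ∈ 𝓢, FaceCl M (kf t) (X.T (kf t)) bb Cc Cc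
      (fun x y => bds (Y₅.Th b) (Y₄.f5.toFun x (K.dir b.1)) (Y₄.f5.toFun y (K.dir b.1)))) :
    ∃ (J' : Type) (_ : Fintype J') (Kb : J' → V → ℝ) (om : J' → ℝ),
      CellPre (D.B C) (Xp C J₀) M p i v z 𝓢 kf X.T (fun _ => bb) Cc Cc Kb om 3 (tin / 8)
        Y₅.f.toFun ∧ (Fintype.card J' : ℝ) ≤ 1 ∧ ∀ j, 0 ≤ om j ∧ om j ≤ tin := by
  have ht := Cd.pos
  rcases hcov with ⟨s, hi⟩ | ⟨b, hi⟩ | ⟨i', hi', hV⟩
  · have hz : z = Y₄.H.idx i := idx_unique (Cd.hQ.symm.trans (Y₄.H.idx_spec hi))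
    subst hz
    have hK := pieceP Y₄ hi hp Cd.bd Cd.hkf Cd.sub hb hCc (hclP s hi)
    obtain ⟨Kb, h1⟩ := cellPre_of_boxes (J := Unit) (om := fun _ => Y₂.Lw.om s.1 false)
      (u := fun _ => plev Y₃.Lt Y₃.F (Y₄.q s * Y₄.r s) Y₄.h5.toFun s) Cd.hQ Cd.bd Cd.hkf
      (fun _ => hK) (B := D.B C) (X := Xp C J₀) (a := 3) (by norm_num) (e := tin / 8)
      (by positivity) (f := Y₅.f.toFun) (fun x hx => by
        refine (latP Y₅ hi (hqr s) μ0 μ1 μu (ε := tin / 48) (ε' := tin / 16) ?_ (by positivity)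
          (fun b hb => ?_) hx).mono (Eventually.of_forall fun y => le_of_eq ?_)
        · have := hε5 s hi
          linarith
        · have := hε6 b hb
          linarith
        · rw [Finset.univ_unique, Finset.sum_singleton]
          ring)
    exact ⟨Unit, inferInstance, Kb, fun _ => Y₂.Lw.om s.1 false, h1, by simp, fun _ =>
      ⟨(stp_pos (Y₃.Lt.bx false s.1)).le, hom s hi⟩⟩
  · have hz : z = Y₅.H.idx i := idx_unique (Cd.hQ.symm.trans (Y₅.H.idx_spec hi))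
    subst hz
    have hK := hkT_piece' Y₅.H D.bΩ.1 Y₅.tube hi hp Cd.bd Cd.hkf X.T (bb := fun _ => bb) hb hCc
      (hclT b hi)
    obtain ⟨Kb, h1⟩ := cellPre_of_boxes (J := Unit) (om := fun _ => (Y₅.Th b).hw)
      (κ := fun _ => (Y₅.Th b).I) (u := fun _ => tlev Y₅.Th Y₅.h6.toFun b) Cd.hQ Cd.bd Cd.hkf
      (fun _ => hK) (B := D.B C) (X := Xp C J₀) (a := 3) (by norm_num) (e := tin / 8)
      (by positivity) (f := Y₅.f.toFun) (fun x hx => by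
        refine (latT Y₅ hi μ0 (μ1 b) hx).mono (Eventually.of_forall fun y => ?_)
        rw [Finset.univ_unique, Finset.sum_singleton]
        have h3 : 0 ≤ (Y₅.Th b).hw * dsum (tlev Y₅.Th Y₅.h6.toFun b) x y :=
          mul_nonneg (Y₅.Th b).hw_pos.le (Finset.sum_nonneg fun _ _ => abs_nonneg _)
        have h4 := hε6 b ⟨x, hx, h6_cell Y₅ hi hx⟩
        have h5 := norm_nonneg (y - x)
        have h6 : Y₅.ε b * ‖y - x‖ ≤ tin / 8 * ‖y - x‖ :=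
          mul_le_mul_of_nonneg_right (by linarith) h5
        linarith)
    exact ⟨Unit, inferInstance, Kb, fun _ => (Y₅.Th b).hw, h1, by simp, fun _ =>
      ⟨(Y₅.Th b).hw_pos.le, hhw b hi⟩⟩
  · obtain ⟨Kb, h1⟩ := cellPre_of_boxes (T := X.T) (C₁ := Cc) (C₂ := Cc) (p := p)
      (b := fun _ => bb) (J := Empty) (om := fun j => j.elim) (κ := fun _ => Unit)
      (u := fun j => j.elim) Cd.hQ Cd.bd Cd.hkf (fun j => j.elim) (B := D.B C) (X := Xp C J₀)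
      (a := 3) (by norm_num) (e := tin / 8) (by positivity) (f := Y₅.f.toFun) (fun x hx => by
        refine (latV Y₅ hi' hV (e := tin / 8) hx).mono (Eventually.of_forall fun y =>
          le_of_eq ?_)
        simp)
    exact ⟨Empty, inferInstance, Kb, fun j => j.elim, h1, by simp, fun j => j.elim⟩

/-- **the Lipschitz constant of a drawn cell** -/
theorem cellPre_lat {B : Boxes (D.W C)} {Xs : PSet K} {J' : Type} [Fintype J']
    {Kb : J' → V → ℝ} {om : J' → ℝ} {a e : ℝ} {f : V → V} {T : ∀ k, FStar (edges M) k}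
    {bb : (edges M).ε → ℝ} (hp : 2 < p)
    (H : CellPre B Xs M p i v z 𝓢 kf T (fun _ => bb) Cc Cc Kb om a e f)
    (hcard : (Fintype.card J' : ℝ) ≤ 1) (hCc : 0 ≤ Cc) {L : ℝ} (hL : 0 ≤ L)
    (hb : ∀ s ∈ 𝓢, ∀ e, (edges M).seg e ⊆ M.F (kf s) →
      bb e ≤ L * ‖(edges M).b e - (edges M).a e‖)
    (hom : ∀ j, om j * 2 ^ z.1 ≤ L) (he : e ≤ L) {x : V} (hx : x ∈ M.Q i) :
    LAt B Xs ((a * (cs p * (38 * Cc + 1)) + 1) * L) (M.Q i) f x := by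
  refine (H.lip x hx).mono ?_ le_rfl
  have hcs := (cs_pos hp).le
  have h1 : ∀ j, Kb j x ≤ cs p * ((38 * Cc + 1) * L) := by
    intro j
    refine ((H.piece j).sup (lsup Cc Cc L) (by unfold lsup; positivity) (fun s hs y _ => ?_)
      (fun s hs => ?_) x).trans ?_
    · have h2 := G_le_sup (T (kf s)) (H.hkf s hs) hL hCc (hb s hs) y
      unfold lsup
      nlinarith [mul_nonneg hCc hL]
    · have h2 := bsum_le_sup (T (kf s)) (H.hkf s hs) hL (hb s hs)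
      have h3 : 2 * (Cc * bsum M (kf s) bb) ≤ 2 * (Cc * (6 * L / 2 ^ s.1.1)) := by gcongr
      refine h3.trans ?_
      unfold lsup
      have e1 : 2 * (Cc * (6 * L / 2 ^ s.1.1)) = (12 * Cc * L) / 2 ^ s.1.1 := by ring
      rw [e1]
      refine div_le_div_of_nonneg_right ?_ (by positivity)
      nlinarith [mul_nonneg hCc hL]
    · refine mul_le_mul_of_nonneg_left ?_ hcs
      unfold lsup
      linarith [hom j]
  have h0 : 0 ≤ cs p * ((38 * Cc + 1) * L) := by positivity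
  have h2 : ∑ j, Kb j x ≤ cs p * ((38 * Cc + 1) * L) := by
    refine (Finset.sum_le_sum fun j _ => h1 j).trans ?_
    rw [Finset.sum_const, nsmul_eq_mul, Finset.card_univ]
    exact mul_le_of_le_one_left h0 hcard
  have h3 := mul_le_mul_of_nonneg_left h2 H.a0
  calc a * ∑ j, Kb j x + e ≤ a * (cs p * ((38 * Cc + 1) * L)) + L := add_le_add h3 he
    _ = _ := by ring

end pre

/-- **cells near the shells of the processed tiles are drawn** -/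
theorem zd_of_mem (D : KIn3 c₀ n j δ v w ρ M h J₀ J P Z) (C : Cells ρ w K) {i : M.ι}
    (hP : i ∉ P) {x : V} (hx : x ∈ M.Q i) (hη : h.toFun x ∈ Nb w J₀ (1 / 2 ^ j)) : i ∈ Zd D := by
  have h1 := D.δpos
  have h2 := D.δle
  have h3 : (1:ℝ) / 2 ^ j ≤ 2 / 2 ^ j - δ := by
    have e1 : (2:ℝ) / 2 ^ j = 1 / 2 ^ j + 1 / 2 ^ j := by ring
    rw [e1]
    linarith
  exact D.mem_Zmax C D.two_η_le hP hx (Nb.mono h3 hη)

/-- a drawn cell is a dyadic cube, and its faces are dyadic squares -/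
theorem zd_cube (D : KIn3 c₀ n j δ v w ρ M h J₀ J P Z) {i : M.ι} (hi : i ∈ Zd D) :
    (∃ z : Idx, M.Q i = dyc v z.1 z.2) ∧ ∀ k, M.F k ⊆ M.Q i → ∃ s, M.F k = squ v s := by
  refine ⟨?_, fun k hk => D.face_Zmax hi hk⟩
  obtain ⟨m, z, hz⟩ := D.inp.cube_of_Zmax D.two_η_le hi
  exact ⟨(m, z), hz⟩

/-- **the row `cell`** -/
theorem _root_.Vale.Agent.P073.H267.K3.S5.cell (Y₅ : S5 Y₄) {τ ε : M.κ → ℝ}
    {t4 : (D.dat C).S₀ → ℝ} {t5 : pG C J₀ → ℝ} (N : RowNum Y₅ τ ε t4 t5) {p D₀ : ℝ}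
    {ε' : M.κ → ℝ} {εL : (edges M).ε → ℝ} {lam tin : M.ι → ℝ}
    (N' : CellNum Y₅ p D₀ ε' εL lam tin) (hp : 2 < p) {Z' : Set M.ι}
    (hZ : ∀ i ∈ Z', i ∉ P ∧ h.toFun '' M.Q i ⊆ Nb w J₀ (1 / 2 ^ j)) (hcov : Covered Y₅)
    {kT kT' : ℝ} (hT : TFaces Y₅ kT kT') (hq : 0 ≤ Y₃.q) {C₁ C₁' A : ℝ}
    (h1 : 312 * Y₃.q ≤ C₁) (h2 : 1760 * C₀ ≤ C₁) (h3 : kT ≤ C₁)
    (h4 : 2 * FW31.DK sc.K * Y₃.q ≤ C₁') (h5 : kT' ≤ C₁') (hC : C₁ ≤ C₁') (hA : 3 ≤ A) :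
    ∀ i ∈ Z', ∀ c, Adm M Ys C₁ C₁' (M.Q i) c →
      CellOK3 (D.B C) (Xp C J₀) p h.toFun Y₅.f.toFun c A D₀ ε' εL (lam i) i := by
  intro i hi c hc
  obtain ⟨hiP, him⟩ := hZ i hi
  obtain ⟨x₀, hx₀'⟩ := (M.poly i).int
  have hx₀ : x₀ ∈ M.Q i := interior_subset hx₀'
  have hiZ : i ∈ Zd D := zd_of_mem D C hiP hx₀ (him ⟨x₀, hx₀, rfl⟩)
  obtain ⟨⟨z, hz⟩, hF⟩ := zd_cube D hiZ
  obtain ⟨𝓢, kf, Cd⟩ := N'.cd i hF z hz
  have hC0 : 1 ≤ C₀ := N.C₀1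
  have hcC : C₁ ≤ c := by
    rcases hc with rfl | ⟨rfl, -⟩
    · exact hC
    · exact le_rfl
  have hcY : ∀ k, M.F k ⊆ M.Q i → k ∈ Ys → c = C₁' := by
    intro k hk hkY
    rcases hc with rfl | ⟨rfl, hd⟩
    · rfl
    · obtain ⟨y, hy⟩ := (pgn_of_fat (M.fat k)).nonempty
      exact absurd (hk hy) (Set.disjoint_left.1 (hd k hkY) hy)
  have hWc : ∀ e, (edges M).seg e ⊆ M.Q i → ∀ i' ∈ Wc D C, ¬ (edges M).seg e ⊆ M.Q i' := by
    intro e he i' hi' he'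
    have ha : (edges M).a e ∈ (edges M).seg e := left_mem_segment ℝ _ _
    exact hi'.2.2 (zd_of_mem D C hi'.2.1 (he' ha) (him ⟨_, he ha, rfl⟩))
  have hFW : ∀ k, M.F k ⊆ M.Q i → ∀ i' ∈ Wc D C, ¬ M.F k ⊆ M.Q i' := by
    intro k hk i' hi' hk'
    obtain ⟨y, hy⟩ := (pgn_of_fat (M.fat k)).nonempty
    exact hi'.2.2 (zd_of_mem D C hi'.2.1 (hk' hy) (him ⟨_, hk hy, rfl⟩))
  have hb1 : ∀ e, X.bn e ≤ 2 * X.bn e := fun e => by linarith [X.num.b_pos e]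
  have hb2 : ∀ e, ‖h.toFun ((edges M).b e) - h.toFun ((edges M).a e)‖ ≤ 2 * X.bn e := by
    intro e
    have hpos := X.num.b_pos e
    have e1 := X.len_le e
    have e2 : ENNReal.ofReal ‖h.toFun ((edges M).b e) - h.toFun ((edges M).a e)‖ ≤
        ENNReal.ofReal (2 * X.bn e) := by
      refine le_trans ?_ e1
      exact H233.dist_le_len h.toFun ((edges M).a e, (edges M).b e)
    exact (ENNReal.ofReal_le_ofReal_iff (by linarith)).1 e2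
  have hqr : ∀ s, 1 / 2 ≤ Y₄.q s * Y₄.r s := fun s => by
    have e1 := N.q s
    have e2 := N.r s
    have hn := D.pos
    have hn1 := N.n1
    have e3 : 3 / 4 ≤ Y₄.q s := by linarith
    have e4 : 3 / 4 ≤ Y₄.r s := by linarith
    nlinarith
  have hμ1 : ∀ b, Y₅.μ b ≤ 1 := fun b => by
    have e1 := N.μn b
    have hn1 := N.n1
    linarith
  have hμu : ∀ b : pG C J₀,
      4 * (Y₅.μ b * (ebe (D.W C) b.1 - eal (D.W C) b.1)) ≤ (D.G C).uT b.1 := fun b => by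
    have e1 := N.μu b
    have e2 := (D.G C).uT_pos b.1
    have hn1 := N.n1
    have hn := D.pos
    nlinarith
  have hc0 : 0 ≤ c := by linarith
  obtain ⟨J', hJ', Kb, om, HP, hcard, hom⟩ := cellPre_drawn Y₅ hp Cd (hcov i hiZ hiP) hqr N.μ0
    hμ1 hμu (fun s hs => N'.om s i hs) (fun s hs => N'.ε5 s i hs) (fun b hb => N'.hw b i hb)
    (fun b hb => N'.ε6 b i hb) (bb := fun e => 2 * X.bn e)
    (fun t ht e he => by linarith [X.num.b_pos e]) (Cc := c) hc0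
    (fun s hs t ht => by
      have hk := Cd.sub t ht
      refine faceCl_P Y₄ hs hC0 N.fat hk (fun e _ => hb1 e) (fun e _ => hb2 e)
        (fun i' hi' hk' => absurd hk' (hFW _ hk i' hi')) zero_le_one (q := Y₃.q) (fun _ e _ => ?_)
        (fun _ e _ => ?_) (fun hY => by linarith) (fun hY => ?_) hq (by linarith)
      · refine (Y₃.Lq e).trans (mul_le_mul_of_nonneg_left (hb1 e) hq)
      · refine (Y₃.Wq e).trans (mul_le_mul_of_nonneg_left (hb1 e) hq)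
      · rw [hcY _ hk hY]
        linarith)
    (fun b hb t ht => by
      have hk := Cd.sub t ht
      exact hT b i hb _ hk _ (fun e _ => hb1 e) (fun e _ => hb2 e)
        (fun i' hi' hk' => absurd hk' (hFW _ hk i' hi')) c (fun _ => h3.trans hcC)
        (fun hY => by rw [hcY _ hk hY]; exact h5))
  have ht := Cd.pos
  refine ⟨v, z, 𝓢, kf, X.T, fun _ e => 2 * X.bn e, J', hJ', Kb, om, 3, tin i / 8, HP, ?_,
    fun s hs => N'.num _ fun e he => hWc e (he.trans (Cd.sub s hs)),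
    fun s hs e he => N'.numL e (hWc e (he.trans (Cd.sub s hs))),
    fun j => Cd.tiny (om j) (hom j).1 (hom j).2, (Cd.tiny (8 * (tin i / 8)) (by positivity)
      (by linarith)).1, ?_⟩
  · linarith
  · have e2 := (Cd.tiny (8 * (tin i / 8)) (by positivity) (by linarith)).2
    have e3 : (1:ℝ) ≤ 2 ^ z.1 := one_le_pow₀ (by norm_num)
    nlinarith

/-- the numbers of the edges of a cell, if `h` is Lipschitz on the cells around it -/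
theorem bn_le_lip (X : S1 D C C₀ μT) {i : M.ι} {L : ℝ} (hL : 0 < L)
    (hK : ∀ i', (M.Q i ∩ M.Q i').Nonempty →
      ∀ x ∈ M.Q i', ∀ y ∈ M.Q i', ‖h.toFun x - h.toFun y‖ ≤ L * ‖x - y‖)
    {e : (edges M).ε} (he : (edges M).seg e ⊆ M.Q i) :
    X.bn e ≤ 3 * L * ‖(edges M).b e - (edges M).a e‖ := by
  have hn := norm_nonneg ((edges M).b e - (edges M).a e)
  have ha : (edges M).a e ∈ (edges M).seg e := left_mem_segment ℝ _ _
  have hb : (edges M).b e ∈ (edges M).seg e := right_mem_segment ℝ _ _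
  by_cases hW : ∃ i' ∈ Wc D C, (edges M).seg e ⊆ M.Q i'
  · obtain ⟨i', hi', he'⟩ := hW
    have h1 := X.num.b_lip e i' hi' he' L hL (hK i' ⟨_, he ha, he' ha⟩)
    refine h1.trans (mul_le_mul_of_nonneg_right (by linarith) hn)
  · push Not at hW
    have h1 := X.num.b_le e hW
    have h2 := num_le he (h := h.toFun) (D₀ := 1) (εe := X.εe e) (be := X.bn e) zero_le_one hL.le
      (own_cell hK) (by
        refine (X.εch e).trans ?_
        exact own_cell hK _ (he hb) _ (he ha)) (by rw [ENNReal.ofReal_one, one_mul]; exact h1)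
    linarith

/-- **the row `lip`** -/
theorem _root_.Vale.Agent.P073.H267.K3.S5.lip (Y₅ : S5 Y₄) {τ ε : M.κ → ℝ}
    {t4 : (D.dat C).S₀ → ℝ} {t5 : pG C J₀ → ℝ} (N : RowNum Y₅ τ ε t4 t5) {p D₀ : ℝ}
    {ε' : M.κ → ℝ} {εL : (edges M).ε → ℝ} {lam tin : M.ι → ℝ}
    (N' : CellNum Y₅ p D₀ ε' εL lam tin) (hp : 2 < p)
    (hlam : ∀ i K, (∀ x ∈ M.Q i, ∀ y ∈ M.Q i, ‖h.toFun x - h.toFun y‖ ≤ K * ‖x - y‖) →
      lam i ≤ K) {Z' : Set M.ι} (hcov : Covered Y₅)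
    {kT kT' : ℝ} (hT : TFaces Y₅ kT kT') (hq : 0 ≤ Y₃.q) {D₁ : ℝ}
    (hW : FullJ w ρ J₀ J → ∀ i, i ∉ P → i ∉ Zd D → ∀ L > 0,
      (∀ i', (M.Q i ∩ M.Q i').Nonempty →
        ∀ x ∈ M.Q i', ∀ y ∈ M.Q i', ‖h.toFun x - h.toFun y‖ ≤ L * ‖x - y‖) →
      ∀ x ∈ M.Q i, LAt (D.B C) (Xp C J₀) (D₁ * L) (M.Q i) Y₅.f.toFun x)
    {Cc Cc' C₁ C₁' : ℝ}
    (h1 : 312 * Y₃.q ≤ Cc) (h2 : 1760 * C₀ ≤ Cc) (h3 : kT ≤ Cc)
    (h4 : 2 * FW31.DK sc.K * Y₃.q ≤ Cc') (h5 : kT' ≤ Cc') (hC : Cc ≤ Cc')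
    (hC₁ : 3 * (3 * (cs p * (38 * Cc + 1)) + 1) ≤ C₁)
    (hC₁' : 3 * (3 * (cs p * (38 * Cc' + 1)) + 1) ≤ C₁') (hD₁ : D₁ ≤ C₁) (hD₁' : D₁ ≤ C₁') :
    FullJ w ρ J₀ J → ∀ i, i ∉ P → i ∉ Z' → ∀ c, Adm M Ys C₁ C₁' (M.Q i) c → ∀ L > 0,
      (∀ i', (M.Q i ∩ M.Q i').Nonempty →
        ∀ x ∈ M.Q i', ∀ y ∈ M.Q i', ‖h.toFun x - h.toFun y‖ ≤ L * ‖x - y‖) →
      ∀ x ∈ M.Q i, LAt (D.B C) (Xp C J₀) (c * L) (M.Q i) Y₅.f.toFun x := by
  intro F i hiP _ c hc L hL hK x hx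
  have hD₁c : D₁ ≤ c := by
    rcases hc with rfl | ⟨rfl, -⟩
    · exact hD₁'
    · exact hD₁
  by_cases hiZ : i ∈ Zd D
  swap
  · exact (hW F i hiP hiZ L hL hK x hx).mono (mul_le_mul_of_nonneg_right hD₁c hL.le) le_rfl
  obtain ⟨⟨z, hz⟩, hF⟩ := zd_cube D hiZ
  obtain ⟨𝓢, kf, Cd⟩ := N'.cd i hF z hz
  have hC0 : 1 ≤ C₀ := N.C₀1
  obtain ⟨Cb, hCb, hCY, hCc⟩ : ∃ Cb, Cc ≤ Cb ∧ (∀ k, M.F k ⊆ M.Q i → k ∈ Ys → Cc' ≤ Cb) ∧
      3 * (3 * (cs p * (38 * Cb + 1)) + 1) ≤ c := by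
    rcases hc with rfl | ⟨rfl, hd⟩
    · exact ⟨Cc', hC, fun _ _ _ => le_rfl, hC₁'⟩
    · refine ⟨Cc, le_rfl, fun k hk hkY => ?_, hC₁⟩
      obtain ⟨y, hy⟩ := (pgn_of_fat (M.fat k)).nonempty
      exact absurd (hk hy) (Set.disjoint_left.1 (hd k hkY) hy)
  have hCb0 : 0 ≤ Cb := by linarith
  have hlamL := hlam i L (own_cell hK)
  have ht := Cd.pos
  -- the numbers of the edges
  set bb : (edges M).ε → ℝ := fun e => 3 * L * ‖(edges M).b e - (edges M).a e‖ with hbb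
  have hbb0 : ∀ e, 0 ≤ bb e := fun e => by
    rw [hbb]
    positivity
  have hb1 : ∀ e, (edges M).seg e ⊆ M.Q i → X.bn e ≤ bb e := fun e he => bn_le_lip X hL hK he
  have hb2 : ∀ e, (edges M).seg e ⊆ M.Q i →
      ‖h.toFun ((edges M).b e) - h.toFun ((edges M).a e)‖ ≤ bb e := fun e he => by
    have e1 := own_cell hK _ (he (right_mem_segment ℝ _ _)) _ (he (left_mem_segment ℝ _ _))
    have hn := norm_nonneg ((edges M).b e - (edges M).a e)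
    show _ ≤ 3 * L * ‖(edges M).b e - (edges M).a e‖
    nlinarith [mul_nonneg hL.le hn]
  have hb3 : ∀ k, M.F k ⊆ M.Q i → ∀ i' ∈ Wc D C, M.F k ⊆ M.Q i' → ∃ L > 0,
      (∀ x ∈ M.Q i', ∀ y ∈ M.Q i', ‖h.toFun x - h.toFun y‖ ≤ L * ‖x - y‖) ∧
      ∀ e, (edges M).seg e ⊆ M.F k → L * ‖(edges M).b e - (edges M).a e‖ ≤ bb e := by
    intro k hk i' _ hk'
    obtain ⟨y, hy⟩ := (pgn_of_fat (M.fat k)).nonempty
    refine ⟨L, hL, hK i' ⟨y, hk hy, hk' hy⟩, fun e _ => ?_⟩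
    have hn := norm_nonneg ((edges M).b e - (edges M).a e)
    show _ ≤ 3 * L * ‖(edges M).b e - (edges M).a e‖
    nlinarith [mul_nonneg hL.le hn]
  have hqr : ∀ s, 1 / 2 ≤ Y₄.q s * Y₄.r s := fun s => by
    have e1 := N.q s
    have e2 := N.r s
    have hn := D.pos
    have hn1 := N.n1
    have e3 : 3 / 4 ≤ Y₄.q s := by linarith
    have e4 : 3 / 4 ≤ Y₄.r s := by linarith
    nlinarith
  have hμ1 : ∀ b, Y₅.μ b ≤ 1 := fun b => by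
    have e1 := N.μn b
    have hn1 := N.n1
    linarith
  have hμu : ∀ b : pG C J₀,
      4 * (Y₅.μ b * (ebe (D.W C) b.1 - eal (D.W C) b.1)) ≤ (D.G C).uT b.1 := fun b => by
    have e1 := N.μu b
    have e2 := (D.G C).uT_pos b.1
    have hn1 := N.n1
    have hn := D.pos
    nlinarith
  obtain ⟨J', hJ', Kb, om, HP, hcard, hom⟩ := cellPre_drawn Y₅ hp Cd (hcov i hiZ hiP) hqr N.μ0
    hμ1 hμu (fun s hs => N'.om s i hs) (fun s hs => N'.ε5 s i hs) (fun b hb => N'.hw b i hb)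
    (fun b hb => N'.ε6 b i hb) (bb := bb) (fun t _ e _ => hbb0 e) (Cc := Cb) hCb0
    (fun s hs t ht => by
      have hk := Cd.sub t ht
      refine faceCl_P Y₄ hs hC0 N.fat hk (fun e he => hb1 e (he.trans hk))
        (fun e he => hb2 e (he.trans hk)) (fun i' hi' hk' => ?_) zero_le_one (q := Y₃.q)
        (fun _ e he => ?_) (fun _ e he => ?_) (fun hY => by linarith) (fun hY => ?_) hq
        (by linarith)
      · obtain ⟨L', hL', e1, e2⟩ := hb3 _ hk i' hi' hk'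
        exact ⟨L', hL', fun x hx y hy => e1 x (hk' hx) y (hk' hy), e2⟩
      · exact (Y₃.Lq e).trans (mul_le_mul_of_nonneg_left (hb1 e (he.trans hk)) hq)
      · exact (Y₃.Wq e).trans (mul_le_mul_of_nonneg_left (hb1 e (he.trans hk)) hq)
      · have := hCY _ hk hY
        linarith)
    (fun b hb t ht => by
      have hk := Cd.sub t ht
      exact hT b i hb _ hk _ (fun e he => hb1 e (he.trans hk)) (fun e he => hb2 e (he.trans hk))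
        (fun i' hi' hk' => hb3 _ hk i' hi' hk') Cb (fun _ => h3.trans hCb)
        (fun hY => h5.trans (hCY _ hk hY)))
  have hL3 : L ≤ 3 * L := by linarith
  refine (cellPre_lat hp HP hcard hCb0 (L := 3 * L) (by positivity) (fun s _ e _ => le_rfl)
    (fun j => ((Cd.tiny (om j) (hom j).1 (hom j).2).2.trans hlamL).trans hL3) ?_ hx).mono ?_ le_rfl
  · have e2 := (Cd.tiny (tin i) ht.le le_rfl).2
    have e3 : (1:ℝ) ≤ 2 ^ z.1 := one_le_pow₀ (by norm_num)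
    nlinarith
  · calc (3 * (cs p * (38 * Cb + 1)) + 1) * (3 * L) =
        3 * (3 * (cs p * (38 * Cb + 1)) + 1) * L := by ring
      _ ≤ c * L := mul_le_mul_of_nonneg_right hCc hL.le

end Vale.Agent.P073.H193
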