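import Vale.Agent.P073.H193.Refine

/-!
# P073, block A03-MESH: the minimal squares of the refined partition
-/

namespace Vale.Agent.P073.H193

open MeasureTheory Set Filter Topology Metric Vale.Agent.P073.St
open Vale.Agent.P073.SQ (ev)
open Vale.Agent.P073.AB (Idx Part pt edge eInt squ FaceOf EdgeOf EdgeOfSq MinSq)
open Vale.Agent.P073.AB.P86
open Vale.Agent.P073.H194 (refine Big SpecRefine eIn eInSq)
open P073.Net (dyc dyo)
open P073.Net.NC (dyA dyB fine_sub fine_sub' dyc_sub)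
open scoped ENNReal

/-! ### Squares in cubes -/

/-- inclusion of a square in a cube -/
theorem squ_dyc_ineq {v : V} {F : Idx × Fin 3} {q : Idx} (h : squ v F ⊆ dyc v q.1 q.2) :
    ((q.2 F.2 : ℝ) / 2 ^ q.1 ≤ F.1.2 F.2 / 2 ^ F.1.1 ∧
      (F.1.2 F.2 : ℝ) / 2 ^ F.1.1 ≤ (q.2 F.2 + 1) / 2 ^ q.1) ∧
    ∀ k, k ≠ F.2 → (q.2 k : ℝ) / 2 ^ q.1 ≤ F.1.2 k / 2 ^ F.1.1 ∧
      ((F.1.2 k : ℝ) + 1) / 2 ^ F.1.1 ≤ (q.2 k + 1) / 2 ^ q.1 := by
  have hp : (0:ℝ) < 1 / 2 ^ F.1.1 := by positivity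
  have h1 : (fun k => v k + F.1.2 k / 2 ^ F.1.1 : V) ∈ squ v F :=
    ⟨rfl, fun j _ => ⟨le_rfl, by rw [div_add_one]; linarith⟩⟩
  have h2 : (fun k => if k = F.2 then v k + F.1.2 k / 2 ^ F.1.1 else
      v k + (F.1.2 k + 1) / 2 ^ F.1.1 : V) ∈ squ v F := by
    refine ⟨by simp, fun j hj => ?_⟩
    simp only [if_neg hj]
    exact ⟨by rw [div_add_one]; linarith, le_rfl⟩
  refine ⟨?_, fun k hk => ?_⟩
  · have h3 := h h1 F.2
    constructor <;> linarith [h3.1, h3.2]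
  · have h3 := (h h1 k).1
    have h4 := (h h2 k).2
    simp only [if_neg hk] at h4
    constructor <;> linarith

/-- the generation of a square in a cube -/
theorem squ_gen_le {v : V} {F : Idx × Fin 3} {q : Idx} (h : squ v F ⊆ dyc v q.1 q.2) :
    q.1 ≤ F.1.1 := by
  obtain ⟨k, hk⟩ : ∃ k : Fin 3, k ≠ F.2 := exists_ne F.2
  have h1 := (squ_dyc_ineq h).2 k hk
  rw [div_add_one, div_add_one] at h1
  have h2 : (1:ℝ) / 2 ^ F.1.1 ≤ 1 / 2 ^ q.1 := by linarith [h1.1, h1.2]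
  rw [one_div_le_one_div (by positivity) (by positivity)] at h2
  exact (pow_le_pow_iff_right₀ (by norm_num)).1 h2

/-- the cube above the square lies in `q`, unless the plane is the upper boundary plane -/
theorem hi_or {v : V} {F : Idx × Fin 3} {q : Idx} (h : squ v F ⊆ dyc v q.1 q.2) :
    dyc v F.1.1 F.1.2 ⊆ dyc v q.1 q.2 ∨
      (F.1.2 F.2 : ℝ) / 2 ^ F.1.1 = (q.2 F.2 + 1) / 2 ^ q.1 := by
  obtain ⟨⟨h1, h2⟩, h3⟩ := squ_dyc_ineq h
  have hg := squ_gen_le h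
  rcases h2.lt_or_eq with hlt | heq
  · left
    apply dyc_sub
    intro k
    by_cases hk : k = F.2
    · subst hk
      refine ⟨h1, ?_⟩
      have := dyA (m := q.1) (m' := F.1.1) hg (a := q.2 F.2 + 1) (b := F.1.2 F.2)
        (by push_cast; exact hlt)
      push_cast at this
      exact this
    · exact h3 k hk
  · exact Or.inr heq

/-- the cube below the square lies in `q`, unless the plane is the lower boundary plane -/
theorem lo_or {v : V} {F : Idx × Fin 3} {q : Idx} (h : squ v F ⊆ dyc v q.1 q.2) :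
    dyc v F.1.1 (lo F) ⊆ dyc v q.1 q.2 ∨
      (F.1.2 F.2 : ℝ) / 2 ^ F.1.1 = q.2 F.2 / 2 ^ q.1 := by
  obtain ⟨⟨h1, h2⟩, h3⟩ := squ_dyc_ineq h
  have hg := squ_gen_le h
  rcases h1.lt_or_eq with hlt | heq
  · left
    apply dyc_sub
    intro k
    by_cases hk : k = F.2
    · subst hk
      rw [lo_same]
      have e1 : (((F.1.2 F.2 - 1 : ℤ) : ℝ) + 1) / 2 ^ F.1.1 = F.1.2 F.2 / 2 ^ F.1.1 := by
        push_cast; rw [sub_add_cancel]
      refine ⟨?_, by rw [e1]; exact h2⟩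
      exact dyB (m := q.1) (m' := F.1.1) hg (a := q.2 F.2) (b := F.1.2 F.2 - 1)
        (by rw [e1]; exact hlt)
    · rw [lo_other F hk]; exact h3 k hk
  · exact Or.inr heq.symm

/-- the face of `q` in a boundary plane which contains the square -/
theorem exists_face {v : V} {F : Idx × Fin 3} {q : Idx} (h : squ v F ⊆ dyc v q.1 q.2)
    (hb : (F.1.2 F.2 : ℝ) / 2 ^ F.1.1 = q.2 F.2 / 2 ^ q.1 ∨
      (F.1.2 F.2 : ℝ) / 2 ^ F.1.1 = (q.2 F.2 + 1) / 2 ^ q.1) :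
    ∃ s : Idx × Fin 3, FaceOf s q ∧ s.2 = F.2 ∧ squ v F ⊆ squ v s := by
  rcases hb with hb | hb
  · refine ⟨(q, F.2), ⟨rfl, Or.inl rfl, fun j hj => rfl⟩, rfl, ?_⟩
    intro x hx
    refine ⟨?_, fun k hk => h hx k⟩
    rw [hx.1, hb]
  · refine ⟨((q.1, Function.update q.2 F.2 (q.2 F.2 + 1)), F.2),
      ⟨rfl, Or.inr (by simp), fun j hj => by simp [show j ≠ F.2 from hj]⟩, rfl, ?_⟩
    intro x hx
    refine ⟨?_, fun k hk => ?_⟩
    · simp only [Function.update_self]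
      rw [hx.1, hb]; push_cast; rfl
    · simp only [Function.update_of_ne (show k ≠ F.2 from hk)]
      exact h hx k

/-- nested squares, from a point: `s` is coarser, the same normal, the centre of `F` lies in `s` -/
theorem squ_sub_of_center {v : V} {F s : Idx × Fin 3} (hk : s.2 = F.2) (hg : s.1.1 ≤ F.1.1)
    (hc : sc v F ∈ squ v s) : squ v F ⊆ squ v s := by
  have hcF := (sc_mem (v := v) (s := F))
  intro x hx
  have e0 := hc.1
  rw [hk] at e0
  refine ⟨?_, fun k hk' => ?_⟩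
  · rw [hk, hx.1, ← e0]; exact hcF.1.symm
  · rw [hk] at hk'
    have h1 := hc.2 k (by rw [hk]; exact hk')
    have h2 := hcF.2 k hk'
    have h3 := hx.2 k hk'
    have h4 := dyB (m := s.1.1) (m' := F.1.1) hg (a := s.1.2 k) (b := F.1.2 k)
      (by linarith [h1.1, h2.2])
    have h5 := dyA (m := s.1.1) (m' := F.1.1) hg (a := s.1.2 k + 1) (b := F.1.2 k)
      (by push_cast; linarith [h1.2, h2.1])
    push_cast at h5
    constructor <;> linarith [h3.1, h3.2]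

section

variable {Ω : Set V} {v : V} {I P B : Set Idx} {n : Idx → ℕ}

/-- two cubes of the partition which contain a square are its two sides -/
theorem two_of_sub (hI : Part Ω v I) {F : Idx × Fin 3} {q r : Idx} (hq : q ∈ I) (hr : r ∈ I)
    (hne : q ≠ r) (hFq : squ v F ⊆ dyc v q.1 q.2) (hFr : squ v F ⊆ dyc v r.1 r.2) :
    (Two v I F q r ∧ (F.1.2 F.2 : ℝ) / 2 ^ F.1.1 = q.2 F.2 / 2 ^ q.1) ∨
    (Two v I F r q ∧ (F.1.2 F.2 : ℝ) / 2 ^ F.1.1 = (q.2 F.2 + 1) / 2 ^ q.1) := by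
  have key : ∀ {m : ℕ} {z : Fin 3 → ℤ}, dyc v m z ⊆ dyc v q.1 q.2 → ¬ dyc v m z ⊆ dyc v r.1 r.2 := by
    intro m z h1 h2
    have hm := cen_mem v m z
    exact hne (eq_of_mem hI hq hr (dyo_sub h1 hm) (h2 (dyo_sub_dyc hm)))
  have h2 : ((q.2 F.2 : ℝ)) / 2 ^ q.1 < (q.2 F.2 + 1) / 2 ^ q.1 := by
    have hp : (0:ℝ) < 1 / 2 ^ q.1 := by positivity
    rw [div_add_one]; linarith
  have h3 : ((r.2 F.2 : ℝ)) / 2 ^ r.1 < (r.2 F.2 + 1) / 2 ^ r.1 := by
    have hp : (0:ℝ) < 1 / 2 ^ r.1 := by positivity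
    rw [div_add_one]; linarith
  rcases hi_or hFq with h | h
  · rcases lo_or hFq with h' | h'
    · exfalso
      rcases hi_or hFr with h4 | h4
      · exact key h h4
      · rcases lo_or hFr with h5 | h5
        · exact key h' h5
        · linarith
    · left
      refine ⟨⟨hq, hr, h, ?_⟩, h'⟩
      rcases lo_or hFr with h5 | h5
      · exact h5
      · exfalso
        rcases hi_or hFr with h4 | h4
        · exact key h h4
        · linarith
  · right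
    refine ⟨⟨hr, hq, ?_, ?_⟩, h⟩
    · rcases hi_or hFr with h4 | h4
      · exact h4
      · exfalso
        rcases lo_or hFr with h5 | h5
        · rcases lo_or hFq with h6 | h6
          · exact key h6 h5
          · linarith
        · linarith
    · rcases lo_or hFq with h6 | h6
      · exact h6
      · linarith

/-- **(A)** the other side of a minimal square -/
theorem other_side (hΩ : IsOpen Ω) (hI : Part Ω v I) {F : Idx × Fin 3} (hF : MinSq v I F)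
    {i : Idx} (hi : i ∈ I) (hFi : squ v F ⊆ dyc v i.1 i.2) :
    ∃ i' ∈ I, i' ≠ i ∧ squ v F ⊆ dyc v i'.1 i'.2 ∧ (FaceOf F i ∨ (FaceOf F i' ∧ i.1 < F.1.1)) ∧
      ∀ r ∈ I, sc v F ∈ dyc v r.1 r.2 → r = i ∨ r = i' := by
  obtain ⟨qp, qm, h2⟩ := two_of_minSq hΩ hI hF
  have hne : qp ≠ qm := by
    intro hc
    subst hc
    obtain ⟨⟨q0, hq0, hf⟩, -⟩ := hF
    have hgen : qp.1 = F.1.1 := by
      rcases faceOf_iff.1 hf with rfl | rfl
      · exact (eq_of_sub hI hq0 h2.memp h2.subp) ▸ rfl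
      · exact (eq_of_sub hI hq0 h2.memp h2.subm) ▸ rfl
    have h3 := h2.subp
    have h4 := h2.subm
    rw [hgen] at h3 h4
    have h5 := eq_of_sub_same h3
    have h6 := eq_of_sub_same h4
    have h7 := congrFun (h5.trans h6.symm) F.2
    rw [lo_same] at h7
    omega
  have hcen : ∀ r ∈ I, sc v F ∈ dyc v r.1 r.2 → r = qp ∨ r = qm :=
    fun r hr hx => rel_mem hI h2 sc_mem hr hx
  have hsp : squ v F ⊆ dyc v qp.1 qp.2 := squ_sub_hi.trans h2.subp
  have hsm : squ v F ⊆ dyc v qm.1 qm.2 := squ_sub_lo.trans h2.subm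
  have hface : FaceOf F qp ∨ FaceOf F qm := by
    obtain ⟨⟨q0, hq0, hf⟩, -⟩ := hF
    have hf' := hf
    rcases faceOf_iff.1 hf' with rfl | rfl
    · left; rw [← eq_of_sub hI hq0 h2.memp h2.subp]; exact hf
    · right; rw [← eq_of_sub hI hq0 h2.memm h2.subm]; exact hf
  have hdich : ∀ {a b : Idx}, squ v F ⊆ dyc v a.1 a.2 → a ∈ I → (a = qp ∨ a = qm) →
      (FaceOf F a ∨ FaceOf F b) → FaceOf F a ∨ (FaceOf F b ∧ a.1 < F.1.1) := by
    intro a b hsa haI hab hab'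
    by_cases hfa : FaceOf F a
    · exact Or.inl hfa
    · refine Or.inr ⟨hab'.resolve_left hfa, ?_⟩
      refine lt_of_le_of_ne (squ_gen_le hsa) ?_
      intro heq
      apply hfa
      rcases hab with rfl | rfl
      · have h3 := h2.subp
        rw [heq] at h3
        refine faceOf_iff.2 (Or.inl (Prod.ext heq (eq_of_sub_same h3).symm))
      · have h3 := h2.subm
        rw [heq] at h3
        refine faceOf_iff.2 (Or.inr (Prod.ext heq (eq_of_sub_same h3).symm))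
  rcases hcen i hi (hFi (rel_sub sc_mem)) with rfl | rfl
  · exact ⟨qm, h2.memm, hne.symm, hsm, hdich hFi hi (Or.inl rfl) hface, hcen⟩
  · exact ⟨qp, h2.memp, hne, hsp, hdich hFi hi (Or.inr rfl) hface.symm,
      fun r hr hx => (hcen r hr hx).symm⟩

/-- a square contained in a coordinate plane -/
theorem normal_of_sub {s t : Idx × Fin 3} (h : squ v s ⊆ squ v t) : s.2 = t.2 := by
  by_contra hne
  have hp : (0:ℝ) < 1 / 2 ^ s.1.1 := by positivity
  have h1 : (fun k => v k + s.1.2 k / 2 ^ s.1.1 : V) ∈ squ v s :=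
    ⟨rfl, fun j _ => ⟨le_rfl, by rw [div_add_one]; linarith⟩⟩
  have h2 : (fun k => if k = s.2 then v k + s.1.2 k / 2 ^ s.1.1 else
      v k + (s.1.2 k + 1) / 2 ^ s.1.1 : V) ∈ squ v s := by
    refine ⟨by simp, fun j hj => ?_⟩
    simp only [if_neg hj]
    exact ⟨by rw [div_add_one]; linarith, le_rfl⟩
  have h3 := (h h1).1
  have h4 := (h h2).1
  simp only [if_neg (Ne.symm hne)] at h3 h4
  rw [div_add_one] at h4
  linarith

/-- **(B)** a square in two cubes of the partition lies in a minimal square of the partition in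
both cubes -/
theorem exists_coarse (hΩ : IsOpen Ω) (hI : Part Ω v I) {F : Idx × Fin 3} {q r : Idx} (hq : q ∈ I)
    (hr : r ∈ I) (hne : q ≠ r) (hFq : squ v F ⊆ dyc v q.1 q.2) (hFr : squ v F ⊆ dyc v r.1 r.2) :
    ∃ s : Idx × Fin 3, MinSq v I s ∧ s.2 = F.2 ∧ squ v F ⊆ squ v s ∧ squ v s ⊆ dyc v q.1 q.2 ∧
      squ v s ⊆ dyc v r.1 r.2 := by
  -- the case of the cube `q` above
  have main : ∀ {q r : Idx}, q ∈ I → r ∈ I → Two v I F q r →
      (F.1.2 F.2 : ℝ) / 2 ^ F.1.1 = q.2 F.2 / 2 ^ q.1 → squ v F ⊆ dyc v q.1 q.2 →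
      ∃ s : Idx × Fin 3, MinSq v I s ∧ s.2 = F.2 ∧ squ v F ⊆ squ v s ∧
        squ v s ⊆ dyc v q.1 q.2 ∧ squ v s ⊆ dyc v r.1 r.2 := by
    intro q r hq hr h2 hplane hFq
    have hxq := hFq (rel_sub (sc_mem (v := v) (s := F)))
    obtain ⟨s, hs, hxs, hsub⟩ := cover_hi hΩ hI (s := (q, F.2)) (x := sc v F)
      ⟨by show sc v F F.2 = v F.2 + q.2 F.2 / 2 ^ q.1
          rw [← hplane]; exact (sc_mem (v := v) (s := F)).1, fun k _ => hxq k⟩ hq
    have hk : s.2 = F.2 := normal_of_sub (v := v) (s := s) (t := (q, F.2)) hsub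
    have hmem : ∀ a ∈ I, squ v s ⊆ dyc v a.1 a.2 → a = q ∨ a = r :=
      fun a ha hsa => rel_mem hI h2 sc_mem ha (hsa hxs)
    have hsq : squ v s ⊆ dyc v q.1 q.2 := hsub.trans squ_sub_hi
    obtain ⟨r', hr', hne', hsr', -, -⟩ := other_side hΩ hI hs hq hsq
    have hr'' : r' = r := (hmem r' hr' hsr').resolve_left hne'
    subst hr''
    have hg : s.1.1 ≤ F.1.1 := by
      obtain ⟨⟨q0, hq0, hf⟩, -⟩ := hs
      have hs0 : squ v s ⊆ dyc v q0.1 q0.2 := by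
        rcases faceOf_iff.1 hf with rfl | rfl
        · exact squ_sub_hi
        · exact squ_sub_lo
      rw [hf.1]
      rcases hmem q0 hq0 hs0 with rfl | rfl
      · exact gen_le h2.subp
      · exact gen_le h2.subm
    exact ⟨s, hs, hk, squ_sub_of_center hk hg hxs, hsq, hsr'⟩
  rcases two_of_sub hI hq hr hne hFq hFr with ⟨h2, hpl⟩ | ⟨h2, hpl⟩
  · exact main hq hr h2 hpl hFq
  · have h3 : (F.1.2 F.2 : ℝ) / 2 ^ F.1.1 = r.2 F.2 / 2 ^ r.1 := by
      rcases two_of_sub hI hr hq hne.symm hFr hFq with ⟨-, h⟩ | ⟨h2', -⟩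
      · exact h
      · exfalso
        exact hne.symm (eq_of_mem hI hr hq (dyo_sub h2.subp (cen_mem v _ _))
          (h2'.subp (dyo_sub_dyc (cen_mem v _ _))))
    obtain ⟨s, h4, h5, h6, h7, h8⟩ := main hr hq h2 h3 hFr
    exact ⟨s, h4, h5, h6, h8, h7⟩

/-- a cube of the partition with an interior point in a cube of `I` -/
theorem q_eq (hI : Part Ω v I) {q q' : Idx} (hq : q ∈ I) (hq' : q' ∈ I) {m : ℕ} {z : Fin 3 → ℤ}
    (h : dyc v m z ⊆ dyc v q.1 q.2) (h' : dyc v m z ⊆ dyc v q'.1 q'.2) : q = q' :=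
  eq_of_mem hI hq hq' (dyo_sub h (cen_mem v m z)) (h' (dyo_sub_dyc (cen_mem v m z)))

/-- **(CL1)** squares of fine cells -/
theorem cl1 (hΩ : IsOpen Ω) (hI : Part Ω v I) (hB : Big v I P B n)
    (hN : ∀ q ∈ I \ P, ∀ r ∈ I, (dyc v r.1 r.2 ∩ dyc v q.1 q.2).Nonempty → r.1 ≤ n q)
    {q i : Idx} {F : Idx × Fin 3} (hq : q ∈ I \ P) (hi : i ∈ refine v I P B n) (hiP : i ∉ P)
    (hiB : i ∉ B) (hiq : dyc v i.1 i.2 ⊆ dyc v q.1 q.2) (hF : MinSq v (refine v I P B n) F)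
    (hFi : squ v F ⊆ dyc v i.1 i.2) :
    FaceOf F i ∨ (i.1 < F.1.1 ∧ ∃ r ∈ I \ P, r ≠ q ∧ F.1.1 = n r ∧ ∃ s : Idx × Fin 3,
      MinSq v I s ∧ s.2 = F.2 ∧ squ v F ⊆ squ v s ∧ squ v s ⊆ dyc v q.1 q.2 ∧
      squ v s ⊆ dyc v r.1 r.2) := by
  have hI' := specRefine Ω v I P B n hΩ hI hB
  obtain ⟨i', hi', hne, hFi', hdich, -⟩ := other_side hΩ hI' hF hi hFi
  rcases hdich with hf | ⟨hf, hlt⟩
  · exact Or.inl hf
  right
  -- `i` is fine in `q`
  have hgi : i.1 = n q := by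
    rcases refine_cases hB hi with h | ⟨q1, hq1, h1, h0⟩
    · exact absurd h hiP
    · have := q_eq hI hq.1 hq1.1 hiq h1
      subst this
      rcases h0 with ⟨h0, -, -⟩ | ⟨h0, -⟩
      · exact absurd h0 hiB
      · exact h0
  have hgi' : F.1.1 = i'.1 := hf.1
  have hx : sc v F ∈ dyc v q.1 q.2 := hiq (hFi (rel_sub sc_mem))
  have hx' : sc v F ∈ dyc v i'.1 i'.2 := hFi' (rel_sub sc_mem)
  rcases refine_cases hB hi' with h | ⟨r, hr, h1, h0⟩
  · have := hN q hq i' (hB.sub h) ⟨_, hx', hx⟩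
    omega
  · rcases h0 with ⟨-, hin, hle⟩ | ⟨hgr, -⟩
    · have := eq_of_mem hI hr.1 hq.1 (hin hx') hx
      subst this
      omega
    · have hrq : r ≠ q := by
        rintro rfl
        omega
      refine ⟨hlt, r, hr, hrq, by rw [hgi', hgr], ?_⟩
      exact exists_coarse hΩ hI hq.1 hr.1 hrq.symm (hFi.trans hiq) (hFi'.trans h1)

/-- **(CL2)** squares of big cells -/
theorem cl2 (hΩ : IsOpen Ω) (hI : Part Ω v I) (hB : Big v I P B n)
    {q b : Idx} {F : Idx × Fin 3} (hq : q ∈ I \ P) (hb : b ∈ B)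
    (hbq : dyc v b.1 b.2 ⊆ dyo v q.1 q.2) (hF : MinSq v (refine v I P B n) F)
    (hFb : squ v F ⊆ dyc v b.1 b.2) :
    F.1.1 = n q ∧ ∃ s : Idx × Fin 3, FaceOf s b ∧ s.2 = F.2 ∧ squ v F ⊆ squ v s := by
  have hI' := specRefine Ω v I P B n hΩ hI hB
  have hbI : b ∈ refine v I P B n := Or.inl (Or.inr hb)
  obtain ⟨i', hi', hne, hFi', hdich, -⟩ := other_side hΩ hI' hF hbI hFb
  have hx : sc v F ∈ dyo v q.1 q.2 := hbq (hFb (rel_sub sc_mem))
  have hx' : sc v F ∈ dyc v i'.1 i'.2 := hFi' (rel_sub sc_mem)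
  have hbn : b.1 ≤ n q := by
    obtain ⟨q1, hq1, h1, h2⟩ := hB.big b hb
    have := q_eq hI hq.1 hq1.1 (hbq.trans dyo_sub_dyc) (h1.trans dyo_sub_dyc)
    rw [this]; exact h2
  have hgi' : i'.1 = n q := by
    rcases refine_cases hB hi' with h | ⟨r, hr, h1, h0⟩
    · have := eq_of_mem hI hq.1 (hB.sub h) hx hx'
      exact absurd (this ▸ h) hq.2
    · have hrq := eq_of_mem hI hq.1 hr.1 hx (h1 hx')
      subst hrq
      rcases h0 with ⟨hb', -, -⟩ | ⟨h0, -⟩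
      · exact absurd hx' (Set.disjoint_left.1 (hB.disj b hb i' hb' hne.symm)
          (hFb (rel_sub sc_mem)))
      · exact h0
  refine ⟨?_, ?_⟩
  · have h1 := squ_gen_le hFi'
    rcases hdich with hf | ⟨hf, -⟩
    · have := hf.1
      omega
    · rw [hf.1, hgi']
  · rcases two_of_sub hI' hbI hi' hne.symm hFb hFi' with ⟨-, h⟩ | ⟨-, h⟩
    · exact exists_face hFb (Or.inl h)
    · exact exists_face hFb (Or.inr h)

/-- **(CL3)** squares of kept cells -/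
theorem cl3 (hΩ : IsOpen Ω) (hI : Part Ω v I) (hB : Big v I P B n)
    (hN : ∀ q ∈ I \ P, ∀ r ∈ I, (dyc v r.1 r.2 ∩ dyc v q.1 q.2).Nonempty → r.1 ≤ n q)
    {p : Idx} {F : Idx × Fin 3} (hp : p ∈ P) (hF : MinSq v (refine v I P B n) F)
    (hFp : squ v F ⊆ dyc v p.1 p.2) (hFr : squ v F ⊆ ⋃ r ∈ I \ P, dyc v r.1 r.2) :
    ∃ r ∈ I \ P, F.1.1 = n r ∧ ∃ s : Idx × Fin 3, MinSq v I s ∧ s.2 = F.2 ∧
      squ v F ⊆ squ v s ∧ squ v s ⊆ dyc v p.1 p.2 ∧ squ v s ⊆ dyc v r.1 r.2 := by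
  have hI' := specRefine Ω v I P B n hΩ hI hB
  have hpI : p ∈ refine v I P B n := Or.inl (Or.inl hp)
  obtain ⟨i', hi', hne, hFi', hdich, -⟩ := other_side hΩ hI' hF hpI hFp
  have hx : sc v F ∈ dyc v p.1 p.2 := hFp (rel_sub sc_mem)
  have hx' : sc v F ∈ dyc v i'.1 i'.2 := hFi' (rel_sub sc_mem)
  obtain ⟨r0, hr0, hxr0⟩ := mem_iUnion₂.1 (hFr (rel_sub (sc_mem (v := v) (s := F))))
  rcases refine_cases hB hi' with h | ⟨r, hr, h1, h0⟩
  · exfalso
    have h2 : r0 = p ∨ r0 = i' := by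
      rcases two_of_sub hI (hB.sub hp) (hB.sub h) hne.symm hFp hFi' with ⟨h2, -⟩ | ⟨h2, -⟩
      · exact rel_mem hI h2 sc_mem hr0.1 hxr0
      · exact (rel_mem hI h2 sc_mem hr0.1 hxr0).symm
    rcases h2 with h2 | h2
    · exact hr0.2 (h2 ▸ hp)
    · exact hr0.2 (h2 ▸ h)
  · rcases h0 with ⟨-, hin, -⟩ | ⟨hgr, -⟩
    · have := eq_of_mem hI hr.1 (hB.sub hp) (hin hx') hx
      exact absurd (this ▸ hp) hr.2
    · have hrp : p ≠ r := by
        rintro rfl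
        exact hr.2 hp
      have hle : p.1 ≤ n r := hN r hr p (hB.sub hp) ⟨_, hx, h1 hx'⟩
      refine ⟨r, hr, ?_, exists_coarse hΩ hI (hB.sub hp) hr.1 hrp hFp (hFi'.trans h1)⟩
      have h2 := squ_gen_le hFi'
      rcases hdich with hf | ⟨hf, -⟩
      · have := hf.1
        omega
      · rw [hf.1, hgr]

/-- **(CL4)** a minimal square lies in at most two cubes -/
theorem cl4 (hΩ : IsOpen Ω) (hI : Part Ω v I) {s : Idx × Fin 3} (hs : MinSq v I s) {a b c : Idx}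
    (ha : a ∈ I) (hb : b ∈ I) (hc : c ∈ I) (hsa : squ v s ⊆ dyc v a.1 a.2)
    (hsb : squ v s ⊆ dyc v b.1 b.2) (hsc : squ v s ⊆ dyc v c.1 c.2) : a = b ∨ a = c ∨ b = c := by
  obtain ⟨i', -, -, -, -, h⟩ := other_side hΩ hI hs ha hsa
  rcases h b hb (hsb (rel_sub sc_mem)) with h1 | h1
  · exact Or.inl h1.symm
  · rcases h c hc (hsc (rel_sub sc_mem)) with h2 | h2
    · exact Or.inr (Or.inl h2.symm)
    · exact Or.inr (Or.inr (h1.trans h2.symm))

end

end Vale.Agent.P073.H193
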