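import Vale.Agent.P073.H193.Bypass
import Vale.Agent.P073.AB.Part86

/-!
# P073, block P2h: the outside of finitely many open lattice cubes is connected

`isPreconnected_diff_boxes`: an open connected set minus disjoint open boxes;
`ext`: minus an open lattice box and finitely many open lattice cubes;
`ext_disc`: and minus open discs in the lattice squares between removed cubes.
-/

open Set Filter Topology Metric

namespace Vale.Agent.P073.H193

open Vale.Agent.P073.St (V)
open Vale.Agent.P073.AB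
open _root_.P073.Net (dyc dyo)
open Vale.Agent.P073.AB.P86 (rel lo lo_same lo_other)

/-! ### Boxes -/

/-- the open box -/
def obx (a b : V) : Set V := {x | ∀ k, a k < x k ∧ x k < b k}

/-- the closed box -/
def cbx (a b : V) : Set V := {x | ∀ k, a k ≤ x k ∧ x k ≤ b k}

theorem obx_sub_cbx {a b : V} : obx a b ⊆ cbx a b := fun _ hx k => ⟨(hx k).1.le, (hx k).2.le⟩

theorem obx_eq_pi (a b : V) : obx a b = univ.pi fun k => Ioo (a k) (b k) := by
  ext x; simp [obx, Set.mem_pi]

theorem cbx_eq_pi (a b : V) : cbx a b = univ.pi fun k => Icc (a k) (b k) := by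
  ext x; simp only [cbx, mem_ofPred_eq, Set.mem_pi, mem_univ, true_implies, mem_Icc]

theorem isOpen_obx (a b : V) : IsOpen (obx a b) := by
  rw [obx_eq_pi]; exact isOpen_set_pi finite_univ fun _ _ => isOpen_Ioo

theorem isCompact_cbx (a b : V) : IsCompact (cbx a b) := by
  rw [cbx_eq_pi]; exact isCompact_univ_pi fun _ => isCompact_Icc

theorem isClosed_cbx (a b : V) : IsClosed (cbx a b) := (isCompact_cbx a b).isClosed

theorem closure_obx {a b : V} (h : ∀ k, a k < b k) : closure (obx a b) = cbx a b := by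
  rw [obx_eq_pi, closure_pi_set, cbx_eq_pi]
  congr 1; funext k; exact closure_Ioo (h k).ne

theorem closure_obx_sub {a b : V} : closure (obx a b) ⊆ cbx a b :=
  closure_minimal obx_sub_cbx (isClosed_cbx a b)

theorem interior_cbx {a b : V} : interior (cbx a b) = obx a b := by
  rw [cbx_eq_pi, interior_pi_set finite_univ, obx_eq_pi]
  congr 1; funext k; exact interior_Icc

theorem frontier_obx {a b : V} (h : ∀ k, a k < b k) : frontier (obx a b) = cbx a b \ obx a b := by
  rw [(isOpen_obx a b).frontier_eq, closure_obx h]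

theorem frontier_cbx {a b : V} : frontier (cbx a b) = cbx a b \ obx a b := by
  rw [(isClosed_cbx a b).frontier_eq, interior_cbx]

/-- the affine map of the unit ball onto the box -/
noncomputable def bmap (a b : V) (x : V) : V := fun k => (a k + b k) / 2 + (b k - a k) / 2 * x k

theorem continuous_bmap (a b : V) : Continuous (bmap a b) := by unfold bmap; fun_prop

theorem bmap_image_sphere {a b : V} (h : ∀ k, a k < b k) :
    bmap a b '' sphere (0 : V) 1 = cbx a b \ obx a b := by
  have hp : ∀ k, 0 < (b k - a k) / 2 := fun k => by linarith [h k]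
  ext y
  constructor
  · rintro ⟨x, hx, rfl⟩
    rw [mem_sphere_zero_iff_norm] at hx
    refine ⟨fun k => ?_, fun hy => ?_⟩
    · have h1 := abs_le.1 ((norm_le_pi_norm x k).trans hx.le)
      unfold bmap
      constructor
      · nlinarith [hp k, h1.1, mul_le_mul_of_nonneg_left h1.1 (hp k).le]
      · nlinarith [hp k, h1.2, mul_le_mul_of_nonneg_left h1.2 (hp k).le]
    · have h1 : ‖x‖ < 1 := by
        rw [pi_norm_lt_iff one_pos]
        intro k
        rw [Real.norm_eq_abs, abs_lt]
        obtain ⟨h2, h3⟩ := hy k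
        unfold bmap at h2 h3
        constructor
        · by_contra hc
          have := mul_le_mul_of_nonneg_left (not_lt.1 hc) (hp k).le
          linarith
        · by_contra hc
          have := mul_le_mul_of_nonneg_left (not_lt.1 hc) (hp k).le
          linarith
      exact absurd hx h1.ne
  · rintro ⟨hy, hny⟩
    refine ⟨fun k => (y k - (a k + b k) / 2) / ((b k - a k) / 2), ?_, ?_⟩
    · rw [mem_sphere_zero_iff_norm]
      apply le_antisymm
      · rw [pi_norm_le_iff_of_nonneg zero_le_one]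
        intro k
        rw [Real.norm_eq_abs, abs_le]
        obtain ⟨h2, h3⟩ := hy k
        constructor
        · rw [le_div_iff₀ (hp k)]; linarith
        · rw [div_le_iff₀ (hp k)]; linarith
      · by_contra hc
        apply hny
        rw [not_le, pi_norm_lt_iff one_pos] at hc
        intro k
        have h1 := hc k
        rw [Real.norm_eq_abs, abs_lt] at h1
        obtain ⟨h2, h3⟩ := h1
        rw [lt_div_iff₀ (hp k)] at h2
        rw [div_lt_iff₀ (hp k)] at h3
        constructor <;> linarith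
    · funext k
      unfold bmap
      have h1 := (hp k).ne'
      rw [mul_div_cancel₀ _ h1]
      ring

theorem isPreconnected_bd_box {a b : V} (h : ∀ k, a k < b k) :
    IsPreconnected (cbx a b \ obx a b) := by
  rw [← bmap_image_sphere h]
  refine (isPreconnected_sphere ?_ _ _).image _ (continuous_bmap a b).continuousOn
  rw [← Module.finrank_eq_rank]
  simp

/-- **an open box complement**: a preconnected set minus disjoint open boxes is preconnected -/
theorem isPreconnected_diff_boxes {ι : Type*} {Ω : Set V} (hΩ : IsPreconnected Ω) {a b : ι → V}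
    (hab : ∀ i k, a i k < b i k) (hsub : ∀ i, cbx (a i) (b i) ⊆ Ω)
    (hlf : ∀ x ∈ Ω, ∃ W ∈ 𝓝 x, {i | (obx (a i) (b i) ∩ W).Nonempty}.Finite)
    (hd : ∀ i j, i ≠ j → Disjoint (obx (a i) (b i)) (obx (a j) (b j))) :
    IsPreconnected (Ω \ ⋃ i, obx (a i) (b i)) :=
  bypass_open hΩ hlf (fun i => isOpen_obx _ _) (fun i => closure_obx_sub.trans (hsub i)) hd
    fun i => by rw [frontier_obx (hab i)]; exact isPreconnected_bd_box (hab i)

/-! ### Lattice boxes -/

/-- the open lattice box -/
def lbo (v : V) (N : ℕ) (A B : Fin 3 → ℤ) : Set V := obx (pt v N A) (pt v N B)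

/-- the closed lattice box -/
def lbc (v : V) (N : ℕ) (A B : Fin 3 → ℤ) : Set V := cbx (pt v N A) (pt v N B)

variable {v : V} {N : ℕ}

theorem dyo_eq (v : V) (N : ℕ) (z : Fin 3 → ℤ) : dyo v N z = lbo v N z (fun k => z k + 1) := by
  ext x; simp [dyo, lbo, obx, pt]

theorem dyc_eq (v : V) (N : ℕ) (z : Fin 3 → ℤ) : dyc v N z = lbc v N z (fun k => z k + 1) := by
  ext x; simp [dyc, lbc, cbx, pt]

theorem pt_lt {A B : Fin 3 → ℤ} {k : Fin 3} (h : A k < B k) : pt v N A k < pt v N B k := by
  unfold pt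
  have : (A k : ℝ) < B k := by exact_mod_cast h
  have := div_lt_div_of_pos_right this (show (0:ℝ) < 2 ^ N by positivity)
  linarith

theorem pt_le {A B : Fin 3 → ℤ} {k : Fin 3} (h : A k ≤ B k) : pt v N A k ≤ pt v N B k := by
  unfold pt
  have : (A k : ℝ) ≤ B k := by exact_mod_cast h
  have := div_le_div_of_nonneg_right this (show (0:ℝ) ≤ 2 ^ N by positivity)
  linarith

theorem lt_of_pt {A B : Fin 3 → ℤ} {k : Fin 3} (h : pt v N A k < pt v N B k) : A k < B k := by
  by_contra hc
  exact absurd (pt_le (v := v) (N := N) (not_lt.1 hc)) (not_le.2 h)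

/-- two lattice boxes: if the open boxes meet, the indices overlap -/
theorem overlap_of_lbo {A B A' B' : Fin 3 → ℤ} (h : (lbo v N A B ∩ lbo v N A' B').Nonempty)
    (k : Fin 3) : A k < B' k ∧ A' k < B k := by
  obtain ⟨x, hx, hx'⟩ := h
  exact ⟨lt_of_pt ((hx k).1.trans (hx' k).2), lt_of_pt ((hx' k).1.trans (hx k).2)⟩

/-- an open lattice cube which meets an open lattice box is contained in it -/
theorem dyo_sub_lbo {A B z : Fin 3 → ℤ} (h : (dyo v N z ∩ lbo v N A B).Nonempty) :
    dyo v N z ⊆ lbo v N A B := by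
  rw [dyo_eq] at h ⊢
  have h1 := overlap_of_lbo h
  intro x hx k
  refine ⟨(pt_le ?_).trans_lt (hx k).1, (hx k).2.trans_le (pt_le ?_)⟩
  · have := (h1 k).2; omega
  · have := (h1 k).1; show z k + 1 ≤ B k; omega

theorem dyo_disj {z z' : Fin 3 → ℤ} (h : z ≠ z') : Disjoint (dyo v N z) (dyo v N z') := by
  rw [Set.disjoint_iff_inter_eq_empty]
  by_contra hc
  apply h
  funext k
  have h0 : (dyo v N z ∩ dyo v N z').Nonempty := nonempty_iff_ne_empty.2 hc
  rw [dyo_eq, dyo_eq] at h0
  have h1 := overlap_of_lbo h0 k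
  omega

/-- **[EXT]**: the complement in an open connected set of an open lattice box and finitely many
open lattice cubes is connected -/
theorem ext {Ω : Set V} (hΩ : IsPreconnected Ω) {A B : Fin 3 → ℤ} (hAB : ∀ k, A k < B k)
    (hD : lbc v N A B ⊆ Ω) {S : Set (Fin 3 → ℤ)} (hS : S.Finite)
    (hSΩ : ∀ z ∈ S, dyc v N z ⊆ Ω) :
    IsPreconnected (Ω \ (lbo v N A B ∪ ⋃ z ∈ S, dyo v N z)) := by
  classical
  -- the cubes outside of the box
  set S' : Set (Fin 3 → ℤ) := {z ∈ S | Disjoint (dyo v N z) (lbo v N A B)} with hS'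
  have hS'f : S'.Finite := hS.subset (sep_subset _ _)
  have : Finite S' := hS'f.to_subtype
  set a : Option S' → V := fun o => o.elim (pt v N A) fun z => pt v N z.1 with ha
  set b : Option S' → V := fun o => o.elim (pt v N B) fun z => pt v N (fun k => z.1 k + 1) with hb
  have hO : ∀ z : S', obx (a (some z)) (b (some z)) = dyo v N z.1 := fun z => (dyo_eq v N z.1).symm
  have h := isPreconnected_diff_boxes (ι := Option S') hΩ (a := a) (b := b) ?_ ?_
    (fun _ _ => ⟨univ, univ_mem, Set.toFinite _⟩) ?_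
  · convert h using 2
    ext x
    simp only [mem_union, mem_iUnion]
    constructor
    · rintro (hx | ⟨z, hz, hx⟩)
      · exact ⟨none, hx⟩
      · by_cases hd : Disjoint (dyo v N z) (lbo v N A B)
        · exact ⟨some ⟨z, hz, hd⟩, by rw [hO]; exact hx⟩
        · exact ⟨none, dyo_sub_lbo (Set.not_disjoint_iff_nonempty_inter.1 hd) hx⟩
    · rintro ⟨o, hx⟩
      rcases o with _ | z
      · exact Or.inl hx
      · rw [hO] at hx; exact Or.inr ⟨z.1, z.2.1, hx⟩
  · rintro (_ | z) k
    · exact pt_lt (hAB k)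
    · exact pt_lt (A := z.1) (B := fun k => z.1 k + 1) (lt_add_one (z.1 k))
  · rintro (_ | z)
    · exact hD
    · have := hSΩ z.1 z.2.1
      rw [dyc_eq] at this
      exact this
  · rintro (_ | z) (_ | z') hne
    · exact absurd rfl hne
    · rw [hO]; exact z'.2.2.symm
    · rw [hO]; exact z.2.2
    · rw [hO, hO]
      exact dyo_disj fun h => hne (by rw [Subtype.ext h])

/-! ### Discs in the lattice squares -/

/-- the open neighbourhood of the open square: the square and the two open cubes -/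
def slab (v : V) (s : Idx × Fin 3) : Set V :=
  rel v s ∪ dyo v s.1.1 s.1.2 ∪ dyo v s.1.1 (lo s)

theorem slab_eq (v : V) (s : Idx × Fin 3) :
    slab v s = obx (pt v s.1.1 (lo s)) (pt v s.1.1 fun k => s.1.2 k + 1) := by
  have hp : (0:ℝ) < 1 / 2 ^ s.1.1 := by positivity
  ext x
  simp only [slab, rel, dyo, obx, pt, mem_union, mem_ofPred_eq]
  constructor
  · rintro ((⟨h1, h2⟩ | h) | h) k
    · by_cases hk : k = s.2
      · subst hk
        rw [lo_same]; push_cast
        rw [h1, sub_div, add_div]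
        constructor <;> linarith
      · rw [lo_other s hk]; push_cast; exact h2 k hk
    · by_cases hk : k = s.2
      · subst hk
        have := h s.2
        rw [lo_same]; push_cast
        refine ⟨?_, this.2⟩
        rw [sub_div]; linarith [this.1]
      · rw [lo_other s hk]; push_cast; exact h k
    · by_cases hk : k = s.2
      · subst hk
        have := h s.2
        refine ⟨this.1, ?_⟩
        have h3 := this.2
        rw [lo_same] at h3; push_cast at h3
        rw [sub_add_cancel] at h3
        push_cast; rw [add_div]; linarith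
      · have := h k
        rw [lo_other s hk] at this ⊢; push_cast; exact this
  · intro h
    have h1 : ∀ k, k ≠ s.2 → v k + s.1.2 k / 2 ^ s.1.1 < x k ∧
        x k < v k + (s.1.2 k + 1) / 2 ^ s.1.1 := by
      intro k hk
      have := h k
      rw [lo_other s hk] at this; push_cast at this; exact this
    have h2 := h s.2
    rw [lo_same] at h2; push_cast at h2
    rcases lt_trichotomy (x s.2) (v s.2 + s.1.2 s.2 / 2 ^ s.1.1) with h3 | h3 | h3
    · right
      intro k
      by_cases hk : k = s.2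
      · subst hk; rw [lo_same]; push_cast; rw [sub_add_cancel]; exact ⟨h2.1, h3⟩
      · rw [lo_other s hk]; exact h1 k hk
    · left; left; exact ⟨h3, h1⟩
    · left; right
      intro k
      by_cases hk : k = s.2
      · subst hk; exact ⟨h3, h2.2⟩
      · exact h1 k hk

theorem isOpen_slab (v : V) (s : Idx × Fin 3) : IsOpen (slab v s) := by
  rw [slab_eq]; exact isOpen_obx _ _

theorem rel_sub_slab {s : Idx × Fin 3} : rel v s ⊆ slab v s := fun _ hx => Or.inl (Or.inl hx)

/-- **minus open discs**: `X` preconnected; each disc `E i` (closed, in the open square `s i`) with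
circle `κ i` (preconnected), `E i \ κ i` relatively open in the square; near the square `X` has
only points of the square, and contains the open square (or misses it) -/
theorem isPreconnected_diff_discs {ι : Type*} [Finite ι] {X : Set V} (hX : IsPreconnected X)
    {s : ι → Idx × Fin 3} {E κ : ι → Set V}
    (hXs : ∀ i, X ∩ slab v (s i) ⊆ rel v (s i))
    (hsX : ∀ i, rel v (s i) ⊆ X ∨ Disjoint (rel v (s i)) X)
    (hEc : ∀ i, IsClosed (E i)) (hEs : ∀ i, E i ⊆ rel v (s i))
    (hEU : ∀ i, ∃ U, IsOpen U ∧ E i \ κ i = squ v (s i) ∩ U)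
    (hκE : ∀ i, κ i ⊆ E i) (hκ : ∀ i, IsPreconnected (κ i))
    (hd : ∀ i j, i ≠ j → Disjoint (E i) (E j)) :
    IsPreconnected (X \ ⋃ i, (E i \ κ i)) := by
  classical
  set T : Set ι := {i | rel v (s i) ⊆ X} with hT
  have h := bypass_fin (ι := T) (G := fun i => E i.1 \ κ i.1) (C := fun i => κ i.1) hX
    (fun i => ?_) (fun i j hij => ?_) (fun i => hκ i.1) (fun i x hx => ?_) (fun i x hx => ?_)
  · convert h using 1
    ext x
    simp only [Set.mem_sdiff, mem_iUnion, not_exists]
    constructor
    · rintro ⟨h1, h2⟩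
      exact ⟨h1, fun i => h2 i.1⟩
    · rintro ⟨h1, h2⟩
      refine ⟨h1, fun i hi => ?_⟩
      rcases hsX i with h3 | h3
      · exact h2 ⟨i, h3⟩ hi
      · exact disjoint_left.1 h3 (hEs i hi.1) h1
  · obtain ⟨U, hU, hEq⟩ := hEU i.1
    refine ⟨slab v (s i.1) ∩ U, (isOpen_slab _ _).inter hU, ?_⟩
    apply Subset.antisymm
    · intro x hx
      have h1 := hEs i.1 hx.1
      have h2 : x ∈ squ v (s i.1) ∩ U := hEq ▸ hx
      exact ⟨i.2 h1, rel_sub_slab h1, h2.2⟩
    · rintro x ⟨hx, hxs, hxU⟩
      have h1 := hXs i.1 ⟨hx, hxs⟩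
      show x ∈ E i.1 \ κ i.1
      rw [hEq]
      exact ⟨P86.rel_sub h1, hxU⟩
  · exact (hd i.1 j.1 fun h => hij (Subtype.ext h)).mono sdiff_subset sdiff_subset
  · refine ⟨i.2 (hEs _ (hκE _ hx)), fun h => ?_⟩
    obtain ⟨j, hj⟩ := mem_iUnion.1 h
    rcases eq_or_ne i j with rfl | hij
    · exact hj.2 hx
    · exact disjoint_left.1 (hd i.1 j.1 fun h => hij (Subtype.ext h)) (hκE _ hx) hj.1
  · have h1 : x ∈ E i.1 := closure_minimal sdiff_subset (hEc i.1) hx.2
    by_cases h2 : x ∈ κ i.1
    · exact Or.inr h2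
    · exact Or.inl ⟨h1, h2⟩

/-- an open lattice square is inside of an open lattice box or disjoint from it -/
theorem rel_sub_or_disj {A B : Fin 3 → ℤ} {s : Idx × Fin 3} (hN : s.1.1 = N) :
    rel v s ⊆ lbo v N A B ∨ Disjoint (rel v s) (lbo v N A B) := by
  subst hN
  by_cases hd : Disjoint (rel v s) (lbo v s.1.1 A B)
  · exact Or.inr hd
  left
  obtain ⟨x, hx, hxB⟩ := Set.not_disjoint_iff.1 hd
  have h0 : ∀ k, k ≠ s.2 → A k < s.1.2 k + 1 ∧ s.1.2 k < B k := fun k hk => by
    have h1 := hx.2 k hk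
    have h2 := hxB k
    have h3 : pt v s.1.1 (fun k => s.1.2 k + 1) k = v k + (s.1.2 k + 1) / 2 ^ s.1.1 := by
      simp [pt]
    constructor
    · exact lt_of_pt (v := v) (N := s.1.1) (B := fun k => s.1.2 k + 1)
        (h2.1.trans (by rw [h3]; exact h1.2))
    · exact lt_of_pt (v := v) (N := s.1.1) (A := s.1.2) (lt_of_le_of_lt (le_of_eq rfl)
        (h1.1.trans h2.2))
  intro y hy k
  by_cases hk : k = s.2
  · subst hk
    have := hxB s.2
    rw [hx.1] at this
    rw [hy.1]; exact this
  · obtain ⟨h1, h2⟩ := h0 k hk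
    have h3 := hy.2 k hk
    constructor
    · exact (pt_le (v := v) (N := s.1.1) (A := A) (B := s.1.2) (by omega)).trans_lt h3.1
    · refine h3.2.trans_le ?_
      have := pt_le (v := v) (N := s.1.1) (A := fun k => s.1.2 k + 1) (B := B) (k := k)
        (by show s.1.2 k + 1 ≤ B k; omega)
      simpa [pt] using this

/-- an open lattice square misses the open lattice cubes -/
theorem rel_disj_dyo {s : Idx × Fin 3} {z : Fin 3 → ℤ} (hN : s.1.1 = N) :
    Disjoint (rel v s) (dyo v N z) := by
  subst hN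
  rw [Set.disjoint_left]
  intro x hx hxz
  have h1 := hxz s.2
  rw [hx.1] at h1
  have h2 : (z s.2 : ℝ) < s.1.2 s.2 := by
    have := h1.1
    have h3 : (z s.2 : ℝ) / 2 ^ s.1.1 < s.1.2 s.2 / 2 ^ s.1.1 := by linarith
    rwa [div_lt_div_iff_of_pos_right (by positivity)] at h3
  have h3 : (s.1.2 s.2 : ℝ) < z s.2 + 1 := by
    have := h1.2
    have h3 : (s.1.2 s.2 : ℝ) / 2 ^ s.1.1 < (z s.2 + 1) / 2 ^ s.1.1 := by linarith
    rwa [div_lt_div_iff_of_pos_right (by positivity)] at h3
  have h4 : z s.2 < s.1.2 s.2 := by exact_mod_cast h2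
  have h5 : s.1.2 s.2 < z s.2 + 1 := by exact_mod_cast h3
  omega

/-- **[EXT] with discs**: the complement in an open connected set of an open lattice box, finitely
many open lattice cubes and finitely many open discs `E i \ κ i` in lattice squares whose two cubes
are removed -/
theorem ext_disc {Ω : Set V} (hΩ : IsPreconnected Ω) {A B : Fin 3 → ℤ} (hAB : ∀ k, A k < B k)
    (hD : lbc v N A B ⊆ Ω) {S : Set (Fin 3 → ℤ)} (hS : S.Finite)
    (hSΩ : ∀ z ∈ S, dyc v N z ⊆ Ω)
    {ι : Type*} [Finite ι] {s : ι → Idx × Fin 3} {E κ : ι → Set V}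
    (hsN : ∀ i, (s i).1.1 = N) (hs1 : ∀ i, (s i).1.2 ∈ S) (hs2 : ∀ i, lo (s i) ∈ S)
    (hEc : ∀ i, IsClosed (E i)) (hEs : ∀ i, E i ⊆ rel v (s i))
    (hEU : ∀ i, ∃ U, IsOpen U ∧ E i \ κ i = squ v (s i) ∩ U)
    (hκE : ∀ i, κ i ⊆ E i) (hκ : ∀ i, IsPreconnected (κ i))
    (hd : ∀ i j, i ≠ j → Disjoint (E i) (E j)) :
    IsPreconnected ((Ω \ (lbo v N A B ∪ ⋃ z ∈ S, dyo v N z)) \ ⋃ i, (E i \ κ i)) := by
  refine isPreconnected_diff_discs (v := v) (ext hΩ hAB hD hS hSΩ) (s := s) (fun i => ?_)
    (fun i => ?_) hEc hEs hEU hκE hκ hd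
  · rintro x ⟨hx, (hx' | hx') | hx'⟩
    · exact hx'
    · exact absurd (Or.inr (mem_iUnion₂.2 ⟨_, hs1 i, by rw [← hsN i]; exact hx'⟩)) hx.2
    · exact absurd (Or.inr (mem_iUnion₂.2 ⟨_, hs2 i, by rw [← hsN i]; exact hx'⟩)) hx.2
  · rcases rel_sub_or_disj (v := v) (A := A) (B := B) (hsN i) with h | h
    · right
      rw [Set.disjoint_left]
      intro x hx hxX
      exact hxX.2 (Or.inl (h hx))
    · left
      intro x hx
      refine ⟨hSΩ _ (hs1 i) ?_, ?_⟩
      · have := P86.squ_sub_hi (P86.rel_sub hx)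
        rw [hsN i] at this; exact this
      · rintro (h1 | h1)
        · exact disjoint_left.1 h hx h1
        · obtain ⟨z, hz, hxz⟩ := mem_iUnion₂.1 h1
          exact disjoint_left.1 (rel_disj_dyo (hsN i)) hx hxz

end Vale.Agent.P073.H193
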