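import Vale.Agent.P073.H989.P2K0
import Vale.Agent.P073.H669.BaseI
import Vale.Agent.P073.H340.PE

/-!
# P073, P2 (exponent two), [E1]: the kept zone with the tiles around the good cells

`olay`: the tiles of generation `N = n + k₁ + k₀` outside of the good cells which touch a good cell.
The kept cubes are `kept = lay ∪ gap ∪ olay`; `Ref2`: the refined partition (definitions in
`H340/PE.lean`).
-/

namespace Vale.Agent.P073.H193

open MeasureTheory Set Filter Topology Metric Vale.Agent.P073.St Vale.Agent.P073.AB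
open Vale.Agent.P073.AB.P86 Vale.Agent.P073.AB.S308
open _root_.P073.Net (dyc dyo)
open _root_.P073.Net.NC (exists_mem fine_sub fine_sub')
open Vale.Agent.P073.H333 (lay gap core out base inet)
open Vale.Agent.P073.H669 (base_cases cell_unique dyo_dyc_disj lay_disj gap_disj
  sub_of_dyo)
open Vale.Agent.P073.H234 (Touch Tch)
open Vale.Agent.P073.H194 (refine Big face_sub)
open Vale.Agent.P073.H73 (MinEdge)
open Vale.Agent.P073.H340 (olay kept Ref2 rI2 InDiv RefOut SpecRef2)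
open Gr (mem_edge edge_subset_dyc)

/-- the other tiles outside of the good cells -/
def out2 (Ω : Set V) (v : V) (n k₁ k₀ : ℕ) (J : Finset (Fin 3 → ℤ)) : Set Idx :=
  out Ω v n k₁ k₀ J \ olay v n k₁ k₀ J

variable {Ω : Set V} {v : V} {n k₁ k₀ : ℕ} {J : Finset (Fin 3 → ℤ)} {z : Fin 3 → ℤ} {x : V}
  {B : Set Idx} {nf : Idx → ℕ}

theorem lo_eq_dn (s : Idx × Fin 3) : lo s = H234.dn s := by
  funext k
  by_cases hk : k = s.2
  · subst hk
    rw [lo_same, H234.dn, if_pos rfl]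
  · rw [lo_other s hk, H234.dn, if_neg hk]

theorem tch_mem_tiles (H : H669.Fine Ω v n k₁ k₀ J) {u : Fin 3 → ℤ}
    (hu : Tch v n (n + k₁ + k₀) J u) : ((n + k₁ + k₀, u) : Idx) ∈ tiles Ω (n + k₁ + k₀) v := by
  obtain ⟨z, hz, h⟩ := hu
  exact H.fine z hz u h

theorem tch_cases (H : H669.Fine Ω v n k₁ k₀ J) {u : Fin 3 → ℤ}
    (hu : Tch v n (n + k₁ + k₀) J u) : (∃ z ∈ J, dyc v (n + k₁ + k₀) u ⊆ dyc v n z) ∨
      ((n + k₁ + k₀, u) : Idx) ∈ olay v n k₁ k₀ J := by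
  by_cases h : ∀ z ∈ J, ¬ dyc v (n + k₁ + k₀) u ⊆ dyc v n z
  · exact Or.inr ⟨rfl, hu, h⟩
  · push Not at h
    exact Or.inl h

/-- a tile of `out2` does not meet the good cells -/
theorem out2_disj (H : H669.Fine Ω v n k₁ k₀ J) {q : Idx} (hq : q ∈ out2 Ω v n k₁ k₀ J) (hz : z ∈ J) :
    Disjoint (dyc v q.1 q.2) (dyc v n z) := by
  rw [Set.disjoint_left]
  intro x hx hxz
  have h1 := H.gen_of_meet hz hq.1.1 hxz hx
  refine hq.2 ⟨h1, ⟨z, hz, x, ?_, hxz⟩, hq.1.2⟩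
  rwa [h1] at hx

/-- a tile of `out2` does not meet the open tiles which touch a good cell -/
theorem out2_sep (H : H669.Fine Ω v n k₁ k₀ J) {q : Idx} (hq : q ∈ out2 Ω v n k₁ k₀ J)
    {u : Fin 3 → ℤ} (hu : Tch v n (n + k₁ + k₀) J u) :
    Disjoint (dyc v q.1 q.2) (dyo v (n + k₁ + k₀) u) := by
  have h1 := tch_mem_tiles H hu
  have hne : ((n + k₁ + k₀, u) : Idx) ≠ q := by
    rintro rfl
    exact hq.2 ⟨rfl, hu, hq.1.2⟩
  exact (H.part.disj _ h1 q hq.1.1 hne).symm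

theorem olay_sub_out (H : H669.Fine Ω v n k₁ k₀ J) :
    olay v n k₁ k₀ J ⊆ out Ω v n k₁ k₀ J := by
  rintro ⟨m, u⟩ ⟨h1, h2, h3⟩
  simp only at h1 h2 h3
  subst h1
  exact ⟨tch_mem_tiles H h2, h3⟩

theorem olay_sub_base (H : H669.Fine Ω v n k₁ k₀ J) :
    olay v n k₁ k₀ J ⊆ base Ω v n k₁ k₀ J := fun _ h =>
  Or.inl (Or.inl (Or.inl (olay_sub_out H h)))

theorem kept_sub (H : H669.Fine Ω v n k₁ k₀ J) :
    kept v n k₁ k₀ J ⊆ base Ω v n k₁ k₀ J := by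
  rintro q (h | h)
  · exact H669.lay_gap_sub h
  · exact olay_sub_base H h

theorem not_olay_core (H : H669.Fine Ω v n k₁ k₀ J) {q : Idx} (h : q ∈ core v n k₁ J) :
    q ∉ olay v n k₁ k₀ J := by
  rintro ⟨-, -, h1⟩
  obtain ⟨-, z, hz, h2⟩ := h
  exact h1 z hz ((h2.trans (boxR_sub_boxB z)).trans (boxB_sub_dyc z))

/-- the cubes which are divided -/
theorem diff_eq2 (H : H669.Fine Ω v n k₁ k₀ J) :
    base Ω v n k₁ k₀ J \ kept v n k₁ k₀ J = out2 Ω v n k₁ k₀ J ∪ core v n k₁ J := by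
  have h0 := H.diff_eq
  ext q
  constructor
  · rintro ⟨h1, h2⟩
    have h3 : q ∈ base Ω v n k₁ k₀ J \ (lay v n k₁ k₀ J ∪ gap v n k₁ J) :=
      ⟨h1, fun h => h2 (Or.inl h)⟩
    rw [h0] at h3
    rcases h3 with h3 | h3
    · exact Or.inl ⟨h3, fun h => h2 (Or.inr h)⟩
    · exact Or.inr h3
  · rintro (h | h)
    · have h3 : q ∈ base Ω v n k₁ k₀ J \ (lay v n k₁ k₀ J ∪ gap v n k₁ J) := by
        rw [h0]; exact Or.inl h.1
      exact ⟨h3.1, fun h' => h'.elim h3.2 h.2⟩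
    · have h3 : q ∈ base Ω v n k₁ k₀ J \ (lay v n k₁ k₀ J ∪ gap v n k₁ J) := by
        rw [h0]; exact Or.inr h
      exact ⟨h3.1, fun h' => h'.elim h3.2 (not_olay_core H h)⟩

/-- a cube of `olay` does not meet the open good cells -/
theorem olay_disj (H : H669.Fine Ω v n k₁ k₀ J) {q : Idx} (hq : q ∈ olay v n k₁ k₀ J) (hz : z ∈ J) :
    Disjoint (dyc v q.1 q.2) (dyo v n z) := H.out_disj (olay_sub_out H hq) hz

/-- a big cell in a divided cube -/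
theorem ref_lt (H : Ref2 Ω v n k₁ k₀ J B nf) {b : Idx} (hb : b ∈ B) {q : Idx}
    (hq : q ∈ out2 Ω v n k₁ k₀ J ∪ core v n k₁ J) (h : dyc v b.1 b.2 ⊆ dyo v q.1 q.2) :
    b.1 < nf q :=
  H.lt b hb q (by rw [diff_eq2 H.fine]; exact hq) (h.trans dyo_sub_dyc)

/-- the fine cubes -/
def IsFine2 (Ω : Set V) (v : V) (n k₁ k₀ : ℕ) (J : Finset (Fin 3 → ℤ)) (B : Set Idx)
    (nf : Idx → ℕ) (r : Idx) : Prop :=
  r ∈ rI2 Ω v n k₁ k₀ J B nf ∧ r ∉ kept v n k₁ k₀ J ∧ r ∉ B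

/-- the kinds of the cubes of `I` -/
theorem ref_cases (H : Ref2 Ω v n k₁ k₀ J B nf) {r : Idx} (hr : r ∈ rI2 Ω v n k₁ k₀ J B nf) :
    (r ∈ lay v n k₁ k₀ J ∨ r ∈ gap v n k₁ J ∨ r ∈ olay v n k₁ k₀ J) ∨
    (r ∈ B ∧ ∃ q ∈ out2 Ω v n k₁ k₀ J ∪ core v n k₁ J, dyc v r.1 r.2 ⊆ dyo v q.1 q.2 ∧
      r.1 < nf q) ∨
    (IsFine2 Ω v n k₁ k₀ J B nf r ∧ ∃ q ∈ out2 Ω v n k₁ k₀ J ∪ core v n k₁ J,
      dyc v r.1 r.2 ⊆ dyc v q.1 q.2 ∧ r.1 = nf q) := by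
  by_cases h1 : r ∈ kept v n k₁ k₀ J
  · rcases h1 with (h | h) | h
    · exact Or.inl (Or.inl h)
    · exact Or.inl (Or.inr (Or.inl h))
    · exact Or.inl (Or.inr (Or.inr h))
  by_cases h2 : r ∈ B
  · obtain ⟨q, hq, h3, -⟩ := H.big.big r h2
    rw [diff_eq2 H.fine] at hq
    exact Or.inr (Or.inl ⟨h2, q, hq, h3, ref_lt H h2 hq h3⟩)
  · rcases refine_cases H.big hr with h | ⟨q, hq, h3, h4 | h4⟩
    · exact absurd h h1
    · exact absurd h4.1 h2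
    · rw [diff_eq2 H.fine] at hq
      exact Or.inr (Or.inr ⟨⟨hr, h1, h2⟩, q, hq, h3, h4.1⟩)

theorem ref_part (H : Ref2 Ω v n k₁ k₀ J B nf) (hΩ : IsOpen Ω) :
    Part Ω v (rI2 Ω v n k₁ k₀ J B nf) :=
  specRefine Ω v _ _ B nf hΩ H.fine.part_base H.big

/-- every cube of `I` is contained in a cube of the base partition -/
theorem ref_sub_base (H : Ref2 Ω v n k₁ k₀ J B nf) {r : Idx}
    (hr : r ∈ rI2 Ω v n k₁ k₀ J B nf) :
    ∃ q ∈ base Ω v n k₁ k₀ J, dyc v r.1 r.2 ⊆ dyc v q.1 q.2 := by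
  rcases refine_cases H.big hr with h | ⟨q, hq, h3, -⟩
  · exact ⟨r, H.big.sub h, Subset.rfl⟩
  · exact ⟨q, hq.1, h3⟩

/-- a cube of `I` which meets an open good cell is contained in it -/
theorem ref_sub_of_meet (H : Ref2 Ω v n k₁ k₀ J B nf) {r : Idx}
    (hr : r ∈ rI2 Ω v n k₁ k₀ J B nf) (hz : z ∈ J) (hx : x ∈ dyc v r.1 r.2)
    (hx' : x ∈ dyo v n z) : dyc v r.1 r.2 ⊆ dyc v n z := by
  obtain ⟨q, hq, hs⟩ := ref_sub_base H hr
  rcases base_cases hq with h | ⟨z', hz', h, -⟩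
  · exact absurd hx' (Set.disjoint_left.1 (H.fine.out_disj h hz) (hs hx))
  · by_cases hzz : z' = z
    · subst hzz; exact hs.trans h
    · exact absurd hx' (Set.disjoint_left.1 (dyo_dyc_disj hzz) (h (hs hx)))

/-- a cube of `I` which is in no good cell does not meet the open good cells -/
theorem ref_disj_dyo (H : Ref2 Ω v n k₁ k₀ J B nf) {r : Idx}
    (hr : r ∈ rI2 Ω v n k₁ k₀ J B nf) (hn : ¬ dyc v r.1 r.2 ⊆ dyc v n z) (hz : z ∈ J) :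
    Disjoint (dyc v r.1 r.2) (dyo v n z) := by
  rw [Set.disjoint_left]
  exact fun x hx hx' => hn (ref_sub_of_meet H hr hz hx hx')

/-- position of the fine cubes -/
theorem ref_fine_cases (H : Ref2 Ω v n k₁ k₀ J B nf) {r : Idx}
    (hr : IsFine2 Ω v n k₁ k₀ J B nf r) :
    (∃ q ∈ out2 Ω v n k₁ k₀ J, dyc v r.1 r.2 ⊆ dyc v q.1 q.2 ∧ r.1 = nf q) ∨
      ∃ z ∈ J, dyc v r.1 r.2 ⊆ boxR v n k₁ z ∧
        ∃ q ∈ core v n k₁ J, dyc v r.1 r.2 ⊆ dyc v q.1 q.2 ∧ r.1 = nf q := by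
  rcases ref_cases H hr.1 with h | ⟨h, -⟩ | ⟨-, q, hq, h3, h4⟩
  · refine absurd ?_ hr.2.1
    rcases h with h | h | h
    · exact Or.inl (Or.inl h)
    · exact Or.inl (Or.inr h)
    · exact Or.inr h
  · exact absurd h hr.2.2
  · rcases hq with hq | hq
    · exact Or.inl ⟨q, hq, h3, h4⟩
    · obtain ⟨h5, z, hz, h6⟩ := hq
      exact Or.inr ⟨z, hz, h3.trans h6, q, ⟨h5, z, hz, h6⟩, h3, h4⟩

/-- the kept tiles belong to `I` -/
theorem kept_mem {r : Idx} (hr : r ∈ kept v n k₁ k₀ J) : r ∈ rI2 Ω v n k₁ k₀ J B nf :=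
  Or.inl (Or.inl hr)

/-- **the tiles which touch a good cell belong to the partition for `NetInP2`** -/
theorem tch_mem_inet (H : H669.Fine Ω v n k₁ k₀ J) {u : Fin 3 → ℤ}
    (hu : Tch v n (n + k₁ + k₀) J u) :
    ((n + k₁ + k₀, u) : Idx) ∈ inet Ω v n k₁ k₀ J (rI2 Ω v n k₁ k₀ J B nf) := by
  rcases tch_cases H hu with ⟨z, hz, h⟩ | h
  · exact Or.inl ⟨tch_mem_tiles H hu, z, hz, h⟩
  · exact Or.inr ⟨kept_mem (Or.inr h), h.2.2⟩

/-- the partition for `NetInP2` -/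
theorem ref_part_inet (H : Ref2 Ω v n k₁ k₀ J B nf) (hΩ : IsOpen Ω) :
    Part Ω v (inet Ω v n k₁ k₀ J (rI2 Ω v n k₁ k₀ J B nf)) := by
  have hT := H.fine.part
  have hI := ref_part H hΩ
  have mix : ∀ q ∈ tiles Ω (n + k₁ + k₀) v, ∀ z ∈ J, dyc v q.1 q.2 ⊆ dyc v n z →
      ∀ r ∈ rI2 Ω v n k₁ k₀ J B nf, (∀ z ∈ J, ¬ dyc v r.1 r.2 ⊆ dyc v n z) →
      Disjoint (dyo v q.1 q.2) (dyc v r.1 r.2) := by
    intro q _ z hz hqz r hr hrz
    exact ((ref_disj_dyo H hr (hrz z hz) hz).symm.mono_left (dyo_sub hqz))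
  refine ⟨?_, ?_, ?_, ?_⟩
  · rintro q (⟨hq, -⟩ | ⟨hq, -⟩)
    · exact hT.sub q hq
    · exact hI.sub q hq
  · intro x hx
    obtain ⟨r, hr, hxr⟩ := hI.cover x hx
    by_cases hc : ∀ z ∈ J, ¬ dyc v r.1 r.2 ⊆ dyc v n z
    · exact ⟨r, Or.inr ⟨hr, hc⟩, hxr⟩
    · push Not at hc
      obtain ⟨z, hz, hsub⟩ := hc
      obtain ⟨w, hw, hw'⟩ := exists_sub (v := v) (q := (n, z)) (n := n + k₁ + k₀)
        (show n ≤ n + k₁ + k₀ by omega) (hsub hxr)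
      exact ⟨(n + k₁ + k₀, w), Or.inl ⟨H.fine.mem_tiles hz rfl hw', z, hz, hw'⟩, hw⟩
  · rintro q (⟨hq, z, hz, hqz⟩ | ⟨hq, hq1⟩) q' (⟨hq', z', hz', hqz'⟩ | ⟨hq', hq1'⟩) hne
    · exact hT.disj q hq q' hq' hne
    · exact mix q hq z hz hqz q' hq' hq1'
    · have h1 := (mix q' hq' z' hz' hqz' q hq hq1).mono_right (dyo_sub_dyc (v := v))
      have h2 := h1.closure_left (H333.isOpen_dyo v q.1 q.2)
      rw [H333.closure_dyo] at h2
      exact h2.symm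
    · exact hI.disj q hq q' hq' hne
  · intro K hK hKc
    refine ((hT.fin K hK hKc).union (hI.fin K hK hKc)).subset ?_
    rintro q ⟨⟨hq, -⟩ | ⟨hq, -⟩, h4⟩
    · exact Or.inl ⟨hq, h4⟩
    · exact Or.inr ⟨hq, h4⟩

/-! ### Squares -/

theorem gen_le_of_sub {m m' : ℕ} {z z' : Fin 3 → ℤ} (h : dyc v m' z' ⊆ dyc v m z) : m ≤ m' := by
  have h1 := sub_ineq h 0
  have e1 : ((z' 0 : ℝ) + 1) / 2 ^ m' = z' 0 / 2 ^ m' + 1 / 2 ^ m' := by ring
  have e2 : ((z 0 : ℝ) + 1) / 2 ^ m = z 0 / 2 ^ m + 1 / 2 ^ m := by ring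
  rw [e1, e2] at h1
  have h2 : (1:ℝ) / 2 ^ m' ≤ 1 / 2 ^ m := by linarith [h1.1, h1.2]
  rw [one_div_le_one_div (by positivity) (by positivity)] at h2
  exact (pow_le_pow_iff_right₀ (by norm_num : (1:ℝ) < 2)).1 h2

/-- one side of a minimal square of a cube of `olay` -/
theorem ref_side (H : Ref2 Ω v n k₁ k₀ J B nf) {s : Idx × Fin 3} {r : Idx}
    (hr : r ∈ olay v n k₁ k₀ J) (hf : FaceOf s r) {w : Fin 3 → ℤ}
    (hw : FaceOf s (s.1.1, w)) {q : Idx}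
    (hq : q ∈ rI2 Ω v n k₁ k₀ J B nf) (hwq : dyc v s.1.1 w ⊆ dyc v q.1 q.2) :
    (∃ r, IsFine2 Ω v n k₁ k₀ J B nf r ∧ FaceOf s r) ∨
    (∃ z ∈ J, squ v s ⊆ dyc v n z ∧ Disjoint (squ v s) (interior (boxB v n k₁ z))) ∨
    Tch v n (n + k₁ + k₀) J w := by
  have hgen : s.1.1 = n + k₁ + k₀ := hf.1.trans hr.1
  have hsw : squ v s ⊆ dyc v s.1.1 w := face_sub (i := (s.1.1, w)) hw
  have hsr : squ v s ⊆ dyc v r.1 r.2 := face_sub hf
  have hx0 : sc v s ∈ squ v s := rel_sub sc_mem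
  have hqg : q.1 ≤ s.1.1 := gen_le_of_sub hwq
  have hdis : ∀ z ∈ J, ∀ x ∈ squ v s, x ∉ dyo v n z := fun z hz x hx hxz =>
    Set.disjoint_left.1 (olay_disj H.fine hr hz) (hsr hx) hxz
  -- the square is not in the open cube of a divided cube
  have hnod : ∀ q' ∈ out2 Ω v n k₁ k₀ J ∪ core v n k₁ J, ¬ sc v s ∈ dyo v q'.1 q'.2 := by
    intro q' hq' hx
    have hq'b : q' ∈ base Ω v n k₁ k₀ J \ kept v n k₁ k₀ J := by rw [diff_eq2 H.fine]; exact hq'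
    have hne : q' ≠ r := by
      rintro rfl
      exact hq'b.2 (Or.inr hr)
    exact Set.disjoint_left.1 (H.fine.part_base.disj q' hq'b.1 r (olay_sub_base H.fine hr) hne) hx
      (hsr hx0)
  rcases ref_cases H hq with (h | h | h) | ⟨-, q', hq', h3, -⟩ | ⟨h, q', hq', h3, h4⟩
  · obtain ⟨-, z, hz, h2, h3⟩ := lay_disj h
    exact Or.inr (Or.inl ⟨z, hz, hsw.trans (hwq.trans h2), h3.mono_left (hsw.trans hwq)⟩)
  · exfalso
    obtain ⟨-, z, hz, h2, -⟩ := gap_disj h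
    exact hdis z hz _ hx0 (boxB_sub_dyo z (h2 (hwq (hsw hx0))))
  · obtain ⟨h2, h3, -⟩ := h
    have : w = q.2 := by
      have hwq' := hwq
      rw [hgen, h2] at hwq'
      exact eq_of_sub_same hwq'
    rw [this]
    exact Or.inr (Or.inr h3)
  · exact absurd (h3 (hwq (hsw hx0))) (hnod q' hq')
  · rcases hq' with hq' | ⟨-, z, hz, h5⟩
    · have hg : n + k₁ + k₀ ≤ q'.1 := H.fine.gen q' hq'.1.1
      have hg2 : q'.1 ≤ q.1 := gen_le_of_sub h3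
      have hg3 : q.1 = s.1.1 := by omega
      have hqw : q = (s.1.1, w) := by
        obtain ⟨m, u⟩ := q
        simp only at hg3
        subst hg3
        rw [eq_of_sub_same hwq]
      exact Or.inl ⟨q, h, hqw ▸ hw⟩
    · exfalso
      exact hdis z hz _ hx0 (boxB_sub_dyo z (boxR_sub_boxB z (h5 (h3 (hwq (hsw hx0))))))

/-- **the minimal squares** -/
theorem ref_minSq (H : Ref2 Ω v n k₁ k₀ J B nf) (hΩ : IsOpen Ω) {s : Idx × Fin 3}
    (hs : MinSq v (rI2 Ω v n k₁ k₀ J B nf) s) :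
    (∃ r, IsFine2 Ω v n k₁ k₀ J B nf r ∧ FaceOf s r) ∨
    (s.1.1 = n + k₁ + k₀ ∧ ∃ z ∈ J, squ v s ⊆ dyc v n z ∧
      Disjoint (squ v s) (interior (boxB v n k₁ z))) ∨
    (s.1.1 = n + k₁ ∧ ∃ z ∈ J, squ v s ⊆ boxB v n k₁ z ∧
      Disjoint (squ v s) (interior (boxR v n k₁ z))) ∨
    (s.1.1 = n + k₁ + k₀ ∧ Tch v n (n + k₁ + k₀) J s.1.2 ∧ Tch v n (n + k₁ + k₀) J (H234.dn s) ∧
      ∀ z ∈ J, Disjoint (squ v s) (dyo v n z)) := by
  obtain ⟨r, hr, hf⟩ := hs.1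
  rcases ref_cases H hr with (h | h | h) | ⟨hB, q, hq, h3, h4⟩ | ⟨h, -⟩
  · obtain ⟨h1, z, hz, h2, h3⟩ := lay_disj h
    exact Or.inr (Or.inl ⟨hf.1.trans h1, z, hz, (face_sub hf).trans h2,
      h3.mono_left (face_sub hf)⟩)
  · obtain ⟨h1, z, hz, h2, h3⟩ := gap_disj h
    exact Or.inr (Or.inr (Or.inl ⟨hf.1.trans h1, z, hz, (face_sub hf).trans h2,
      h3.mono_left (face_sub hf)⟩))
  · have hgen : s.1.1 = n + k₁ + k₀ := hf.1.trans h.1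
    obtain ⟨qp, qm, h2⟩ := two_of_minSq hΩ (ref_part H hΩ) hs
    have hfp : FaceOf s (s.1.1, s.1.2) := faceOf_iff.2 (Or.inl rfl)
    have hfm : FaceOf s (s.1.1, lo s) := faceOf_iff.2 (Or.inr rfl)
    rcases ref_side H h hf hfp h2.memp h2.subp with h5 | h5 | h5
    · exact Or.inl h5
    · exact Or.inr (Or.inl ⟨hgen, h5⟩)
    rcases ref_side H h hf hfm h2.memm h2.subm with h6 | h6 | h6
    · exact Or.inl h6
    · exact Or.inr (Or.inl ⟨hgen, h6⟩)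
    rw [lo_eq_dn] at h6
    exact Or.inr (Or.inr (Or.inr ⟨hgen, h5, h6, fun z hz =>
      (olay_disj H.fine h hz).mono_left (face_sub hf)⟩))
  · exfalso
    rw [← diff_eq2 H.fine] at hq
    have h5 := H194.gen_ge hΩ H.fine.part_base H.big hs hq
      ((face_sub hf).trans (h3.trans dyo_sub_dyc))
    rw [hf.1] at h5
    omega
  · exact Or.inl ⟨r, h, hf⟩

/-! ### Edges -/

/-- the edges of the big cells are not minimal -/
theorem ref_big_edge (H : Ref2 Ω v n k₁ k₀ J B nf) {b q : Idx} (hb : b ∈ B)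
    (hq : q ∈ out2 Ω v n k₁ k₀ J ∪ core v n k₁ J) (hbq : dyc v b.1 b.2 ⊆ dyo v q.1 q.2)
    (hlt : b.1 < nf q) {e : Idx × Fin 3} (he : EdgeOf e b) :
    ∃ e' : Idx × Fin 3, (∃ r ∈ rI2 Ω v n k₁ k₀ J B nf, EdgeOf e' r) ∧ e.1.1 < e'.1.1 ∧
      edge v e' ⊆ edge v e := by
  have hq' := hq
  rw [← diff_eq2 H.fine] at hq'
  have hqn : q.1 ≤ nf q := H.big.gen q hq'
  obtain ⟨⟨m, w⟩, k⟩ := e
  obtain ⟨hm, hk, hj⟩ := he
  simp only at hm hk hj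
  subst hm
  obtain ⟨d, hd⟩ := Nat.exists_eq_add_of_le hlt.le
  have hd2 : (0:ℝ) < 2 ^ d := by positivity
  have hb2 : (0:ℝ) < 2 ^ b.1 := by positivity
  have hN2 : (2:ℝ) ^ nf q = 2 ^ b.1 * 2 ^ d := by rw [hd, pow_add]
  have hN0 : (0:ℝ) < 2 ^ nf q := by positivity
  have hscale : ∀ a : ℤ, ((2 ^ d * a : ℤ) : ℝ) / 2 ^ nf q = a / 2 ^ b.1 := by
    intro a
    rw [hN2]; push_cast
    field_simp
  obtain ⟨j₀, hj₀⟩ := _root_.exists_ne k
  set w' : Fin 3 → ℤ := fun i => 2 ^ d * w i with hw'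
  set r' : Fin 3 → ℤ := fun i => if i = j₀ then (if w j₀ = b.2 j₀ then 2 ^ d * w j₀ - 1 else
    2 ^ d * w j₀) else 2 ^ d * w i with hr'
  have hr'k : ∀ i, i ≠ j₀ → r' i = w' i := fun i hi => by simp only [hr', if_neg hi, hw']
  have hr'j : ∀ i, w' i = r' i ∨ w' i = r' i + 1 := by
    intro i
    by_cases hi : i = j₀
    · subst hi
      simp only [hr', if_pos rfl, hw']
      by_cases h : w i = b.2 i
      · right; rw [if_pos h]; ring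
      · left; rw [if_neg h]
    · left; exact (hr'k i hi).symm
  have hedge : EdgeOf ((nf q, w'), k) (nf q, r') :=
    ⟨rfl, (hr'k k hj₀.symm).symm, fun i _ => hr'j i⟩
  -- the corner
  set p : V := pt v b.1 w with hp
  have hpe : p ∈ edge v ((b.1, w), k) := left_mem_segment ℝ _ _
  have hpb : p ∈ dyc v b.1 b.2 := edge_subset_dyc (q := b) ⟨rfl, hk, hj⟩ hpe
  have hpr : p ∈ dyc v (nf q) r' := by
    intro i
    have h1 : p i = v i + ((w' i : ℤ) : ℝ) / 2 ^ nf q := by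
      simp only [hw', hp, pt]
      rw [hscale]
    have h2 : (0:ℝ) < 1 / 2 ^ nf q := by positivity
    rw [h1, div_add_one]
    rcases hr'j i with h | h
    · rw [h]; constructor <;> linarith
    · rw [h]; push_cast; rw [div_add_one]; constructor <;> linarith
  refine ⟨((nf q, w'), k), ⟨(nf q, r'), ?_, hedge⟩, hlt, ?_⟩
  · refine Or.inr ⟨q, hq', rfl, sub_of_dyo hqn hpr (hbq hpb), fun b' hb' hsub => ?_⟩
    by_cases hbb : b' = b
    · subst hbb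
      have h1 := hsub (dyo_sub_dyc (cen_mem v (nf q) r')) j₀
      have h2 : cen v (nf q) r' j₀ = v j₀ + (r' j₀ + 1 / 2) / 2 ^ nf q := rfl
      rw [h2] at h1
      have h3 := hscale (w j₀)
      have h4 : (0:ℝ) < 1 / 2 / 2 ^ nf q := by positivity
      by_cases h : w j₀ = b'.2 j₀
      · have h5 : ((r' j₀ : ℤ) : ℝ) = ((2 ^ d * w j₀ : ℤ) : ℝ) - 1 := by
          simp only [hr', if_pos rfl]
          rw [if_pos h]; push_cast; ring
        have h6 : ((r' j₀ : ℤ) + 1 / 2 : ℝ) / 2 ^ nf q = w j₀ / 2 ^ b'.1 - 1 / 2 / 2 ^ nf q := by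
          rw [h5, ← h3]; ring
        rw [h6, ← h] at h1
        linarith [h1.1]
      · have h7 : w j₀ = b'.2 j₀ + 1 := (hj j₀ hj₀).resolve_left h
        have h5 : ((r' j₀ : ℤ) : ℝ) = ((2 ^ d * w j₀ : ℤ) : ℝ) := by
          simp only [hr', if_pos rfl]
          rw [if_neg h]
        have h6 : ((r' j₀ : ℤ) + 1 / 2 : ℝ) / 2 ^ nf q = w j₀ / 2 ^ b'.1 + 1 / 2 / 2 ^ nf q := by
          rw [h5, ← h3]; ring
        rw [h6, h7] at h1
        push_cast at h1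
        linarith [h1.2]
    · exact Set.disjoint_left.1 (H.big.disj b' hb' b hb hbb) (hsub hpr) hpb
  · intro y hy
    rw [mem_edge] at hy ⊢
    obtain ⟨h1, h2, h3⟩ := hy
    simp only at h1 h2 h3 ⊢
    have e1 : ∀ i, ((w' i : ℤ) : ℝ) / 2 ^ nf q = w i / 2 ^ b.1 := fun i => by
      simp only [hw']; exact hscale (w i)
    refine ⟨fun j hj => ?_, ?_, ?_⟩
    · rw [h1 j hj, e1]
    · rw [← e1]; exact h2
    · refine h3.trans ?_
      rw [div_add_one, div_add_one, e1]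
      have : (1:ℝ) / 2 ^ nf q ≤ 1 / 2 ^ b.1 := by
        rw [one_div_le_one_div hN0 hb2]
        exact pow_le_pow_right₀ (by norm_num) hlt.le
      linarith

/-- **the minimal edges** -/
theorem ref_minEdge (H : Ref2 Ω v n k₁ k₀ J B nf) {e : Idx × Fin 3}
    (he : MinEdge v (rI2 Ω v n k₁ k₀ J B nf) e) :
    (∃ r, IsFine2 Ω v n k₁ k₀ J B nf r ∧ EdgeOf e r) ∨
    (e.1.1 = n + k₁ + k₀ ∧ ∃ z ∈ J, edge v e ⊆ dyc v n z ∧
      Disjoint (edge v e) (interior (boxB v n k₁ z)) ∧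
      ∃ u, Touch v n (n + k₁ + k₀) z u ∧ EdgeOf e (n + k₁ + k₀, u)) ∨
    (e.1.1 = n + k₁ ∧ ∃ z ∈ J, edge v e ⊆ boxB v n k₁ z ∧
      Disjoint (edge v e) (interior (boxR v n k₁ z))) ∨
    (e.1.1 = n + k₁ + k₀ ∧ (∃ z ∈ J, ∃ u, Touch v n (n + k₁ + k₀) z u ∧
      EdgeOf e (n + k₁ + k₀, u)) ∧ ∀ z ∈ J, Disjoint (edge v e) (dyo v n z)) := by
  obtain ⟨r, hr, hf⟩ := he.1
  rcases ref_cases H hr with (h | h | h) | ⟨hB, q, hq, h3, h4⟩ | ⟨h, -⟩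
  · obtain ⟨h1, z, hz, h2, h3⟩ := lay_disj h
    have h4 : ((n + k₁ + k₀, r.2) : Idx) = r := Prod.ext h1.symm rfl
    refine Or.inr (Or.inl ⟨hf.1.trans h1, z, hz, (edge_subset_dyc hf).trans h2,
      h3.mono_left (edge_subset_dyc hf), r.2, ⟨cen v r.1 r.2, ?_, ?_⟩, by rw [h4]; exact hf⟩)
    · have := dyo_sub_dyc (cen_mem v r.1 r.2)
      rwa [h1] at this ⊢
    · exact h2 (dyo_sub_dyc (cen_mem v r.1 r.2))
  · obtain ⟨h1, z, hz, h2, h3⟩ := gap_disj h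
    exact Or.inr (Or.inr (Or.inl ⟨hf.1.trans h1, z, hz, (edge_subset_dyc hf).trans h2,
      h3.mono_left (edge_subset_dyc hf)⟩))
  · refine Or.inr (Or.inr (Or.inr ⟨hf.1.trans h.1, ?_, fun z hz =>
      (olay_disj H.fine h hz).mono_left (edge_subset_dyc hf)⟩))
    obtain ⟨z, hz, ht⟩ := h.2.1
    refine ⟨z, hz, r.2, ht, ?_⟩
    have : ((n + k₁ + k₀, r.2) : Idx) = r := Prod.ext h.1.symm rfl
    rw [this]
    exact hf
  · obtain ⟨e', h5, h6, h7⟩ := ref_big_edge H hB hq h3 h4 hf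
    exact absurd h7 (he.2 e' h5 h6)
  · exact Or.inl ⟨r, h, hf⟩

/-- **the edges of `I` and the partition for `NetInP2`** -/
theorem ref_edge_inet (H : Ref2 Ω v n k₁ k₀ J B nf) {e : Idx × Fin 3} {r : Idx}
    (hr : r ∈ rI2 Ω v n k₁ k₀ J B nf) (he : EdgeOf e r) :
    ((∃ r ∈ inet Ω v n k₁ k₀ J (rI2 Ω v n k₁ k₀ J B nf), EdgeOf e r) ∧
      ∀ z ∈ J, Disjoint (edge v e) (interior (boxB v n k₁ z))) ∨
    (∃ z ∈ J, edge v e ⊆ boxR v n k₁ z) ∨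
    (e.1.1 = n + k₁ ∧ ∃ z ∈ J, edge v e ⊆ boxB v n k₁ z ∧
      Disjoint (edge v e) (interior (boxR v n k₁ z))) := by
  have hes := edge_subset_dyc (v := v) he
  have hBo : ∀ z, interior (boxB v n k₁ z) ⊆ dyo v n z := fun z =>
    interior_subset.trans (boxB_sub_dyo z)
  by_cases hc : ∀ z ∈ J, ¬ dyc v r.1 r.2 ⊆ dyc v n z
  · exact Or.inl ⟨⟨r, Or.inr ⟨hr, hc⟩, he⟩, fun z hz =>
      (ref_disj_dyo H hr (hc z hz) hz).mono hes (hBo z)⟩
  push Not at hc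
  obtain ⟨z, hz, hrz⟩ := hc
  have core' : ∀ q ∈ out2 Ω v n k₁ k₀ J ∪ core v n k₁ J, dyc v r.1 r.2 ⊆ dyc v q.1 q.2 →
      ∃ z ∈ J, edge v e ⊆ boxR v n k₁ z := by
    rintro q (hq | ⟨-, z', hz', h2⟩) hs
    · exfalso
      exact Set.disjoint_left.1 (out2_disj H.fine hq hz)
        (hs (dyo_sub_dyc (cen_mem v r.1 r.2))) (hrz (dyo_sub_dyc (cen_mem v r.1 r.2)))
    · exact ⟨z', hz', hes.trans (hs.trans h2)⟩
  rcases ref_cases H hr with (h | h | h) | ⟨hB, q, hq, h3, -⟩ | ⟨-, q, hq, h3, -⟩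
  · obtain ⟨h1, z', hz', h2, h3⟩ := lay_disj h
    refine Or.inl ⟨⟨r, Or.inl ⟨H.fine.mem_tiles hz' h1 h2, z', hz', h2⟩, he⟩, fun z'' hz'' => ?_⟩
    by_cases hzz : z' = z''
    · subst hzz; exact h3.mono_left hes
    · exact (dyo_dyc_disj hzz).mono (hes.trans h2) (hBo z'')
  · obtain ⟨h1, z', hz', h2, h3⟩ := gap_disj h
    exact Or.inr (Or.inr ⟨he.1.trans h1, z', hz', hes.trans h2, h3.mono_left hes⟩)
  · exact absurd hrz (h.2.2 z hz)
  · exact Or.inr (Or.inl (core' q hq (h3.trans dyo_sub_dyc)))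
  · exact Or.inr (Or.inl (core' q hq h3))

/-! ### The final form -/

theorem ref_face_inDiv (H : Ref2 Ω v n k₁ k₀ J B nf) {r : Idx}
    (hr : IsFine2 Ω v n k₁ k₀ J B nf r) {s : Idx × Fin 3} (hs : squ v s ⊆ dyc v r.1 r.2) :
    InDiv Ω v n k₁ k₀ J s := by
  unfold InDiv
  rw [diff_eq2 H.fine]
  rcases ref_fine_cases H hr with ⟨q, hq, h, -⟩ | ⟨z, -, -, q, hq, h, -⟩
  · exact ⟨q, Or.inl hq, hs.trans h⟩
  · exact ⟨q, Or.inr hq, hs.trans h⟩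

theorem disj_boxB (hz : z ∈ J) {S : Set V} (hS : S ⊆ dyc v n z)
    (hd : Disjoint S (interior (boxB v n k₁ z))) :
    ∀ z' ∈ J, Disjoint S (interior (boxB v n k₁ z')) := by
  intro z' _
  by_cases h : z = z'
  · subst h; exact hd
  · exact (dyo_dyc_disj h).mono hS (interior_subset.trans (boxB_sub_dyo z'))

/-- **[E1]** -/
theorem specRef2 : SpecRef2 := by
  intro Ω v n k₁ k₀ J B nf hΩ H
  have hI := ref_part H hΩ
  refine ⟨diff_eq2 H.fine, kept_sub H.fine, hI, ref_part_inet H hΩ,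
    fun u hu => tch_mem_inet H.fine hu, fun q hq z hz => out2_disj H.fine hq hz, ?_,
    fun q hq u hu => out2_sep H.fine hq hu, ?_, ?_, ?_⟩
  · intro r hr hk
    rcases refine_cases H.big hr with h | ⟨q, hq, h3, -⟩
    · exact absurd h hk
    · exact ⟨q, hq, h3⟩
  · intro s hs
    rcases ref_minSq H hΩ hs with ⟨r, hr, hf⟩ | ⟨h1, z, hz, h2, h3⟩ | ⟨h1, z, hz, h2, h3⟩ |
        ⟨h1, h2, h3, h4⟩
    · exact Or.inl (ref_face_inDiv H hr (face_sub hf))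
    · have hx0 : sc v s ∈ squ v s := rel_sub sc_mem
      refine Or.inr (Or.inl ⟨h1, ⟨z, hz, sc v s, ?_, h2 hx0⟩, ⟨z, hz, sc v s, ?_, h2 hx0⟩,
        disj_boxB hz h2 h3⟩)
      · have := squ_sub_hi hx0
        rwa [h1] at this
      · have := squ_sub_lo hx0
        rwa [h1, lo_eq_dn] at this
    · exact Or.inr (Or.inr ⟨h1, z, hz, h2, h3⟩)
    · exact Or.inr (Or.inl ⟨h1, h2, h3, fun z hz =>
        (h4 z hz).mono_right (interior_subset.trans (boxB_sub_dyo z))⟩)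
  · intro e he
    rcases ref_minEdge H he with ⟨r, hr, hf⟩ | ⟨h1, z, hz, h2, h3, u, hu, hf⟩ |
        ⟨h1, z, hz, h2, h3⟩ | ⟨h1, ⟨z, hz, u, hu, hf⟩, h4⟩
    · obtain ⟨s, hs, h1, h2⟩ := H687.exists_minSq_of_minEdge hΩ hI he hr.1 hf
      exact Or.inl ⟨s, hs, h1, ref_face_inDiv H hr h2⟩
    · exact Or.inr (Or.inl ⟨h1, ⟨u, ⟨z, hz, hu⟩, hf⟩, disj_boxB hz h2 h3⟩)
    · exact Or.inr (Or.inr ⟨h1, z, hz, h2, h3⟩)
    · exact Or.inr (Or.inl ⟨h1, ⟨u, ⟨z, hz, hu⟩, hf⟩, fun z hz =>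
        (h4 z hz).mono_right (interior_subset.trans (boxB_sub_dyo z))⟩)
  · rintro e ⟨r, hr, he⟩
    exact ref_edge_inet H hr he

end Vale.Agent.P073.H193
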