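import Vale.Agent.P073.H193.Class
import Vale.Agent.P073.H687.Dict
import Vale.Agent.P073.H194.MeshDefs
import Vale.Agent.P073.Gauge.Of407a

/-!
# P073, [PRE-A]: the sum over the minimal edges of the minimal squares of a cell
-/

open Set Metric Topology Filter MeasureTheory
open scoped ENNReal

namespace Vale.Agent.P073.H193

open Vale.Agent.P073.St (V)
open Vale.Agent.P073.SQ (ev)
open Vale.Agent.P073.H73 (MinEdge segP)
open Vale.Agent.P073.AB Vale.Agent.P073.AB.P86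
open Vale.Agent.P073.H194 (cellT)
open _root_.P073.Net (dyc dyo)
open _root_.P073.Gauge (gam)
open _root_.P073.Gauge.O407 (jInt jInt_sub sub_edge)

/-- inner points of a dyadic edge -/
def Inn (v : V) (e : Idx × Fin 3) (x : V) : Prop :=
  v e.2 + e.1.2 e.2 / 2 ^ e.1.1 < x e.2 ∧ x e.2 < v e.2 + (e.1.2 e.2 + 1) / 2 ^ e.1.1

theorem inn_gam {v : V} {e : Idx × Fin 3} {t : ℝ} (h0 : 0 < t) (h1 : t < 1) :
    Inn v e (gam v e t) := by
  have h2 : (0:ℝ) < 1 / 2 ^ e.1.1 := by positivity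
  have h3 : gam v e t e.2 = v e.2 + e.1.2 e.2 / 2 ^ e.1.1 + t * (1 / 2 ^ e.1.1) := by
    simp only [gam, pt, Pi.add_apply, Pi.smul_apply, ev, Pi.single_eq_same, smul_eq_mul, mul_one]
  constructor
  · rw [h3]
    have := mul_pos h0 h2
    linarith
  · rw [h3, add_div]
    have := mul_lt_mul_of_pos_right h1 h2
    linarith

/-- nonoverlapping parts of a dyadic edge -/
theorem eInt_sum_le {v : V} {E : Idx × Fin 3} {S : Set (Idx × Fin 3)}
    (hS : ∀ e ∈ S, edge v e ⊆ edge v E)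
    (hdis : ∀ e ∈ S, ∀ e' ∈ S, e ≠ e' → ∀ x ∈ edge v e, Inn v e x → x ∉ edge v e')
    (H : V → ℝ≥0∞) : ∑' e : S, eInt v e.1 H ≤ eInt v E H := by
  have h1 : ∀ e : S, ∃ α : ℝ, 0 ≤ α ∧ α + 2 ^ E.1.1 / 2 ^ e.1.1.1 ≤ 1 ∧
      ∀ t : ℝ, gam v e.1 t = gam v E (α + 2 ^ E.1.1 / 2 ^ e.1.1.1 * t) :=
    fun e => (sub_edge (hS e.1 e.2)).2
  choose α hα0 hα1 hα using h1
  set A : S → Set ℝ := fun e => Ioo (α e) (α e + 2 ^ E.1.1 / 2 ^ e.1.1.1) with hA
  have hβ : ∀ e : S, (0:ℝ) < 2 ^ E.1.1 / 2 ^ e.1.1.1 := fun e => by positivity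
  have hpar : ∀ (e : S) (u : ℝ), u ∈ A e → ∃ t ∈ Ioo (0:ℝ) 1, gam v E u = gam v e.1 t := by
    intro e u hu
    refine ⟨(u - α e) / (2 ^ E.1.1 / 2 ^ e.1.1.1), ⟨?_, ?_⟩, ?_⟩
    · exact div_pos (by linarith [hu.1]) (hβ e)
    · rw [div_lt_one (hβ e)]; linarith [hu.2]
    · rw [hα e, mul_div_cancel₀ _ (hβ e).ne']
      congr 1; ring
  have hmem : ∀ (e : S) {t : ℝ}, t ∈ Ioo (0:ℝ) 1 → gam v e.1 t ∈ edge v e.1 := fun e t ht =>
    _root_.P073.Gauge.C110.mem_edge_iff.2 ⟨t, ⟨ht.1.le, ht.2.le⟩, rfl⟩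
  have hd : Pairwise (Function.onFun Disjoint A) := by
    intro e e' hne
    rw [Function.onFun, Set.disjoint_left]
    intro u hu hu'
    obtain ⟨t, ht, h2⟩ := hpar e u hu
    obtain ⟨t', ht', h3⟩ := hpar e' u hu'
    refine hdis e.1 e.2 e'.1 e'.2 (fun h => hne (Subtype.ext h)) _ (hmem e ht)
      (inn_gam ht.1 ht.2) ?_
    rw [← h2, h3]
    exact hmem e' ht'
  have h4 : ∀ e : S, eInt v e.1 H =
      ENNReal.ofReal (1 / 2 ^ E.1.1) * ∫⁻ s in A e, H (gam v E s) := by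
    intro e
    rw [_root_.P073.Gauge.O407.eInt_eq, jInt_sub (hα e), ← mul_assoc,
      ← ENNReal.ofReal_mul (by positivity), restrict_Ioo_eq_restrict_Icc]
    congr 2
    field_simp
  calc ∑' e : S, eInt v e.1 H
      = ∑' e : S, ENNReal.ofReal (1 / 2 ^ E.1.1) * ∫⁻ s in A e, H (gam v E s) :=
        tsum_congr h4
    _ = ENNReal.ofReal (1 / 2 ^ E.1.1) * ∫⁻ s in ⋃ e, A e, H (gam v E s) := by
        rw [ENNReal.tsum_mul_left, lintegral_iUnion (fun e => measurableSet_Ioo) hd]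
    _ ≤ ENNReal.ofReal (1 / 2 ^ E.1.1) * ∫⁻ s in Icc (0:ℝ) 1, H (gam v E s) := by
        gcongr
        refine iUnion_subset fun e s hs => ⟨?_, ?_⟩
        · exact (hα0 e).trans hs.1.le
        · exact hs.2.le.trans (hα1 e)
    _ = eInt v E H := rfl

section part

variable {Ω : Set V} {v : V} {I : Set Idx}

/-- the middle of a minimal edge in a minimal square is not in the relative interior -/
theorem mid_notMem_rel (hΩ : IsOpen Ω) (hI : Part Ω v I) {s e : Idx × Fin 3} (hs : MinSq v I s)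
    (he : MinEdge v I e) (hes : edge v e ⊆ squ v s) : Gr.mid v e ∉ rel v s := by
  intro hm
  obtain ⟨qp, qm, h2⟩ := two_of_minSq hΩ hI hs
  obtain ⟨q, hq, hf⟩ := he.1
  have hmid := Gr.mid_spec v e
  have hmq : Gr.mid v e ∈ dyc v q.1 q.2 := Gr.edge_subset_dyc hf hmid.1
  have hsq : squ v s ⊆ dyc v q.1 q.2 := by
    rcases rel_mem hI h2 hm hq hmq with rfl | rfl
    · exact squ_sub_hi.trans h2.subp
    · exact squ_sub_lo.trans h2.subm
  -- a direction in which the edge is in the boundary of the cube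
  obtain ⟨j, hj1, hj2⟩ : ∃ j, j ≠ e.2 ∧ j ≠ s.2 := by
    by_cases h : e.2 = s.2
    · refine ⟨e.2 + 1, ?_, ?_⟩
      · exact (H194.fin3_ne1 e.2).symm
      · rw [h]; exact (H194.fin3_ne1 s.2).symm
    · obtain ⟨j, h3, h4⟩ := H687.fin3_third e.2 s.2 h
      exact ⟨j, h4, h3⟩
  have h3 := (Gr.mem_edge.1 hmid.1).1 j hj1
  have h4 := hm.2 j hj2
  -- the square in the cube
  have h5 := (squ_dyc_ineq hsq).2 j hj2
  have hg : e.1.1 = q.1 := hf.1
  rcases hf.2.2 j hj1 with h6 | h6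
  · rw [h6, hg] at h3
    rw [h3] at h4
    linarith [h4.1, h5.1]
  · rw [h6, hg] at h3
    push_cast at h3
    rw [h3] at h4
    linarith [h4.2, h5.2]

/-- a minimal edge in a minimal square is contained in one of its four edges -/
theorem exists_edgeOfSq (hΩ : IsOpen Ω) (hI : Part Ω v I) {s e : Idx × Fin 3} (hs : MinSq v I s)
    (he : MinEdge v I e) (hes : edge v e ⊆ squ v s) :
    ∃ E, EdgeOfSq E s ∧ edge v e ⊆ edge v E := by
  have hm := mid_notMem_rel hΩ hI hs he hes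
  have hmid := Gr.mid_spec v e
  have hms : Gr.mid v e ∈ squ v s := hes hmid.1
  have hlen : (0:ℝ) < 1 / 2 ^ e.1.1 := by positivity
  -- the end points of the edge
  have hp1 : pt v e.1.1 e.1.2 ∈ squ v s := hes (left_mem_segment ℝ _ _)
  have hp2 : pt v e.1.1 e.1.2 + (1 / 2 ^ e.1.1 : ℝ) • ev e.2 ∈ squ v s :=
    hes (right_mem_segment ℝ _ _)
  have hne : e.2 ≠ s.2 := by
    intro h
    have a1 := hp1.1
    have a2 := hp2.1
    rw [← h] at a1 a2
    rw [Pi.add_apply, a1] at a2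
    simp only [ev, Pi.smul_apply, Pi.single_eq_same, smul_eq_mul, mul_one] at a2
    linarith
  obtain ⟨k, hk, hxk⟩ : ∃ k, k ≠ s.2 ∧ (Gr.mid v e k = v k + s.1.2 k / 2 ^ s.1.1 ∨
      Gr.mid v e k = v k + (s.1.2 k + 1) / 2 ^ s.1.1) := by
    by_contra hcon
    push Not at hcon
    exact hm ⟨hms.1, fun k hk => ⟨lt_of_le_of_ne (hms.2 k hk).1 (hcon k hk).1.symm,
      lt_of_le_of_ne (hms.2 k hk).2 (hcon k hk).2⟩⟩
  have hke : k ≠ e.2 := by
    rintro rfl
    have a1 := (hp1.2 _ hne).1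
    have a2 := (hp2.2 _ hne).2
    simp only [pt, ev, Pi.add_apply, Pi.smul_apply, Pi.single_eq_same, smul_eq_mul, mul_one] at a1 a2
    have b1 := hmid.2.1
    have b2 := hmid.2.2
    rw [add_div] at b2
    rcases hxk with h | h
    · linarith
    · linarith
  obtain ⟨c, hc, hxc⟩ : ∃ c : ℤ, (c = s.1.2 k ∨ c = s.1.2 k + 1) ∧
      Gr.mid v e k = v k + c / 2 ^ s.1.1 := by
    rcases hxk with h | h
    · exact ⟨_, Or.inl rfl, h⟩
    · exact ⟨_, Or.inr rfl, by push_cast; exact h⟩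
  have hall := H687.fin3_all s.2 k e.2 hk hne hke.symm
  refine ⟨((s.1.1, Function.update s.1.2 k c), e.2), ⟨rfl, hne, ?_, ?_, ?_⟩, ?_⟩
  · show Function.update s.1.2 k c e.2 = s.1.2 e.2
    rw [Function.update_of_ne hke.symm]
  · show Function.update s.1.2 k c s.2 = s.1.2 s.2
    rw [Function.update_of_ne hk.symm]
  · intro j hj1 hj2
    rcases hall j with rfl | rfl | rfl
    · exact absurd rfl hj2
    · show Function.update s.1.2 j c j = s.1.2 j ∨ Function.update s.1.2 j c j = s.1.2 j + 1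
      rw [Function.update_self]
      exact hc
    · exact absurd rfl hj1
  · intro y hy
    have hys := hes hy
    rw [Gr.mem_edge] at hy ⊢
    refine ⟨fun j hj => ?_, ?_⟩
    · have hj' : j ≠ e.2 := hj
      rcases hall j with rfl | rfl | rfl
      · show y s.2 = v s.2 + (Function.update s.1.2 k c s.2 : ℤ) / 2 ^ s.1.1
        rw [Function.update_of_ne hk.symm]
        exact hys.1
      · show y j = v j + (Function.update s.1.2 j c j : ℤ) / 2 ^ s.1.1
        rw [Function.update_self, ← hxc, hy.1 j hj', (Gr.mem_edge.1 hmid.1).1 j hj']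
      · exact absurd rfl hj'
    · show v e.2 + (Function.update s.1.2 k c e.2 : ℤ) / 2 ^ s.1.1 ≤ y e.2 ∧
        y e.2 ≤ v e.2 + ((Function.update s.1.2 k c e.2 : ℤ) + 1) / 2 ^ s.1.1
      rw [Function.update_of_ne hke.symm]
      exact hys.2 _ hne

/-- the minimal edges in a minimal square -/
theorem minEdge_sq_sum (hΩ : IsOpen Ω) (hI : Part Ω v I) {s : Idx × Fin 3} (hs : MinSq v I s)
    (H : V → ℝ≥0∞) (c : ℝ≥0∞) :
    ∑' e : {e : Idx × Fin 3 // MinEdge v I e ∧ edge v e ⊆ squ v s}, c * eInt v e.1 H ≤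
      ∑' E : {E : Idx × Fin 3 // EdgeOfSq E s}, c * eInt v E.1 H := by
  have key : ∀ e : {e : Idx × Fin 3 // MinEdge v I e ∧ edge v e ⊆ squ v s},
      ∃ E : {E : Idx × Fin 3 // EdgeOfSq E s}, edge v e.1 ⊆ edge v E.1 := by
    intro e
    obtain ⟨E, h1, h2⟩ := exists_edgeOfSq hΩ hI hs e.2.1 e.2.2
    exact ⟨⟨E, h1⟩, h2⟩
  choose φ hφ using key
  let ψ : {e : Idx × Fin 3 // MinEdge v I e ∧ edge v e ⊆ squ v s} →
      (E : {E : Idx × Fin 3 // EdgeOfSq E s}) × {e // MinEdge v I e ∧ edge v e ⊆ edge v E.1} :=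
    fun e => ⟨φ e, ⟨e.1, e.2.1, hφ e⟩⟩
  have hψ : Function.Injective ψ := by
    intro e e' h
    apply Subtype.ext
    have h1 : (ψ e).2.1 = (ψ e').2.1 := by rw [h]
    exact h1
  calc ∑' e : {e : Idx × Fin 3 // MinEdge v I e ∧ edge v e ⊆ squ v s}, c * eInt v e.1 H
      = ∑' e, (fun x : (E : {E : Idx × Fin 3 // EdgeOfSq E s}) ×
          {e // MinEdge v I e ∧ edge v e ⊆ edge v E.1} => c * eInt v x.2.1 H) (ψ e) := rfl
    _ ≤ ∑' x : (E : {E : Idx × Fin 3 // EdgeOfSq E s}) ×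
          {e // MinEdge v I e ∧ edge v e ⊆ edge v E.1}, c * eInt v x.2.1 H :=
        ENNReal.tsum_comp_le_tsum_of_injective hψ _
    _ = ∑' E : {E : Idx × Fin 3 // EdgeOfSq E s},
          ∑' e : {e // MinEdge v I e ∧ edge v e ⊆ edge v E.1}, c * eInt v e.1 H :=
        ENNReal.tsum_sigma' _
    _ ≤ ∑' E : {E : Idx × Fin 3 // EdgeOfSq E s}, c * eInt v E.1 H := by
        refine ENNReal.tsum_le_tsum fun E => ?_
        rw [ENNReal.tsum_mul_left]
        gcongr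
        exact eInt_sum_le (S := {e | MinEdge v I e ∧ edge v e ⊆ edge v E.1}) (fun e he => he.2)
          (fun e he e' he' hne x hx hin hx' => Gr.not_inner hI he.1 he'.1 hne hx hx' hin) H

/-- **[PRE-A]** -/
theorem minEdge_sum (hΩ : IsOpen Ω) (hI : Part Ω v I) (i : Idx) (H : V → ℝ≥0∞) :
    ∑' s : {s : Idx × Fin 3 // MinSq v I s ∧ squ v s ⊆ dyc v i.1 i.2},
      ∑' e : {e : Idx × Fin 3 // MinEdge v I e ∧ edge v e ⊆ squ v s.1},
        ENNReal.ofReal (1 / 2 ^ i.1 * (1 / 2 ^ s.1.1.1)) * eInt v e.1 H ≤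
      cellT v I univ H i := by
  let ψ : {s : Idx × Fin 3 // MinSq v I s ∧ squ v s ⊆ dyc v i.1 i.2} →
      {F : Idx × Fin 3 // MinSq v I F ∧ squ v F ⊆ dyc v i.1 i.2 ∧ squ v F ⊆ univ} :=
    fun s => ⟨s.1, s.2.1, s.2.2, subset_univ _⟩
  have hψ : Function.Injective ψ := fun s s' h => Subtype.ext (congrArg (fun x => x.1) h)
  calc _ ≤ ∑' s : {s : Idx × Fin 3 // MinSq v I s ∧ squ v s ⊆ dyc v i.1 i.2},
        ∑' e : {e : Idx × Fin 3 // EdgeOfSq e (ψ s).1},
        ENNReal.ofReal (1 / 2 ^ i.1 * (1 / 2 ^ (ψ s).1.1.1)) * eInt v e.1 H :=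
        ENNReal.tsum_le_tsum fun s => minEdge_sq_sum hΩ hI s.2.1 H _
    _ ≤ cellT v I univ H i :=
        ENNReal.tsum_comp_le_tsum_of_injective hψ fun F : {F : Idx × Fin 3 // MinSq v I F ∧
          squ v F ⊆ dyc v i.1 i.2 ∧ squ v F ⊆ univ} => ∑' e : {e : Idx × Fin 3 // EdgeOfSq e F.1},
        ENNReal.ofReal (1 / 2 ^ i.1 * (1 / 2 ^ F.1.1.1)) * eInt v e.1 H

/-- finitely many cells and minimal squares at an edge -/
theorem finite_cell_sq (hI : Part Ω v I) (e : Idx × Fin 3) :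
    {x : Idx × (Idx × Fin 3) | x.1 ∈ I ∧ MinSq v I x.2 ∧ squ v x.2 ⊆ dyc v x.1.1 x.1.2 ∧
      edge v e ⊆ squ v x.2}.Finite := by
  by_cases hne : edge v e ⊆ Ω
  · have h1 := hI.fin (edge v e) hne (Gr.isCompact_edge v e)
    have h2 : ∀ q : Idx, {s : Idx × Fin 3 | FaceOf s q}.Finite := by
      intro q
      have : {s : Idx × Fin 3 | FaceOf s q} ⊆
          (fun x : Fin 3 × Bool => ((q.1, Function.update q.2 x.1 (q.2 x.1 + cond x.2 1 0)), x.1)) ''
            univ := by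
        rintro s ⟨h3, h4, h5⟩
        rcases h4 with h4 | h4
        · refine ⟨(s.2, false), mem_univ _, ?_⟩
          refine Prod.ext (Prod.ext h3.symm ?_) rfl
          funext j
          by_cases hj : j = s.2
          · subst hj; simp [h4]
          · simp [hj, h5 j hj]
        · refine ⟨(s.2, true), mem_univ _, ?_⟩
          refine Prod.ext (Prod.ext h3.symm ?_) rfl
          funext j
          by_cases hj : j = s.2
          · subst hj; simp [h4]
          · simp [hj, h5 j hj]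
      exact (finite_univ.image _).subset this
    have h3 : (⋃ q ∈ {q | q ∈ I ∧ (dyc v q.1 q.2 ∩ edge v e).Nonempty},
        {s : Idx × Fin 3 | FaceOf s q}).Finite := h1.biUnion fun q _ => h2 q
    refine (h1.prod h3).subset ?_
    rintro ⟨i, s⟩ ⟨hi, hs, hsi, hes⟩
    obtain ⟨y, hy⟩ := Gr.edge_nonempty v e
    obtain ⟨q, hq, hf⟩ := hs.1
    exact ⟨⟨hi, y, hsi (hes hy), hy⟩, mem_biUnion (show q ∈ {q | q ∈ I ∧
      (dyc v q.1 q.2 ∩ edge v e).Nonempty} from ⟨hq, y, H194.face_sub hf (hes hy), hy⟩) hf⟩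
  · refine Set.Finite.subset finite_empty ?_
    rintro ⟨i, s⟩ ⟨hi, hs, hsi, hes⟩
    exact hne ((hes.trans hsi).trans (hI.sub i hi))

end part

end Vale.Agent.P073.H193
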