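import Vale.Agent.P073.H333.PDref

/-!
# P073, block A15-PRE: [PD2] the fields `cond` and `len` (weights) of `Pre`
-/

namespace Vale.Agent.P073.H193

open MeasureTheory Set Filter Topology Metric Vale.Agent.P073.St Vale.Agent.P073.AB
open Vale.Agent.P073.SQ (ev)
open _root_.P073 (ConHomeo)
open _root_.P073.Net (dyc dyo IsTile SizeFn len)
open Vale.Agent.P073.H73 (MinEdge Bix ctr WLe segP onSeg)
open Vale.Agent.P073.H194 (refine Big wH zo so co MeshOut bInt Oc cellT)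
open Vale.Agent.P073.H471 (wgt)
open Vale.Agent.P073.H83 (CellsG gB grho)
open Vale.Agent.P073.H333
open scoped ENNReal

/-- a frontier point between a point of `S` and a point outside of `S` -/
theorem exists_frontier_seg {S : Set V} {x y : V} (hx : x ∈ S) (hy : y ∉ S) :
    ∃ w ∈ frontier S, ‖x - w‖ ≤ ‖x - y‖ := by
  have hseg : IsPreconnected (segment ℝ x y) := (convex_segment x y).isPreconnected
  have h1 : (segment ℝ x y ∩ frontier S).Nonempty := by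
    by_contra hcon
    rw [not_nonempty_iff_eq_empty] at hcon
    have h2 : segment ℝ x y ⊆ interior S ∪ (closure S)ᶜ := by
      intro w hw
      by_cases hwc : w ∈ closure S
      · left
        by_contra hwi
        have : w ∈ segment ℝ x y ∩ frontier S := ⟨hw, hwc, hwi⟩
        rw [hcon] at this; exact this
      · exact Or.inr hwc
    have h3 : Disjoint (interior S) (closure S)ᶜ :=
      disjoint_compl_right.mono_left (interior_subset.trans subset_closure)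
    rcases hseg.subset_or_subset isOpen_interior isClosed_closure.isOpen_compl h3 h2 with h | h
    · exact hy (interior_subset (h (right_mem_segment ℝ x y)))
    · exact h (left_mem_segment ℝ x y) (subset_closure hx)
  obtain ⟨w, hw, hwf⟩ := h1
  refine ⟨w, hwf, ?_⟩
  rw [segment_eq_image'] at hw
  obtain ⟨t, ht, rfl⟩ := hw
  have : x - (x + t • (y - x)) = t • (x - y) := by
    rw [sub_add_cancel_left, ← smul_neg, neg_sub]
  rw [this, norm_smul, Real.norm_of_nonneg ht.1]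
  exact mul_le_of_le_one_left (norm_nonneg _) ht.2

variable {p ε δ : ℝ} {Φ : ℕ → Finset (Fin 3 → ℤ) → ((Fin 3 → ℤ) → V → V) → ℝ}
  {Ω Λ : Set V} {f : V → V} {F : V → Mat} (D : PD p ε δ Φ Ω Λ f F)

/-- on the divided cubes `h` is close to `fs` -/
theorem h_fs {q : Idx} (hq : q ∈ D.Ib \ D.P) {x : V}
    (hx : x ∈ dyc D.v q.1 q.2) :
    ‖D.h.toFun x - H194.fs D.v D.n D.k₁ D.J D.A f x‖ ≤ D.τ q := by
  have hxΩ : x ∈ Ω := D.fine.part_base.sub q hq.1 hx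
  have hq' := hq
  rw [D.diff_eq] at hq'
  rcases hq' with h | ⟨-, z, hz, h⟩
  · have h1 : ∀ z ∈ D.J, x ∉ dyo D.v D.n z := fun z hz hxz =>
      Set.disjoint_left.1 (D.fine.out_disj h hz) hx hxz
    rw [H194.fs_out fun z hz hxz => h1 z hz (H333.boxR_sub_dyo _ _ _ _ hxz)]
    refine (D.net.off x hxΩ ?_).trans (D.στ q hq x hx)
    rintro ⟨n', z⟩ ⟨hn, hz⟩ hxi
    have hn' : n' = D.n := hn
    subst hn'
    rw [H83.interior_dyc] at hxi
    exact h1 z hz hxi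
  · rw [H194.fs_in hz (h hx), D.net.box (D.n, z) ⟨rfl, hz⟩ x (h hx), sub_self, norm_zero]
    exact (D.τ0 q).le

/-- the divided cubes in the protected boxes have generation `nr` -/
theorem nf_core {q : Idx} (hq : q ∈ D.Ib \ D.P) {x : V} (hx : x ∈ dyc D.v q.1 q.2)
    {z : Fin 3 → ℤ} (hz : z ∈ D.J) (hxz : x ∈ boxR D.v D.n D.k₁ z) : D.nf q = D.nr := by
  have hq' := hq
  rw [D.diff_eq] at hq'
  rcases hq' with h | ⟨-, z', hz', h⟩
  · exact absurd (H333.boxR_sub_dyo _ _ _ _ hxz) (Set.disjoint_left.1 (D.fine.out_disj h hz) hx)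
  · exact D.mesh.core q ⟨hq, z', hz', h⟩

theorem cell_sub_boxR {b : Bix} (hb : b ∈ D.Bx) : b.cell D.A ⊆ boxR D.v D.n D.k₁ b.1 :=
  (H194.cell_sub_int D.H hb).trans interior_subset

/-- near the boundary of a cell -/
theorem near_frontier {b : Bix} {x y : V} (hx : x ∈ b.cell D.A)
    (hy : y ∉ b.cell D.A) (hxy : ‖x - y‖ ≤ 1 / 2 ^ D.nr) :
    ∃ w ∈ frontier (b.cell D.A), ‖x - w‖ ≤ 4 / 2 ^ D.nr := by
  obtain ⟨w, hw, hxw⟩ := exists_frontier_seg hx hy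
  refine ⟨w, hw, hxw.trans (hxy.trans ?_)⟩
  gcongr
  norm_num

/-- literal form of [PD1] `in_cell` -/
def InCell : Prop := ∀ b ∈ D.Bx, ∀ x ∈ Ω, D.h.toFun x ∈ b.box → x ∈ b.cell D.A

/-- literal form of [PD1] `zone` -/
def ZoneP : Prop := ∀ b ∈ D.Bx, ∀ x, (∃ y ∈ frontier (b.cell D.A), ‖x - y‖ ≤ 4 / 2 ^ D.nr) →
    ∀ m z, IsTile D.ρ 0 m z → D.h.toFun x ∈ dyc 0 m z → D.h.toFun x ≠ D.c m z ∧
      1 / 2 ^ m ≤ 16 * ‖D.h.toFun x - D.c m z‖ ∧
      ∀ y, ‖x - y‖ ≤ 2 / 2 ^ D.nr → ‖D.h.toFun x - D.h.toFun y‖ ≤ δ * ‖D.h.toFun x - D.c m z‖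

/-- the kept zone: distance to the centres -/
theorem kept_far {z : Fin 3 → ℤ} (hz : z ∈ D.J) {x : V} (hx : x ∈ dyc D.v D.n z)
    (hx' : x ∉ interior (boxR D.v D.n D.k₁ z)) {m : ℕ} {zz : Fin 3 → ℤ}
    (ht : IsTile D.ρ 0 m zz) : D.a₁ / 2 ^ D.m₁ ≤ ‖D.c m zz - D.A z x‖ :=
  far_ctr (D.H.continuous hz) (D.far m zz ht z hz) hx hx'

/-- the kept zone: `h` is close to `A z` -/
theorem kept_close {z : Fin 3 → ℤ} (hz : z ∈ D.J) {x : V}
    (hx : (x ∈ dyc D.v D.n z ∧ x ∉ interior (boxB D.v D.n D.k₁ z)) ∨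
      x ∈ boxB D.v D.n D.k₁ z) :
    ‖D.h.toFun x - D.A z x‖ ≤ D.C / 2 ^ (D.n + D.k₁) := by
  rcases hx with ⟨h1, h2⟩ | h
  · refine (D.net.layer (D.n, z) ⟨rfl, hz⟩ x h1 h2).trans ?_
    have := D.C0
    apply div_le_div_of_nonneg_left this.le (by positivity)
    exact pow_le_pow_right₀ one_le_two (Nat.le_add_right _ _)
  · exact D.net.inn (D.n, z) ⟨rfl, hz⟩ x h

theorem intR_sub_intB {z : Fin 3 → ℤ} :
    interior (boxR D.v D.n D.k₁ z) ⊆ interior (boxB D.v D.n D.k₁ z) :=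
  interior_mono (AB.S308.boxR_sub_boxB z)

theorem one_div_tile {m : ℕ} {zz : Fin 3 → ℤ} (ht : IsTile D.ρ 0 m zz) :
    (1 / 2 ^ m : ℝ) ≤ 1 / 2 ^ D.m₁ := by
  apply one_div_le_one_div_of_le (by positivity)
  exact pow_le_pow_right₀ one_le_two (H83.gen_le_of_tile ht)

/-- **[PD2] cond** -/
theorem cond (hin : InCell D) (hzone : ZoneP D) :
    ∀ s, MinSq D.v D.I s → (∀ b ∈ D.Bx, ¬ squ D.v s ⊆ b.cell D.A) →
    ∀ x ∈ squ D.v s, ∀ m z, IsTile D.ρ 0 m z → D.h.toFun x ∈ dyc 0 m z →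
      D.h.toFun x ≠ D.c m z ∧
      ∀ y ∈ squ D.v s, ‖D.h.toFun x - D.h.toFun y‖ ≤ δ * ‖D.h.toFun x - D.c m z‖ := by
  intro s hs hb x hx m zz ht hxt
  obtain ⟨r0, hr0, hf0⟩ := id hs.1
  have hsΩ : squ D.v s ⊆ Ω := (H687.face_sub_dyc hf0).trans (D.part.sub r0 hr0)
  have ha0 : 0 < D.a₁ / 2 ^ D.m₁ := div_pos D.a0 (by positivity)
  -- the kept cases
  have kept : ∀ z ∈ D.J, (∀ y ∈ squ D.v s, (y ∈ dyc D.v D.n z ∧ y ∉ interior (boxB D.v D.n D.k₁ z))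
      ∨ (y ∈ boxB D.v D.n D.k₁ z ∧ y ∉ interior (boxR D.v D.n D.k₁ z))) →
      D.n + D.k₁ ≤ s.1.1 → D.h.toFun x ≠ D.c m zz ∧
      ∀ y ∈ squ D.v s, ‖D.h.toFun x - D.h.toFun y‖ ≤ δ * ‖D.h.toFun x - D.c m zz‖ := by
    intro z hz hall hgen
    have hcl : ∀ y ∈ squ D.v s, ‖D.h.toFun y - D.A z y‖ ≤ D.C / 2 ^ (D.n + D.k₁) := fun y hy =>
      kept_close D hz ((hall y hy).imp_right fun h => h.1)
    have hfar : D.a₁ / 2 ^ D.m₁ ≤ ‖D.c m zz - D.A z x‖ := by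
      rcases hall x hx with h | h
      · exact kept_far D hz h.1 (fun h' => h.2 (intR_sub_intB D h')) ht
      · exact kept_far D hz (AB.S308.boxB_sub_dyc z h.1) h.2 ht
    have key : ∀ y ∈ squ D.v s, D.h.toFun x ≠ D.c m zz ∧
        ‖D.h.toFun x - D.h.toFun y‖ ≤ δ * ‖D.h.toFun x - D.c m zz‖ := fun y hy => by
      refine cond_kept (D.aff z) (D.H.above z hz) D.M0.le (hcl x hx) (hcl y hy)
        (d := 1 / 2 ^ (D.n + D.k₁)) ((squ_diam hx hy).trans ?_) ha0 hfar D.η1 D.hδ.le D.η2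
      apply one_div_le_one_div_of_le (by positivity)
      exact pow_le_pow_right₀ one_le_two hgen
    exact ⟨(key x hx).1, fun y hy => (key y hy).2⟩
  rcases D.ref.minSq D.bΩ.1 hs with ⟨r, hr, hf⟩ | ⟨h1, z, hz, h2, h3⟩ | ⟨h1, z, hz, h2, h3⟩
  · obtain ⟨q, hq, hsq⟩ := D.div_of_fine hr (H687.face_sub_dyc hf)
    have hfaces := D.mesh.faces s hs q hq hsq D.h.toFun fun y hy => h_fs D hq (hsq hy)
    by_cases hbox : ∀ b ∈ D.Bx, ¬ dyc 0 m zz ⊆ b.box
    · have h1 := hfaces.2.1 x hx ⟨⟨(m, zz), ht⟩, hbox⟩ (by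
        show D.h.toFun x ∈ closedBall (H471.zt D.ρ 0 ⟨(m, zz), ht⟩) (H471.st D.ρ 0 ⟨(m, zz), ht⟩)
        rw [H471.cB_eq]; exact hxt)
      exact h1
    · push Not at hbox
      obtain ⟨b, hbB, hbt⟩ := hbox
      have hxc : x ∈ b.cell D.A := hin b hbB x (hsΩ hx) (hbt hxt)
      obtain ⟨y0, hy0, hy0c⟩ := Set.not_subset.1 (hb b hbB)
      have hnr : D.nf q = D.nr := nf_core D hq (hsq hx) (H83.gB_J D.H b hbB)
        (cell_sub_boxR D hbB hxc)
      have hgen : D.nr ≤ s.1.1 := hnr ▸ D.mesh.gen s hs q hq hsq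
      have hdiam : ∀ y ∈ squ D.v s, ‖x - y‖ ≤ 1 / 2 ^ D.nr := fun y hy =>
        (squ_diam hx hy).trans (one_div_le_one_div_of_le (by positivity)
          (pow_le_pow_right₀ one_le_two hgen))
      obtain ⟨h1, -, h3⟩ := hzone b hbB x (near_frontier D hxc hy0c (hdiam y0 hy0)) m zz ht hxt
      refine ⟨h1, fun y hy => h3 y ((hdiam y hy).trans ?_)⟩
      gcongr; norm_num
  · refine kept z hz (fun y hy => Or.inl ⟨h2 hy, Set.disjoint_left.1 h3 hy⟩) ?_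
    rw [h1]; exact Nat.le_add_right _ _
  · exact kept z hz (fun y hy => Or.inr ⟨h2 hy, Set.disjoint_left.1 h3 hy⟩) h1.ge

/-- the weight of a divided edge -/
theorem wst_spec {e : Idx × Fin 3} {s : Idx × Fin 3} (hs : MinSq D.v D.I s)
    (hes : edge D.v e ⊆ squ D.v s) {q : Idx} (hq : q ∈ D.Ib \ D.P)
    (hsq : squ D.v s ⊆ dyc D.v q.1 q.2) {w : ℝ}
    (hw : ∀ x ∈ squ D.v s, ENNReal.ofReal w ≤ 2178 * D.wg (D.fs x)) :
    2178 ≤ D.wst e ∧ w ≤ D.wst e := by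
  have hx0 : pt D.v e.1.1 e.1.2 ∈ edge D.v e := left_mem_segment ℝ _ _
  have hfin : (2178 * ⨅ x ∈ edge D.v e, D.wg (D.fs x)) ≠ ⊤ := by
    refine ENNReal.mul_ne_top (by norm_num) (ne_top_of_le_ne_top
      (D.mesh.wfin s hs q hq hsq _ (hes hx0)) ?_)
    exact iInf₂_le _ hx0
  constructor
  · have h1 : (2178 : ℝ≥0∞) ≤ 2178 * ⨅ x ∈ edge D.v e, D.wg (D.fs x) := by
      refine le_mul_of_one_le_right zero_le ?_
      exact le_iInf₂ fun x _ => H471.one_le_wgt _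
    have h2 := (ENNReal.toReal_le_toReal (by norm_num) hfin).2 h1
    have h3 : (2178 : ℝ≥0∞).toReal = 2178 := by norm_num
    rw [h3] at h2
    exact h2
  · have h1 : ENNReal.ofReal w ≤ 2178 * ⨅ x ∈ edge D.v e, D.wg (D.fs x) := by
      rw [ENNReal.mul_iInf_of_ne (by norm_num) (by norm_num)]
      refine le_iInf fun x => ?_
      rw [ENNReal.mul_iInf_of_ne (by norm_num) (by norm_num)]
      exact le_iInf fun hx => hw x (hes hx)
    exact (ENNReal.ofReal_le_iff_le_toReal hfin).1 h1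

/-- **[PD2] weights** -/
theorem wle (hin : InCell D) (hzone : ZoneP D) :
    ∀ e, MinEdge D.v D.I e → (∀ b ∈ D.Bx, ¬ edge D.v e ⊆ b.cell D.A) →
      WLe 0 D.ρ D.c D.h.toFun (segP D.v e) (D.We e) := by
  intro e he hb
  have hseg : segment ℝ (segP D.v e).1 (segP D.v e).2 = edge D.v e := rfl
  obtain ⟨r0, hr0, hf0⟩ := id he.1
  have heΩ : edge D.v e ⊆ Ω := (Gr.edge_subset_dyc hf0).trans (D.part.sub r0 hr0)
  by_cases hd : D.Div e
  · have hWe : D.We e = D.wst e := by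
      unfold PD.We; rw [if_pos hd]
    rw [hWe]
    obtain ⟨s, hs, hes, q, hq, hsq⟩ := hd
    have hfaces := D.mesh.faces s hs q hq hsq D.h.toFun fun y hy => h_fs D hq (hsq hy)
    obtain ⟨w, hw1, hw2, hw3⟩ := hfaces.2.2
    obtain ⟨hA, hB⟩ := wst_spec D hs hes hq hsq hw3
    refine ⟨by linarith, fun y hy m zz ht hyt => ?_⟩
    rw [hseg] at hy
    by_cases hbox : ∀ b ∈ D.Bx, ¬ dyc 0 m zz ⊆ b.box
    · have h1 := hw2 y (hes hy) ⟨⟨(m, zz), ht⟩, hbox⟩ (by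
        show D.h.toFun y ∈ closedBall (H471.zt D.ρ 0 ⟨(m, zz), ht⟩) (H471.st D.ρ 0 ⟨(m, zz), ht⟩)
        rw [H471.cB_eq]; exact hyt)
      have h2 : 2 * so D.ρ D.Bx ⟨⟨(m, zz), ht⟩, hbox⟩ = 1 / 2 ^ m := by
        show 2 * (1 / 2 / 2 ^ m : ℝ) = 1 / 2 ^ m
        ring
      rw [h2] at h1
      exact h1.trans (mul_le_mul_of_nonneg_right hB (norm_nonneg _))
    · push Not at hbox
      obtain ⟨b, hbB, hbt⟩ := hbox
      have hyc : y ∈ b.cell D.A := hin b hbB y (heΩ hy) (hbt hyt)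
      obtain ⟨y0, hy0, hy0c⟩ := Set.not_subset.1 (hb b hbB)
      have hnr : D.nf q = D.nr := nf_core D hq (hsq (hes hy)) (H83.gB_J D.H b hbB)
        (cell_sub_boxR D hbB hyc)
      have hgen : D.nr ≤ s.1.1 := hnr ▸ D.mesh.gen s hs q hq hsq
      have hdiam : ‖y - y0‖ ≤ 1 / 2 ^ D.nr :=
        (squ_diam (hes hy) (hes hy0)).trans (one_div_le_one_div_of_le (by positivity)
          (pow_le_pow_right₀ one_le_two hgen))
      obtain ⟨-, h2, -⟩ := hzone b hbB y (near_frontier D hyc hy0c hdiam) m zz ht hyt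
      refine h2.trans (mul_le_mul_of_nonneg_right ?_ (norm_nonneg _))
      linarith
  · have hWe : D.We e = 2 / D.a₁ := by
      unfold PD.We; rw [if_neg hd]
    rw [hWe]
    have ha := D.a0
    have ha1 := D.a1
    refine ⟨?_, fun y hy m zz ht hyt => ?_⟩
    · rw [le_div_iff₀ ha]; linarith
    rw [hseg] at hy
    have key : D.a₁ / 2 ^ D.m₁ / 2 ≤ ‖D.h.toFun y - D.c m zz‖ := by
      rcases D.kept_of_not_div he hd with ⟨-, z, hz, h2, h3⟩ | ⟨-, z, hz, h2, h3⟩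
      · have hyB := Set.disjoint_left.1 h3 hy
        exact far_of_near (kept_far D hz (h2 hy) (fun h' => hyB (intR_sub_intB D h')) ht)
          (kept_close D hz (Or.inl ⟨h2 hy, hyB⟩)) D.η1
      · exact far_of_near (kept_far D hz (AB.S308.boxB_sub_dyc z (h2 hy))
          (Set.disjoint_left.1 h3 hy) ht) (kept_close D hz (Or.inr (h2 hy))) D.η1
    calc (1 / 2 ^ m : ℝ) ≤ 1 / 2 ^ D.m₁ := one_div_tile D ht
      _ = 2 / D.a₁ * (D.a₁ / 2 ^ D.m₁ / 2) := by field_simp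
      _ ≤ 2 / D.a₁ * ‖D.h.toFun y - D.c m zz‖ :=
        mul_le_mul_of_nonneg_left key (by positivity)

end Vale.Agent.P073.H193
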