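import Vale.Agent.P073.H193.PD2
import Vale.Agent.P073.H193.Kept2
import Vale.Agent.P073.H340.PE2
import Vale.Agent.P073.H79.PEpre

/-!
# P073, [PRE-2] (`p = 2`), [E3]: the fields `cond` and `len` (weights) of `Pre`
-/

namespace Vale.Agent.P073.H340

open MeasureTheory Set Filter Topology Metric Vale.Agent.P073.St Vale.Agent.P073.AB
open Vale.Agent.P073.SQ (ev)
open _root_.P073 (ConHomeo)
open _root_.P073.Net (dyc dyo IsTile SizeFn len)
open Vale.Agent.P073.H73 (MinEdge Bix ctr WLe segP onSeg)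
open Vale.Agent.P073.H194 (refine Big wH zo so co MeshOut bInt Oc cellT)
open Vale.Agent.P073.H471 (wgt)
open Vale.Agent.P073.H83 (CellsG gB grho)
open Vale.Agent.P073.H193 (exists_frontier_seg)
open Vale.Agent.P073.H333 (lay gap core out base inet Mid PD0 far_ctr far_of_near squ_diam)
open scoped ENNReal

namespace PE

variable {p ε δ : ℝ} {Φ : ℕ → Finset (Fin 3 → ℤ) → ((Fin 3 → ℤ) → V → V) → ℝ}
  {Ω Λ : Set V} {g f : V → V} {F : V → Mat} (D : PE p ε δ Φ Ω Λ g f F)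
  (R : RefOut Ω D.v D.n D.k₁ D.k₀ D.J D.Bg D.nf)

include R in
/-- the divided cubes in the protected boxes have generation `nr` -/
theorem nf_core3 {q : Idx} (hq : q ∈ D.Ib \ D.Pk) {x : V} (hx : x ∈ dyc D.v q.1 q.2)
    {z : Fin 3 → ℤ} (hz : z ∈ D.J) (hxz : x ∈ boxR D.v D.n D.k₁ z) : D.nf q = D.nr := by
  have hq' : q ∈ (out Ω D.v D.n D.k₁ D.k₀ D.J \ olay D.v D.n D.k₁ D.k₀ D.J) ∪
      core D.v D.n D.k₁ D.J := by rw [← R.diff]; exact hq
  rcases hq' with h | ⟨-, z', hz', h⟩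
  · exact absurd (P86.dyo_sub_dyc (H333.boxR_sub_dyo _ _ _ _ hxz))
      (Set.disjoint_left.1 (R.off q h z hz) hx)
  · exact D.mesh.core q ⟨hq, z', hz', h⟩

/-- the images of the layers are far from the centres -/
theorem far3 {y : V} (hy : D.NL y) {m : ℕ} {zz : Fin 3 → ℤ} (ht : IsTile D.ρ 0 m zz) :
    D.a₁ / 2 ^ D.m₁ / 2 ≤ ‖y - D.c m zz‖ := by
  obtain ⟨z, hz, x, hx, hxR, h⟩ := hy
  exact far_of_near (far_ctr (D.H.continuous hz) (D.far m zz ht z hz) hx hxR) h D.η1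

theorem one_div_tile3 {m : ℕ} {zz : Fin 3 → ℤ} (ht : IsTile D.ρ 0 m zz) :
    (1 / 2 ^ m : ℝ) ≤ 1 / 2 ^ D.m₁ := by
  apply one_div_le_one_div_of_le (by positivity)
  exact pow_le_pow_right₀ one_le_two (H83.gen_le_of_tile ht)

/-- weights near the images of the layers -/
theorem tile_le3 {y : V} (hy : D.NL y) {m : ℕ} {zz : Fin 3 → ℤ} (ht : IsTile D.ρ 0 m zz) :
    (1 / 2 ^ m : ℝ) ≤ 2 / D.a₁ * ‖y - D.c m zz‖ := by
  have ha := D.a0
  calc (1 / 2 ^ m : ℝ) ≤ 1 / 2 ^ D.m₁ := D.one_div_tile3 ht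
    _ = 2 / D.a₁ * (D.a₁ / 2 ^ D.m₁ / 2) := by field_simp
    _ ≤ 2 / D.a₁ * ‖y - D.c m zz‖ := mul_le_mul_of_nonneg_left (D.far3 hy ht) (by positivity)

/-- near the boundary of a cell -/
theorem near_frontier3 {b : Bix} {x y : V} (hx : x ∈ b.cell D.A)
    (hy : y ∉ b.cell D.A) (hxy : ‖x - y‖ ≤ 1 / 2 ^ D.nr) :
    ∃ w ∈ frontier (b.cell D.A), ‖x - w‖ ≤ 4 / 2 ^ D.nr := by
  obtain ⟨w, hw, hxw⟩ := exists_frontier_seg hx hy
  refine ⟨w, hw, hxw.trans (hxy.trans ?_)⟩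
  gcongr
  norm_num

include R in
/-- **[E3] cond** -/
theorem cond (hK : D.KeySq) : D.Cond := by
  intro s hs hb x hx m zz ht hxt
  obtain ⟨r0, hr0, hf0⟩ := id hs.1
  have hI : Part Ω D.v D.I := R.part
  have hsΩ : squ D.v s ⊆ Ω := (H687.face_sub_dyc hf0).trans (hI.sub r0 hr0)
  rcases hK s hs with ⟨q, hq, hsq, hcl⟩ | ⟨hNL, hosc⟩
  · have hfaces := D.mesh.faces s hs q hq hsq D.h.toFun hcl
    by_cases hbox : ∀ b ∈ D.Bx, ¬ dyc 0 m zz ⊆ b.box
    · exact hfaces.2.1 x hx ⟨⟨(m, zz), ht⟩, hbox⟩ (by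
        show D.h.toFun x ∈ closedBall (H471.zt D.ρ 0 ⟨(m, zz), ht⟩) (H471.st D.ρ 0 ⟨(m, zz), ht⟩)
        rw [H471.cB_eq]; exact hxt)
    · push Not at hbox
      obtain ⟨b, hbB, hbt⟩ := hbox
      have hxc : x ∈ b.cell D.A := D.in_cell b hbB x (hsΩ hx) (hbt hxt)
      obtain ⟨y0, hy0, hy0c⟩ := Set.not_subset.1 (hb b hbB)
      have hxR : x ∈ boxR D.v D.n D.k₁ b.1 := ((H194.cell_sub_int D.H hbB).trans
        interior_subset) hxc
      have hnr : D.nf q = D.nr := D.nf_core3 R hq (hsq hx) (H83.gB_J D.H b hbB) hxR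
      have hgen : D.nr ≤ s.1.1 := hnr ▸ D.mesh.gen s hs q hq hsq
      have hdiam : ∀ y ∈ squ D.v s, ‖x - y‖ ≤ 1 / 2 ^ D.nr := fun y hy =>
        (squ_diam hx hy).trans (one_div_le_one_div_of_le (by positivity)
          (pow_le_pow_right₀ one_le_two hgen))
      obtain ⟨h1, -, h3⟩ := D.zone b hbB x (D.near_frontier3 hxc hy0c (hdiam y0 hy0)) m zz ht hxt
      refine ⟨h1, fun y hy => h3 y ((hdiam y hy).trans ?_)⟩
      gcongr; norm_num
  · have h1 := D.far3 (hNL x hx) ht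
    have h2 : 0 < D.a₁ / 2 ^ D.m₁ / 2 := by
      have := D.a0
      positivity
    refine ⟨fun heq => ?_, fun y hy => ?_⟩
    · rw [heq, sub_self, norm_zero] at h1
      linarith
    · exact (hosc x hx y hy).trans (D.η2.trans (mul_le_mul_of_nonneg_left h1 D.hδ.le))

/-- the weight of a divided edge -/
theorem wst_spec3 {e : Idx × Fin 3} {s : Idx × Fin 3} (hs : MinSq D.v D.I s)
    (hes : edge D.v e ⊆ squ D.v s) {q : Idx} (hq : q ∈ D.Ib \ D.Pk)
    (hsq : squ D.v s ⊆ dyc D.v q.1 q.2) : 2178 ≤ wst2 D.toPD0 f e ∧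
    ∀ w : ℝ, (∀ x ∈ squ D.v s, ENNReal.ofReal w ≤ 2178 * D.wg (D.fs x)) →
      w ≤ wst2 D.toPD0 f e := by
  have hx0 : pt D.v e.1.1 e.1.2 ∈ edge D.v e := left_mem_segment ℝ _ _
  have hfin : (2178 * ⨅ x ∈ edge D.v e, D.wg (fs2 D.toPD0 f x)) ≠ ⊤ := by
    refine ENNReal.mul_ne_top (by norm_num) (ne_top_of_le_ne_top
      (D.mesh.wfin s hs q hq hsq _ (hes hx0)) ?_)
    exact iInf₂_le _ hx0
  constructor
  · have h1 : (2178 : ℝ≥0∞) ≤ 2178 * ⨅ x ∈ edge D.v e, D.wg (fs2 D.toPD0 f x) := by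
      refine le_mul_of_one_le_right zero_le ?_
      exact le_iInf₂ fun x _ => H471.one_le_wgt _
    have h2 := (ENNReal.toReal_le_toReal (by norm_num) hfin).2 h1
    have h3 : (2178 : ℝ≥0∞).toReal = 2178 := by norm_num
    rw [h3] at h2
    exact h2
  · intro w hw
    have h1 : ENNReal.ofReal w ≤ 2178 * ⨅ x ∈ edge D.v e, D.wg (fs2 D.toPD0 f x) := by
      rw [ENNReal.mul_iInf_of_ne (by norm_num) (by norm_num)]
      refine le_iInf fun x => ?_
      rw [ENNReal.mul_iInf_of_ne (by norm_num) (by norm_num)]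
      exact le_iInf fun hx => hw x (hes hx)
    exact (ENNReal.ofReal_le_iff_le_toReal hfin).1 h1

include R in
/-- **[E3] weights** -/
theorem wle (hK : D.KeySq) (hE : D.KeyEd) : D.Wle := by
  intro e he hb
  have hseg : segment ℝ (segP D.v e).1 (segP D.v e).2 = edge D.v e := rfl
  obtain ⟨r0, hr0, hf0⟩ := id he.1
  have hI : Part Ω D.v D.I := R.part
  have heΩ : edge D.v e ⊆ Ω := (Gr.edge_subset_dyc hf0).trans (hI.sub r0 hr0)
  have ha := D.a0
  have ha1 := D.a1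
  have hW4 : 4 ≤ 2 / D.a₁ := by
    rw [le_div_iff₀ ha]; linarith
  by_cases hd : D.Div e
  · have hWe : D.We e = 2 / D.a₁ * wst2 D.toPD0 f e := by
      unfold PE.We; rw [if_pos hd]
    rw [hWe]
    obtain ⟨s, hs, hes, q, hq, hsq⟩ := hd
    obtain ⟨hw0, hw1⟩ := D.wst_spec3 hs hes hq hsq
    have hwpos : 0 ≤ wst2 D.toPD0 f e := by linarith
    refine ⟨by nlinarith, fun y hy m zz ht hyt => ?_⟩
    rw [hseg] at hy
    have mono : ∀ W : ℝ, W ≤ 2 / D.a₁ * wst2 D.toPD0 f e →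
        1 / 2 ^ m ≤ W * ‖D.h.toFun y - D.c m zz‖ →
        (1 / 2 ^ m : ℝ) ≤ 2 / D.a₁ * wst2 D.toPD0 f e * ‖D.h.toFun y - D.c m zz‖ :=
      fun W hW h => h.trans (mul_le_mul_of_nonneg_right hW (norm_nonneg _))
    rcases hK s hs with ⟨q', hq', hsq', hcl⟩ | ⟨hNL, -⟩
    · have hfaces := D.mesh.faces s hs q' hq' hsq' D.h.toFun hcl
      obtain ⟨w, hw1', hw2, hw3⟩ := hfaces.2.2
      have hB : w ≤ wst2 D.toPD0 f e := hw1 w hw3
      by_cases hbox : ∀ b ∈ D.Bx, ¬ dyc 0 m zz ⊆ b.box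
      · have h1 := hw2 y (hes hy) ⟨⟨(m, zz), ht⟩, hbox⟩ (by
          show D.h.toFun y ∈ closedBall (H471.zt D.ρ 0 ⟨(m, zz), ht⟩)
            (H471.st D.ρ 0 ⟨(m, zz), ht⟩)
          rw [H471.cB_eq]; exact hyt)
        have h2 : 2 * so D.ρ D.Bx ⟨⟨(m, zz), ht⟩, hbox⟩ = 1 / 2 ^ m := by
          show 2 * (1 / 2 / 2 ^ m : ℝ) = 1 / 2 ^ m
          ring
        rw [h2] at h1
        exact mono w (by nlinarith) h1
      · push Not at hbox
        obtain ⟨b, hbB, hbt⟩ := hbox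
        have hyc : y ∈ b.cell D.A := D.in_cell b hbB y (heΩ hy) (hbt hyt)
        obtain ⟨y0, hy0, hy0c⟩ := Set.not_subset.1 (hb b hbB)
        have hyR : y ∈ boxR D.v D.n D.k₁ b.1 := ((H194.cell_sub_int D.H hbB).trans
          interior_subset) hyc
        have hnr : D.nf q = D.nr := D.nf_core3 R hq (hsq (hes hy)) (H83.gB_J D.H b hbB) hyR
        have hgen : D.nr ≤ s.1.1 := hnr ▸ D.mesh.gen s hs q hq hsq
        have hdiam : ‖y - y0‖ ≤ 1 / 2 ^ D.nr :=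
          (squ_diam (hes hy) (hes hy0)).trans (one_div_le_one_div_of_le (by positivity)
            (pow_le_pow_right₀ one_le_two hgen))
        obtain ⟨-, h2, -⟩ := D.zone b hbB y (D.near_frontier3 hyc hy0c hdiam) m zz ht hyt
        exact mono 16 (by nlinarith) h2
    · exact mono (2 / D.a₁) (by nlinarith) (D.tile_le3 (hNL y (hes hy)) ht)
  · have hWe : D.We e = 2 / D.a₁ := by
      unfold PE.We; rw [if_neg hd]
    rw [hWe]
    refine ⟨by linarith, fun y hy m zz ht hyt => ?_⟩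
    rw [hseg] at hy
    exact D.tile_le3 (hE e he hd y hy) ht

end PE

end Vale.Agent.P073.H340
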