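import Vale.Agent.P073.H193.Ext

/-!
# P073, block P2h: [PATHS]

The set of all points which must stay away from a neck is connected: own points off the discs far
from `o`, circles of discs with a far point, rays along lattice lines, and the outside of a lattice
box without the removed cubes and discs: `isPreconnected_nset`.
-/

open Set Filter Topology Metric

namespace Vale.Agent.P073.H193

open Vale.Agent.P073.St (V)
open Vale.Agent.P073.SQ (ev)
open Vale.Agent.P073.AB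
open _root_.P073.Net (dyc dyo)
open Vale.Agent.P073.AB.P86 (rel lo lo_same lo_other)

variable {v : V} {N : ℕ}

theorem ex_third (i m : Fin 3) : i ≠ m → ∃ l, l ≠ m ∧ l ≠ i := by revert i m; decide

theorem three_cases (i l m k : Fin 3) : i ≠ m → l ≠ m → l ≠ i → k = m ∨ k = i ∨ k = l := by
  revert i l m k; decide

/-- the points of the lattice lines -/
def Skel (v : V) (N : ℕ) (x : V) : Prop :=
  ∃ k l : Fin 3, k ≠ l ∧ (∃ z : ℤ, x k = v k + z / 2 ^ N) ∧ ∃ z : ℤ, x l = v l + z / 2 ^ N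

theorem not_between {a : ℝ} {z w : ℤ} (h1 : a + w / 2 ^ N < a + z / 2 ^ N)
    (h2 : a + (z : ℝ) / 2 ^ N < a + (w + 1) / 2 ^ N) : False := by
  have hp : (0:ℝ) < 2 ^ N := by positivity
  have h3 : (w : ℝ) / 2 ^ N < z / 2 ^ N := by linarith
  have h4 : (z : ℝ) / 2 ^ N < (w + 1) / 2 ^ N := by linarith
  rw [div_lt_div_iff_of_pos_right hp] at h3 h4
  have h5 : w < z := by exact_mod_cast h3
  have h6 : z < w + 1 := by exact_mod_cast h4
  omega

theorem Skel.notMem_rel {x : V} (h : Skel v N x) {s : Idx × Fin 3} (hs : s.1.1 = N) :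
    x ∉ rel v s := by
  subst hs
  obtain ⟨k, l, hkl, ⟨z, hz⟩, w, hw⟩ := h
  intro hx
  by_cases hk : k = s.2
  · have hl : l ≠ s.2 := fun h => hkl (hk.trans h.symm)
    obtain ⟨h1, h2⟩ := hx.2 l hl
    rw [hw] at h1 h2
    exact not_between h1 h2
  · obtain ⟨h1, h2⟩ := hx.2 k hk
    rw [hz] at h1 h2
    exact not_between h1 h2

theorem Skel.notMem_dyo {x : V} (h : Skel v N x) {z : Fin 3 → ℤ} : x ∉ dyo v N z := by
  obtain ⟨k, _, _, ⟨w, hw⟩, _⟩ := h
  intro hx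
  obtain ⟨h1, h2⟩ := hx k
  rw [hw] at h1 h2
  exact not_between h1 h2

/-- different lattice squares: the open one misses the closed one -/
theorem eq_of_rel_squ {s s' : Idx × Fin 3} (hs : s.1.1 = N) (hs' : s'.1.1 = N) {x : V}
    (hx : x ∈ rel v s') (hx' : x ∈ squ v s) : s' = s := by
  obtain ⟨⟨n, z⟩, k⟩ := s
  obtain ⟨⟨n', z'⟩, k'⟩ := s'
  simp only at hs hs'
  subst hs'
  subst hs
  have hk : k' = k := by
    by_contra hne
    obtain ⟨h1, h2⟩ := hx.2 k (fun h => hne h.symm)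
    have h3 := hx'.1
    simp only at h1 h2 h3
    rw [h3] at h1 h2
    exact not_between h1 h2
  subst hk
  have hp : (0:ℝ) < 2 ^ n := by positivity
  have hz : z' = z := by
    funext l
    by_cases hl : l = k'
    · subst hl
      have h1 := hx.1
      have h2 := hx'.1
      simp only at h1 h2
      rw [h1] at h2
      have h3 : (z' l : ℝ) / 2 ^ n = z l / 2 ^ n := by linarith
      rw [div_left_inj' hp.ne'] at h3
      exact_mod_cast h3
    · obtain ⟨h1, h2⟩ := hx.2 l hl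
      obtain ⟨h3, h4⟩ := hx'.2 l hl
      simp only at h1 h2 h3 h4
      have h5 : (z' l : ℝ) / 2 ^ n < (z l + 1) / 2 ^ n := by linarith
      have h6 : (z l : ℝ) / 2 ^ n < (z' l + 1) / 2 ^ n := by linarith
      rw [div_lt_div_iff_of_pos_right hp] at h5 h6
      have h7 : z' l < z l + 1 := by exact_mod_cast h5
      have h8 : z l < z' l + 1 := by exact_mod_cast h6
      omega
  rw [hz]

/-! ### The sup norm -/

theorem norm_le_of_coord {x y o : V} {i : Fin 3} (h : ∀ k, k ≠ i → x k = y k)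
    (hi : |x i - o i| ≤ |y i - o i|) : ‖x - o‖ ≤ ‖y - o‖ := by
  rw [pi_norm_le_iff_of_nonneg (norm_nonneg _)]
  intro k
  by_cases hk : k = i
  · subst hk
    exact hi.trans (norm_le_pi_norm (y - o) k)
  · rw [Pi.sub_apply, h k hk]
    exact norm_le_pi_norm (y - o) k

/-- the sign -/
noncomputable def sg (t : ℝ) : ℝ := if 0 ≤ t then 1 else -1

theorem abs_add_sg {t r : ℝ} (hr : 0 ≤ r) : |t + r * sg t| = |t| + r := by
  unfold sg
  split_ifs with h
  · rw [mul_one, abs_of_nonneg h, abs_of_nonneg (by linarith)]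
  · rw [mul_neg_one, abs_of_neg (by linarith), abs_of_neg (by linarith)]; ring

/-- the ray from `a` away from `o` along the coordinate `i` -/
noncomputable def ray (a o : V) (i : Fin 3) (t : ℝ) : V := a + (t * sg (a i - o i)) • ev i

theorem ray_apply_ne {a o : V} {i k : Fin 3} (h : k ≠ i) (t : ℝ) : ray a o i t k = a k := by
  simp [ray, ev, Pi.single_eq_of_ne h]

theorem ray_apply_self {a o : V} {i : Fin 3} (t : ℝ) :
    ray a o i t i = a i + t * sg (a i - o i) := by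
  simp [ray, ev]

@[simp] theorem ray_zero {a o : V} {i : Fin 3} : ray a o i 0 = a := by simp [ray]

theorem continuous_ray (a o : V) (i : Fin 3) : Continuous (ray a o i) := by
  unfold ray; fun_prop

theorem abs_ray {a o : V} {i : Fin 3} {t : ℝ} (ht : 0 ≤ t) :
    |ray a o i t i - o i| = |a i - o i| + t := by
  rw [ray_apply_self, show a i + t * sg (a i - o i) - o i = (a i - o i) + t * sg (a i - o i) by
    ring, abs_add_sg ht]

theorem norm_ray_ge {a o : V} {i : Fin 3} {t : ℝ} (ht : 0 ≤ t) : ‖a - o‖ ≤ ‖ray a o i t - o‖ :=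
  norm_le_of_coord (i := i) (fun k hk => (ray_apply_ne hk t).symm) (by rw [abs_ray ht]; linarith)

theorem le_norm_ray {a o : V} {i : Fin 3} {t : ℝ} (ht : 0 ≤ t) : t ≤ ‖ray a o i t - o‖ := by
  have h1 := norm_le_pi_norm (ray a o i t - o) i
  rw [Pi.sub_apply, Real.norm_eq_abs, abs_ray ht] at h1
  linarith [abs_nonneg (a i - o i)]

theorem norm_ray_sub {a o : V} {i : Fin 3} {t : ℝ} (ht : 0 ≤ t) : ‖ray a o i t - a‖ = t := by
  have h1 : ray a o i t - a = (t * sg (a i - o i)) • ev i := by simp [ray]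
  have h2 : |sg (a i - o i)| = 1 := by unfold sg; split_ifs <;> simp
  have h3 : ‖(ev i : V)‖ = 1 := by
    rw [show (ev i : V) = Pi.single i (1:ℝ) from rfl, Pi.norm_single]; simp
  rw [h1, norm_smul, Real.norm_eq_abs, abs_mul, h2, h3, abs_of_nonneg ht, mul_one, mul_one]

/-- a ray from a lattice point runs in lattice lines -/
theorem skel_ray {w : Fin 3 → ℤ} {o : V} {i : Fin 3} (t : ℝ) : Skel v N (ray (pt v N w) o i t) := by
  obtain ⟨k, hk⟩ : ∃ k : Fin 3, k ≠ i := exists_ne i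
  obtain ⟨l, hl, hlk⟩ := ex_third k i hk
  exact ⟨k, l, hlk.symm, ⟨w k, by rw [ray_apply_ne hk]; rfl⟩, w l, by rw [ray_apply_ne hl]; rfl⟩

/-! ### The paths in one square -/

/-- the disc family: discs `E i` with circles `κ i` in the open lattice squares `sq i` -/
structure DiscFam (v : V) (N : ℕ) {ι : Type*} (sq : ι → Idx × Fin 3) (E κ : ι → Set V) : Prop where
  gen : ∀ i, (sq i).1.1 = N
  closed : ∀ i, IsClosed (E i)
  sub : ∀ i, E i ⊆ rel v (sq i)
  opn : ∀ i, ∃ U, IsOpen U ∧ E i \ κ i = squ v (sq i) ∩ U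
  circ_sub : ∀ i, κ i ⊆ E i
  circ : ∀ i, IsPreconnected (κ i)
  disc : ∀ i, IsPreconnected (E i)
  disj : ∀ i j, i ≠ j → Disjoint (E i) (E j)

/-- the far good points: off all discs and far from `o`, or on the circle of a disc with a far
point -/
def Far {ι : Type*} (E κ : ι → Set V) (o : V) (c : ℝ) (x : V) : Prop :=
  ((∀ i, x ∉ E i) ∧ c < ‖x - o‖) ∨ ∃ i, x ∈ κ i ∧ ∃ e ∈ E i, c < ‖e - o‖

theorem squ_update {s : Idx × Fin 3} {e : V} (he : e ∈ squ v s) {i : Fin 3} (hi : i ≠ s.2) {t : ℝ}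
    (ht : t ∈ Icc (v i + s.1.2 i / 2 ^ s.1.1) (v i + (s.1.2 i + 1) / 2 ^ s.1.1)) :
    Function.update e i t ∈ squ v s := by
  refine ⟨by rw [Function.update_of_ne hi.symm]; exact he.1, fun k hk => ?_⟩
  by_cases hki : k = i
  · subst hki; rw [Function.update_self]; exact ht
  · rw [Function.update_of_ne hki]; exact he.2 k hk

/-- the far end of the square in direction `i`, seen from `o` -/
noncomputable def endz (o : V) (s : Idx × Fin 3) (e : V) (i : Fin 3) : ℤ :=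
  if 0 ≤ e i - o i then s.1.2 i + 1 else s.1.2 i

/-- the value of the far end -/
noncomputable def endv (v o : V) (s : Idx × Fin 3) (e : V) (i : Fin 3) : ℝ :=
  v i + endz o s e i / 2 ^ s.1.1

theorem endv_mem {s : Idx × Fin 3} {o e : V} {i : Fin 3} :
    endv v o s e i ∈ Icc (v i + s.1.2 i / 2 ^ s.1.1) (v i + (s.1.2 i + 1) / 2 ^ s.1.1) := by
  have hp : (0:ℝ) < 1 / 2 ^ s.1.1 := by positivity
  unfold endv endz
  split_ifs
  · push_cast; rw [add_div]; constructor <;> linarith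
  · rw [add_div]; constructor <;> linarith

/-- between `e i` and the far end the distance from `o` is larger -/
theorem away {s : Idx × Fin 3} {o e : V} {i : Fin 3}
    (he : e i ∈ Icc (v i + (s.1.2 i : ℝ) / 2 ^ s.1.1) (v i + (s.1.2 i + 1) / 2 ^ s.1.1)) {t : ℝ}
    (ht : t ∈ uIcc (e i) (endv v o s e i)) : |e i - o i| ≤ |t - o i| := by
  unfold endv endz at ht
  split_ifs at ht with h
  · push_cast at ht
    rw [uIcc_of_le he.2] at ht
    rw [abs_of_nonneg h, abs_of_nonneg (by linarith [ht.1])]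
    linarith [ht.1]
  · rw [uIcc_of_ge he.1] at ht
    rw [abs_of_neg (by linarith), abs_of_neg (by linarith [ht.2])]
    linarith [ht.2]

variable {ι : Type*} {sq : ι → Idx × Fin 3} {E κ : ι → Set V}

/-- **the path from a point of a square to a vertex**, away from `o`, around the discs -/
theorem DiscFam.exists_path [Finite ι] (D : DiscFam v N sq E κ) {s : Idx × Fin 3}
    (hs : s.1.1 = N) {o e : V} {c : ℝ} (he : e ∈ squ v s) (hc : c < ‖e - o‖) :
    ∃ (a : Fin 3 → ℤ) (P : Set V), IsPreconnected P ∧ pt v N a ∈ P ∧ pt v N a ∈ squ v s ∧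
      c < ‖pt v N a - o‖ ∧ (∀ x ∈ P, x ∈ squ v s ∧ (∀ i, x ∉ E i \ κ i) ∧
        (((∀ i, x ∉ E i) ∧ c < ‖x - o‖) ∨ ∃ i, sq i = s ∧ x ∈ κ i ∧ ∃ y ∈ E i, c < ‖y - o‖)) ∧
      ((∀ i, e ∉ E i) → e ∈ P) ∧ ∀ i, e ∈ E i → κ i ⊆ P := by
  classical
  obtain ⟨i, hi⟩ : ∃ i : Fin 3, i ≠ s.2 := exists_ne s.2
  obtain ⟨l, hl, hli⟩ := ex_third i s.2 hi
  -- the segment in direction `i`
  set f : ℝ → V := fun t => Function.update e i t with hf
  have hfc : Continuous f := continuous_const.update i continuous_id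
  set t1 := endv v o s e i with ht1
  set y1 : V := f t1 with hy1
  set L1 : Set V := f '' uIcc (e i) t1 with hL1
  have hL1p : IsPreconnected L1 := isPreconnected_uIcc.image _ hfc.continuousOn
  have heL : e ∈ L1 := ⟨e i, left_mem_uIcc, by simp [hf]⟩
  have hy1L : y1 ∈ L1 := ⟨t1, right_mem_uIcc, rfl⟩
  have hei := he.2 i hi
  have huI : uIcc (e i) t1 ⊆ Icc (v i + (s.1.2 i : ℝ) / 2 ^ s.1.1)
      (v i + (s.1.2 i + 1) / 2 ^ s.1.1) := uIcc_subset_Icc hei endv_mem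
  have hL1s : L1 ⊆ squ v s := by
    rintro _ ⟨t, ht, rfl⟩; exact squ_update he hi (huI ht)
  have hL1o : ∀ x ∈ L1, c < ‖x - o‖ := by
    rintro _ ⟨t, ht, rfl⟩
    refine hc.trans_le (norm_le_of_coord (i := i) (fun k hk => ?_) ?_)
    · rw [hf]; simp only; rw [Function.update_of_ne hk]
    · rw [hf]; simp only; rw [Function.update_self]; exact away hei ht
  -- the segment in direction `l`
  have hy1s : y1 ∈ squ v s := hL1s hy1L
  set g : ℝ → V := fun t => Function.update y1 l t with hg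
  have hgc : Continuous g := continuous_const.update l continuous_id
  set t2 := endv v o s y1 l with ht2
  set y2 : V := g t2 with hy2
  set L2 : Set V := g '' uIcc (y1 l) t2 with hL2
  have hL2p : IsPreconnected L2 := isPreconnected_uIcc.image _ hgc.continuousOn
  have hy1L2 : y1 ∈ L2 := ⟨y1 l, left_mem_uIcc, by simp [hg]⟩
  have hy2L2 : y2 ∈ L2 := ⟨t2, right_mem_uIcc, rfl⟩
  have hyl := hy1s.2 l hl
  have huL : uIcc (y1 l) t2 ⊆ Icc (v l + (s.1.2 l : ℝ) / 2 ^ s.1.1)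
      (v l + (s.1.2 l + 1) / 2 ^ s.1.1) := uIcc_subset_Icc hyl endv_mem
  have hL2s : L2 ⊆ squ v s := by
    rintro _ ⟨t, ht, rfl⟩; exact squ_update hy1s hl (huL ht)
  have hL2o : ∀ x ∈ L2, c < ‖x - o‖ := by
    rintro _ ⟨t, ht, rfl⟩
    refine (hL1o y1 hy1L).trans_le (norm_le_of_coord (i := l) (fun k hk => ?_) ?_)
    · rw [hg]; simp only; rw [Function.update_of_ne hk]
    · rw [hg]; simp only; rw [Function.update_self]; exact away hyl ht
  have hy1i : y1 i = v i + (endz o s e i : ℝ) / 2 ^ N := by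
    rw [hy1, hf]; simp only; rw [Function.update_self, ht1, ← hs]; rfl
  have hL2k : ∀ x ∈ L2, Skel v N x := by
    rintro _ ⟨t, ht, rfl⟩
    refine ⟨s.2, i, hi.symm, ⟨s.1.2 s.2, ?_⟩, endz o s e i, ?_⟩
    · rw [← hs]; exact (hL2s ⟨t, ht, rfl⟩).1
    · rw [hg]; simp only; rw [Function.update_of_ne hli.symm]; exact hy1i
  -- the discs met by the first segment
  set K : Set ι := {j | (E j ∩ L1).Nonempty} with hK
  have hKs : ∀ j ∈ K, sq j = s := fun j ⟨x, hx, hxL⟩ =>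
    eq_of_rel_squ hs (D.gen j) (D.sub j hx) (hL1s hxL)
  set X : Set V := L1 ∪ ⋃ j ∈ K, E j with hX
  have hXs : X ⊆ squ v s := by
    rintro x (hx | hx)
    · exact hL1s hx
    · obtain ⟨j, hj, hxj⟩ := mem_iUnion₂.1 hx
      rw [← hKs j hj]; exact P86.rel_sub (D.sub j hxj)
  have hXp : IsPreconnected X := by
    have h1 : X = ⋃₀ (insert L1 ((fun j => L1 ∪ E j) '' K)) := by
      ext x
      simp only [hX, mem_union, mem_iUnion, sUnion_insert, sUnion_image, exists_prop]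
      constructor
      · rintro (h | ⟨j, hj, hx⟩)
        · exact Or.inl h
        · exact Or.inr ⟨j, hj, Or.inr hx⟩
      · rintro (h | ⟨j, hj, h | hx⟩)
        · exact Or.inl h
        · exact Or.inl h
        · exact Or.inr ⟨j, hj, hx⟩
    rw [h1]
    refine isPreconnected_sUnion e _ ?_ ?_
    · rintro _ (rfl | ⟨j, _, rfl⟩)
      · exact heL
      · exact Or.inl heL
    · rintro _ (rfl | ⟨j, ⟨x, hx, hxL⟩, rfl⟩)
      · exact hL1p
      · exact hL1p.union x hxL hx (D.disc j)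
  have hby : IsPreconnected (X \ ⋃ j : K, (E j.1 \ κ j.1)) := by
    refine bypass_fin (C := fun j : K => κ j.1) hXp (fun j => ?_) (fun j j' hjj => ?_)
      (fun j => D.circ j.1) (fun j x hx => ?_) (fun j x hx => ?_)
    · obtain ⟨U, hU, hEq⟩ := D.opn j.1
      refine ⟨U, hU, ?_⟩
      apply Subset.antisymm
      · intro x hx
        refine ⟨Or.inr (mem_iUnion₂.2 ⟨j.1, j.2, hx.1⟩), ?_⟩
        have : x ∈ squ v (sq j.1) ∩ U := hEq ▸ hx
        exact this.2
      · rintro x ⟨hx, hxU⟩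
        rw [hEq, hKs j.1 j.2]
        exact ⟨hXs hx, hxU⟩
    · exact (D.disj j.1 j'.1 fun h => hjj (Subtype.ext h)).mono sdiff_subset sdiff_subset
    · refine ⟨Or.inr (mem_iUnion₂.2 ⟨j.1, j.2, D.circ_sub _ hx⟩), fun h => ?_⟩
      obtain ⟨j', hj'⟩ := mem_iUnion.1 h
      rcases eq_or_ne j j' with rfl | hne
      · exact hj'.2 hx
      · exact disjoint_left.1 (D.disj j.1 j'.1 fun h => hne (Subtype.ext h)) (D.circ_sub _ hx)
          hj'.1
    · have h1 : x ∈ E j.1 := closure_minimal sdiff_subset (D.closed j.1) hx.2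
      by_cases h2 : x ∈ κ j.1
      · exact Or.inr h2
      · exact Or.inl ⟨h1, h2⟩
  set P1 := X \ ⋃ j : K, (E j.1 \ κ j.1) with hP1
  have hL2E : ∀ x ∈ L2, ∀ j, x ∉ E j := fun x hx j hj =>
    (hL2k x hx).notMem_rel (D.gen j) (D.sub j hj)
  have hy1P : y1 ∈ P1 := by
    refine ⟨Or.inl hy1L, fun h => ?_⟩
    obtain ⟨j, hj⟩ := mem_iUnion.1 h
    exact hL2E y1 hy1L2 j.1 hj.1
  -- the vertex
  set a : Fin 3 → ℤ := fun k => if k = s.2 then s.1.2 k else if k = i then endz o s e i else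
    endz o s y1 l with ha
  have hpt : pt v N a = y2 := by
    funext k
    rcases three_cases i l s.2 k hi hl hli with rfl | rfl | rfl
    · have h1 := (hL2s hy2L2).1
      rw [h1]
      simp only [pt, ha, if_true, ← hs]
    · rw [hy2, hg]; simp only; rw [Function.update_of_ne hli.symm, hy1i]
      simp only [pt, ha, if_neg hi, if_true]
    · rw [hy2, hg]; simp only; rw [Function.update_self, ht2]
      simp only [pt, ha, if_neg hl, if_neg hli, endv, ← hs]
  refine ⟨a, P1 ∪ L2, hby.union y1 hy1P hy1L2 hL2p, ?_, ?_, ?_, fun x hx => ?_, fun h => ?_,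
    fun j hj x hx => ?_⟩
  · rw [hpt]; exact Or.inr hy2L2
  · rw [hpt]; exact hL2s hy2L2
  · rw [hpt]; exact hL2o y2 hy2L2
  · rcases hx with hx | hx
    · have hxs := hXs hx.1
      have hnE : ∀ j, x ∉ E j \ κ j := by
        intro j hj
        have hsj : sq j = s := eq_of_rel_squ hs (D.gen j) (D.sub j hj.1) hxs
        by_cases hjK : j ∈ K
        · exact hx.2 (mem_iUnion.2 ⟨⟨j, hjK⟩, hj⟩)
        · rcases hx.1 with h1 | h1
          · exact hjK ⟨x, hj.1, h1⟩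
          · obtain ⟨j', hj', hxj'⟩ := mem_iUnion₂.1 h1
            have hne : j ≠ j' := fun h => hjK (h ▸ hj')
            exact disjoint_left.1 (D.disj j j' hne) hj.1 hxj'
      refine ⟨hxs, hnE, ?_⟩
      by_cases hxE : ∀ j, x ∉ E j
      · left
        refine ⟨hxE, ?_⟩
        rcases hx.1 with h1 | h1
        · exact hL1o x h1
        · obtain ⟨j', _, hxj'⟩ := mem_iUnion₂.1 h1
          exact absurd hxj' (hxE j')
      · right
        push Not at hxE
        obtain ⟨j, hj⟩ := hxE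
        have hjκ : x ∈ κ j := by
          by_contra hc'
          exact hnE j ⟨hj, hc'⟩
        have hjK : j ∈ K := by
          rcases hx.1 with h1 | h1
          · exact ⟨x, hj, h1⟩
          · obtain ⟨j', hj', hxj'⟩ := mem_iUnion₂.1 h1
            have : j = j' := by
              by_contra hne
              exact disjoint_left.1 (D.disj j j' hne) hj hxj'
            rw [this]; exact hj'
        obtain ⟨y, hy, hyL⟩ := hjK
        exact ⟨j, eq_of_rel_squ hs (D.gen j) (D.sub j hj) hxs, hjκ, y, hy, hL1o y hyL⟩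
    · exact ⟨hL2s hx, fun j hj => hL2E x hx j hj.1, Or.inl ⟨hL2E x hx, hL2o x hx⟩⟩
  · left
    refine ⟨Or.inl heL, fun h' => ?_⟩
    obtain ⟨j, hj⟩ := mem_iUnion.1 h'
    exact h j.1 hj.1
  · left
    have hjK : j ∈ K := ⟨e, hj, heL⟩
    refine ⟨Or.inr (mem_iUnion₂.2 ⟨j, hjK, D.circ_sub j hx⟩), fun h' => ?_⟩
    obtain ⟨j', hj'⟩ := mem_iUnion.1 h'
    rcases eq_or_ne j j'.1 with h | hne
    · subst h; exact hj'.2 hx
    · exact disjoint_left.1 (D.disj j j'.1 hne) (D.circ_sub _ hx) hj'.1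

/-! ### The set of the points which must stay away from a neck -/

/-- a set with a connected hub -/
theorem isPreconnected_of_hub {α : Type*} [TopologicalSpace α] {M X : Set α}
    (hX : IsPreconnected X) (hXM : X ⊆ M)
    (h : ∀ x ∈ M, ∃ C ⊆ M, IsPreconnected C ∧ x ∈ C ∧ (C ∩ X).Nonempty) : IsPreconnected M := by
  refine isPreconnected_of_forall_pair fun x hx y hy => ?_
  obtain ⟨C, hCM, hC, hxC, z, hz, hzX⟩ := h x hx
  obtain ⟨C', hCM', hC', hyC', z', hz', hzX'⟩ := h y hy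
  refine ⟨(C ∪ X) ∪ C', union_subset (union_subset hCM hXM) hCM', Or.inl (Or.inl hxC),
    Or.inr hyC', ?_⟩
  exact (hC.union z hz hzX hX).union z' (Or.inr hzX') hz' hC'

/-- the outside: without the lattice box, the removed cubes and the open discs -/
def outer (Ω : Set V) (v : V) (N : ℕ) (A B : Fin 3 → ℤ) (S : Set (Fin 3 → ℤ)) {ι : Type*}
    (E κ : ι → Set V) : Set V :=
  (Ω \ (lbo v N A B ∪ ⋃ z ∈ S, dyo v N z)) \ ⋃ i, (E i \ κ i)

/-- the own part of one cell: squares `Own`, centre `o`; `T` the lengths of the rays -/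
def inner (v : V) (N : ℕ) {ι : Type*} (sq : ι → Idx × Fin 3) (E κ : ι → Set V)
    (Own : Set (Idx × Fin 3)) (o : V) (c : ℝ) (i₀ : Fin 3) (T : (Fin 3 → ℤ) → ℝ) : Set V :=
  {x | ∃ s ∈ Own, x ∈ squ v s ∧ (∀ i, x ∉ E i) ∧ c < ‖x - o‖} ∪
  {x | ∃ i, sq i ∈ Own ∧ x ∈ κ i ∧ ∃ e ∈ E i, c < ‖e - o‖} ∪
  {x | ∃ s ∈ Own, ∃ w : Fin 3 → ℤ, pt v N w ∈ squ v s ∧ c < ‖pt v N w - o‖ ∧
    ∃ t ∈ Icc 0 (T w), x = ray (pt v N w) o i₀ t}

/-- **the set `N j`**: outside and the own parts of all cells -/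
def nset (Ω : Set V) (v : V) (N : ℕ) (A B : Fin 3 → ℤ) (S : Set (Fin 3 → ℤ)) {ι : Type*}
    (sq : ι → Idx × Fin 3) (E κ : ι → Set V) {Z : Type*} (Own : Z → Set (Idx × Fin 3))
    (o : Z → V) (c : ℝ) (i₀ : Fin 3) (T : Z → (Fin 3 → ℤ) → ℝ) : Set V :=
  outer Ω v N A B S E κ ∪ ⋃ z, inner v N sq E κ (Own z) (o z) c i₀ (T z)

variable {Ω : Set V} {A B : Fin 3 → ℤ} {S : Set (Fin 3 → ℤ)} {Z : Type*}
  {Own : Z → Set (Idx × Fin 3)} {o : Z → V} {c : ℝ} {i₀ : Fin 3} {T : Z → (Fin 3 → ℤ) → ℝ}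

theorem DiscFam.skel_outer (D : DiscFam v N sq E κ) {x : V} (hx : Skel v N x) (hxΩ : x ∈ Ω)
    (hxB : x ∉ lbo v N A B) : x ∈ outer Ω v N A B S E κ := by
  refine ⟨⟨hxΩ, ?_⟩, fun h => ?_⟩
  · rintro (h | h)
    · exact hxB h
    · obtain ⟨z, _, hz⟩ := mem_iUnion₂.1 h
      exact hx.notMem_dyo hz
  · obtain ⟨i, hi⟩ := mem_iUnion.1 h
    exact hx.notMem_rel (D.gen i) (D.sub i hi.1)

/-- the rays: in `Ω`, until outside of the box -/
def RayOK (Ω : Set V) (v : V) (N : ℕ) (A B : Fin 3 → ℤ) (Own : Set (Idx × Fin 3)) (o : V) (c : ℝ)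
    (i₀ : Fin 3) (T : (Fin 3 → ℤ) → ℝ) : Prop :=
  ∀ s ∈ Own, ∀ w : Fin 3 → ℤ, pt v N w ∈ squ v s → c < ‖pt v N w - o‖ →
    0 ≤ T w ∧ (∀ t ∈ Icc 0 (T w), ray (pt v N w) o i₀ t ∈ Ω) ∧
      ray (pt v N w) o i₀ (T w) ∉ lbo v N A B

/-- **[PATHS]**: `N j` is connected -/
theorem isPreconnected_nset [Finite ι] (D : DiscFam v N sq E κ) (hΩ : IsPreconnected Ω)
    (hAB : ∀ k, A k < B k) (hD : lbc v N A B ⊆ Ω) (hS : S.Finite) (hSΩ : ∀ z ∈ S, dyc v N z ⊆ Ω)
    (hs1 : ∀ i, (sq i).1.2 ∈ S) (hs2 : ∀ i, lo (sq i) ∈ S)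
    (hOwn : ∀ z, ∀ s ∈ Own z, s.1.1 = N)
    (hT : ∀ z, RayOK Ω v N A B (Own z) (o z) c i₀ (T z)) :
    IsPreconnected (nset Ω v N A B S sq E κ Own o c i₀ T) := by
  have hO : IsPreconnected (outer Ω v N A B S E κ) :=
    ext_disc hΩ hAB hD hS hSΩ D.gen hs1 hs2 D.closed D.sub D.opn D.circ_sub D.circ D.disj
  refine isPreconnected_of_hub hO subset_union_left fun x hx => ?_
  rcases hx with hx | hx
  · exact ⟨outer Ω v N A B S E κ, subset_union_left, hO, hx, x, hx, hx⟩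
  obtain ⟨z, hz⟩ := mem_iUnion.1 hx
  have hsub : inner v N sq E κ (Own z) (o z) c i₀ (T z) ⊆ nset Ω v N A B S sq E κ Own o c i₀ T :=
    fun y hy => Or.inr (mem_iUnion.2 ⟨z, hy⟩)
  -- rays
  have hray : ∀ s ∈ Own z, ∀ w : Fin 3 → ℤ, pt v N w ∈ squ v s → c < ‖pt v N w - o z‖ →
      ∃ C ⊆ inner v N sq E κ (Own z) (o z) c i₀ (T z), IsPreconnected C ∧
        (∀ t ∈ Icc 0 (T z w), ray (pt v N w) (o z) i₀ t ∈ C) ∧
        (C ∩ outer Ω v N A B S E κ).Nonempty := by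
    intro s hs w hw hwc
    obtain ⟨hT0, hT1, hT2⟩ := hT z s hs w hw hwc
    refine ⟨ray (pt v N w) (o z) i₀ '' Icc 0 (T z w), ?_,
      isPreconnected_Icc.image _ (continuous_ray _ _ _).continuousOn,
      fun t ht => mem_image_of_mem _ ht, ray (pt v N w) (o z) i₀ (T z w),
      mem_image_of_mem _ (right_mem_Icc.2 hT0), ?_⟩
    · rintro _ ⟨t, ht, rfl⟩
      exact Or.inr ⟨s, hs, w, hw, hwc, t, ht, rfl⟩
    · exact D.skel_outer (skel_ray _) (hT1 _ (right_mem_Icc.2 hT0)) hT2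
  -- a path in a square and a ray
  have hpath : ∀ s ∈ Own z, ∀ e ∈ squ v s, c < ‖e - o z‖ →
      ∃ C ⊆ inner v N sq E κ (Own z) (o z) c i₀ (T z), IsPreconnected C ∧
        ((∀ i, e ∉ E i) → e ∈ C) ∧ (∀ i, e ∈ E i → κ i ⊆ C) ∧
        (C ∩ outer Ω v N A B S E κ).Nonempty := by
    intro s hs e he hec
    obtain ⟨w, P, hP, hwP, hws, hwc, hPs, h1, h2⟩ := D.exists_path (hOwn z s hs) he hec
    obtain ⟨C, hC, hCp, hC1, y, hy1, hy2⟩ := hray s hs w hws hwc
    have hT0 := (hT z s hs w hws hwc).1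
    have hwC : pt v N w ∈ C := by
      have := hC1 0 (left_mem_Icc.2 hT0)
      rwa [ray_zero] at this
    refine ⟨P ∪ C, union_subset (fun x hx => ?_) hC, hP.union _ hwP hwC hCp,
      fun h => Or.inl (h1 h), fun i hi => (h2 i hi).trans subset_union_left, y, Or.inr hy1, hy2⟩
    obtain ⟨hxs, _, h | ⟨i, hi, hxi, y', hy', hyc⟩⟩ := hPs x hx
    · exact Or.inl (Or.inl ⟨s, hs, hxs, h.1, h.2⟩)
    · exact Or.inl (Or.inr ⟨i, hi ▸ hs, hxi, y', hy', hyc⟩)
  rcases hz with (⟨s, hs, hxs, hxE, hxc⟩ | ⟨i, hi, hxi, e, he, hec⟩) | ⟨s, hs, w, hw, hwc, t, ht, rfl⟩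
  · obtain ⟨C, hC, hCp, h1, _, h3⟩ := hpath s hs x hxs hxc
    exact ⟨C, hC.trans hsub, hCp, h1 hxE, h3⟩
  · obtain ⟨C, hC, hCp, _, h2, h3⟩ := hpath (sq i) hi e (P86.rel_sub (D.sub i he)) hec
    exact ⟨C, hC.trans hsub, hCp, h2 i he hxi, h3⟩
  · obtain ⟨C, hC, hCp, hC1, h3⟩ := hray s hs w hw hwc
    exact ⟨C, hC.trans hsub, hCp, hC1 t ht, h3⟩

theorem nset_sub (D : DiscFam v N sq E κ) (hOwnΩ : ∀ z, ∀ s ∈ Own z, squ v s ⊆ Ω)
    (hT : ∀ z, RayOK Ω v N A B (Own z) (o z) c i₀ (T z)) :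
    nset Ω v N A B S sq E κ Own o c i₀ T ⊆ Ω := by
  rintro x (hx | hx)
  · exact hx.1.1
  obtain ⟨z, hz⟩ := mem_iUnion.1 hx
  rcases hz with (⟨s, hs, hxs, -⟩ | ⟨i, hi, hxi, -⟩) | ⟨s, hs, w, hw, hwc, t, ht, rfl⟩
  · exact hOwnΩ z s hs hxs
  · exact hOwnΩ z _ hi (P86.rel_sub (D.sub i (D.circ_sub i hxi)))
  · exact (hT z s hs w hw hwc).2.1 t ht

/-- a lattice square misses the open lattice cubes -/
theorem squ_disj_dyo {s : Idx × Fin 3} {w : Fin 3 → ℤ} (hs : s.1.1 = N) {x : V}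
    (hx : x ∈ squ v s) : x ∉ dyo v N w := by
  intro h
  have h1 := h s.2
  rw [hx.1, hs] at h1
  exact not_between h1.1 h1.2

/-- `N j` misses the removed open cubes -/
theorem nset_cube (D : DiscFam v N sq E κ) (hOwn : ∀ z, ∀ s ∈ Own z, s.1.1 = N)
    {w : Fin 3 → ℤ} (hw : w ∈ S) {x : V} (hx : x ∈ nset Ω v N A B S sq E κ Own o c i₀ T) :
    x ∉ dyo v N w := by
  rcases hx with hx | hx
  · exact fun h => hx.1.2 (Or.inr (mem_iUnion₂.2 ⟨w, hw, h⟩))
  obtain ⟨z, hz⟩ := mem_iUnion.1 hx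
  rcases hz with (⟨s, hs, hxs, -⟩ | ⟨i, hi, hxi, -⟩) | ⟨s, hs, w', hw', hwc, t, ht, rfl⟩
  · exact squ_disj_dyo (hOwn z s hs) hxs
  · exact squ_disj_dyo (D.gen i) (P86.rel_sub (D.sub i (D.circ_sub i hxi)))
  · exact (skel_ray t).notMem_dyo

/-- `N j` misses the open discs -/
theorem nset_disc (D : DiscFam v N sq E κ) (i : ι) {x : V}
    (hx : x ∈ nset Ω v N A B S sq E κ Own o c i₀ T) : x ∉ E i \ κ i := by
  rcases hx with hx | hx
  · exact fun h => hx.2 (mem_iUnion.2 ⟨i, h⟩)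
  obtain ⟨z, hz⟩ := mem_iUnion.1 hx
  rcases hz with (⟨s, hs, hxs, hxE, -⟩ | ⟨j, hj, hxj, -⟩) | ⟨s, hs, w', hw', hwc, t, ht, rfl⟩
  · exact fun h => hxE i h.1
  · intro h
    rcases eq_or_ne i j with rfl | hne
    · exact h.2 hxj
    · exact disjoint_left.1 (D.disj i j hne) h.1 (D.circ_sub j hxj)
  · exact fun h => (skel_ray t).notMem_rel (D.gen i) (D.sub i h.1)

/-- `N j` contains everything off a compact set -/
theorem nset_far (D : DiscFam v N sq E κ) (hD : lbc v N A B ⊆ Ω) (hS : S.Finite)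
    (hSΩ : ∀ z ∈ S, dyc v N z ⊆ Ω) (hs1 : ∀ i, (sq i).1.2 ∈ S) :
    ∃ L ⊆ Ω, IsCompact L ∧ Ω \ L ⊆ nset Ω v N A B S sq E κ Own o c i₀ T := by
  refine ⟨lbc v N A B ∪ ⋃ z ∈ S, dyc v N z, union_subset hD (iUnion₂_subset hSΩ),
    (isCompact_cbx _ _).union (hS.isCompact_biUnion fun z _ => ?_), fun x hx => Or.inl ?_⟩
  · rw [dyc_eq]; exact isCompact_cbx _ _
  · refine ⟨⟨hx.1, ?_⟩, fun h => ?_⟩
    · rintro (h | h)
      · exact hx.2 (Or.inl (obx_sub_cbx h))
      · obtain ⟨z, hz, hxz⟩ := mem_iUnion₂.1 h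
        exact hx.2 (Or.inr (mem_iUnion₂.2 ⟨z, hz, P86.dyo_sub_dyc hxz⟩))
    · obtain ⟨i, hi⟩ := mem_iUnion.1 h
      refine hx.2 (Or.inr (mem_iUnion₂.2 ⟨_, hs1 i, ?_⟩))
      have := P86.squ_sub_hi (P86.rel_sub (D.sub i hi.1))
      rw [D.gen i] at this; exact this

/-- **the metric part**: the image of `N j` misses the closed ball.  `Af z` the affine maps of the
cells, `Af z (o z) = b`; `β` the closeness on the own squares, `κ'` the slope along the rays -/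
theorem nset_image (D : DiscFam v N sq E κ) {h : V → V} {b : V} {ρ β κ' θ d : ℝ}
    {Af : Z → V → V} (hA : ∀ z x y, θ * ‖x - y‖ ≤ ‖Af z x - Af z y‖) (hAo : ∀ z, Af z (o z) = b)
    (hθ : 0 < θ) (hκ' : κ' ≤ θ / 2) (hβ : 0 ≤ β) (hd0 : 0 ≤ d) (hρ : 0 ≤ ρ)
    (hout : ∀ x ∈ Ω, x ∉ lbo v N A B → ρ < ‖h x - b‖)
    (hown : ∀ z, ∀ s ∈ Own z, ∀ x ∈ squ v s, (∀ i, x ∉ E i \ κ i) → ‖h x - Af z x‖ ≤ β)
    (hray : ∀ z, ∀ s ∈ Own z, ∀ w : Fin 3 → ℤ, pt v N w ∈ squ v s → c < ‖pt v N w - o z‖ →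
      ∀ t ∈ Icc 0 (T z w), ‖h (ray (pt v N w) (o z) i₀ t) - Af z (ray (pt v N w) (o z) i₀ t)‖ ≤
        β + κ' * t)
    (hd : ∀ i, ∀ x ∈ E i, ∀ y ∈ E i, ‖x - y‖ ≤ d) (hc : ρ + β < θ * (c - d) / 2) :
    ∀ x ∈ nset Ω v N A B S sq E κ Own o c i₀ T, ρ < ‖h x - b‖ := by
  have hcd : 0 < c - d := by
    by_contra hn
    have := mul_nonpos_of_nonneg_of_nonpos hθ.le (not_lt.1 hn)
    linarith
  intro x hx
  rcases hx with hx | hx
  · exact hout x hx.1.1 fun h => hx.1.2 (Or.inl h)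
  obtain ⟨z, hz⟩ := mem_iUnion.1 hx
  have key : ∀ y : V, θ * ‖y - o z‖ - ‖h y - Af z y‖ ≤ ‖h y - b‖ := by
    intro y
    have h1 := hA z y (o z)
    rw [hAo] at h1
    have h2 : ‖Af z y - b‖ ≤ ‖h y - Af z y‖ + ‖h y - b‖ := by
      rw [show Af z y - b = -(h y - Af z y) + (h y - b) by abel]
      refine (norm_add_le _ _).trans ?_
      rw [norm_neg]
    linarith
  rcases hz with (⟨s, hs, hxs, hxE, hxc⟩ | ⟨i, hi, hxi, e, he, hec⟩) |
    ⟨s, hs, w, hw, hwc, t, ht, rfl⟩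
  · have h1 := key x
    have h2 := hown z s hs x hxs fun i hi => hxE i hi.1
    have h3 : θ * c ≤ θ * ‖x - o z‖ := mul_le_mul_of_nonneg_left hxc.le hθ.le
    nlinarith [mul_nonneg hθ.le hd0]
  · have h1 := key x
    have hxE := D.circ_sub i hxi
    have h2 := hown z _ hi x (P86.rel_sub (D.sub i hxE)) fun j hj => by
      rcases eq_or_ne j i with rfl | hne
      · exact hj.2 hxi
      · exact disjoint_left.1 (D.disj j i hne) hj.1 hxE
    have h3 : c - d ≤ ‖x - o z‖ := by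
      have h4 := hd i e he x hxE
      have h5 : ‖e - o z‖ ≤ ‖e - x‖ + ‖x - o z‖ := by
        rw [show e - o z = (e - x) + (x - o z) by abel]; exact norm_add_le _ _
      linarith
    have h4 : θ * (c - d) ≤ θ * ‖x - o z‖ := mul_le_mul_of_nonneg_left h3 hθ.le
    have h5 : 0 < θ * (c - d) := mul_pos hθ hcd
    linarith
  · have h1 := key (ray (pt v N w) (o z) i₀ t)
    have h2 := hray z s hs w hw hwc t ht
    have h3 := norm_ray_ge (a := pt v N w) (o := o z) (i := i₀) ht.1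
    have h4 := le_norm_ray (a := pt v N w) (o := o z) (i := i₀) ht.1
    set X := ‖ray (pt v N w) (o z) i₀ t - o z‖
    have h5 : κ' * t ≤ θ / 2 * X :=
      (mul_le_mul_of_nonneg_right hκ' ht.1).trans (mul_le_mul_of_nonneg_left h4 (by linarith))
    have h6 : θ / 2 * (c - d) ≤ θ / 2 * X :=
      mul_le_mul_of_nonneg_left (by linarith) (by linarith)
    linarith

end Vale.Agent.P073.H193
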