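import Vale.Agent.P073.H239.FSpec2
import Vale.Agent.P073.H911.DeepVol

/-!
# P073, block B10, [PL-F]: the middle plane (`H239.SpecPlF`)
-/

open Set Metric Topology Filter MeasureTheory
open scoped ENNReal

namespace Vale.Agent.P073.H193

open Vale.Agent.P073.St (V Mat)
open Vale.Agent.P073.AB (Idx squ)
open Vale.Agent.P073.H194 (Rg up sc_up squ_sub_Rg minSq_rect minEdge_rect cov_rect)
open Vale.Agent.P073.H235 (rect redge)
open Vale.Agent.P073.H696 (blk blkS part1)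
open Vale.Agent.P073.H239 (PlB SpecPlF)
open _root_.P073.Net (dyc dyo)

/-- the cubes of `part1` which contain a point off the boxes are cubes of `I` -/
theorem mem_of_part1 {v : V} {K : Set Idx} {n k₁ : Idx → ℕ} {I : Set Idx} {q : Idx} {x : V}
    (hn : ∀ k ∈ K, k.1 ≤ n k) (hq : q ∈ part1 v K n k₁ I) (hx : x ∈ dyc v q.1 q.2)
    (hoff : ∀ k ∈ K, x ∉ dyc v k.1 k.2) : q ∈ I := by
  rcases hq with hq | ⟨k, hk, -, z, hz, hqz⟩
  · exact hq.1
  · refine absurd ?_ (hoff k hk)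
    exact AB.P86.dyo_sub_dyc (H911.blkS_sub (hn k hk) (mem_iUnion₂.2 ⟨z, hz, hqz hx⟩))

/-- **[PL-F]** -/
theorem specPlF : SpecPlF := by
  intro p Cu Lc δ j ε θ ν τ Λ f F v X I k₁ m₀ nS B α β hθ hν hmid hτ hα2 hlt hquad hsize hR hcov
    hI₁ hbox hmn hgen
  have hn : ∀ k ∈ X.K, k.1 ≤ X.n k := fun k hk => by
    have := (X.box k hk).2.1
    omega
  have hSc := sc_up hmn α β
  have hR' : ∀ x ∈ Rg v m₀ α β, ∀ q ∈ X.I₁, x ∈ dyc v q.1 q.2 → q.1 = nS := by
    intro x hx q hq hxq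
    rw [hI₁] at hq
    exact hgen x hx q (mem_of_part1 hn hq hxq fun k hk h => disjoint_left.1 (hbox k hk) h hx) hxq
  have hpow : (0:ℤ) < 2 ^ (nS - m₀) := by positivity
  have e1 : (2:ℤ) ^ nS = 2 ^ (nS - m₀) * 2 ^ m₀ := by
    rw [← pow_add, Nat.sub_add_cancel hmn]
  have e0 : ∀ i, up m₀ nS β i - up m₀ nS α i = 2 ^ (nS - m₀) * (β i - α i) := fun i => by
    unfold up; ring
  refine ⟨?_, ?_, ⟨?_, ?_⟩, ?_, ?_, ?_, ?_, ?_⟩
  · unfold up
    exact mul_lt_mul_of_pos_left hlt hpow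
  · rw [e0, e0, hquad]
  · rw [e0, e1]
    exact mul_le_mul_of_nonneg_left hsize.1 hpow.le
  · rw [e0, e1]
    calc (2:ℤ) ^ (nS - m₀) * 2 ^ m₀ ≤ 2 ^ (nS - m₀) * (2 * (β 0 - α 0)) :=
          mul_le_mul_of_nonneg_left hsize.2 hpow.le
      _ = _ := by ring
  · rw [hSc.div_a 2, hα2]
    exact hmid.trans hτ
  · exact fun k hk => minSq_rect X.st.part hR hSc hR' hk
  · exact fun i hi k hk => minEdge_rect X.st.part hR hSc hR' hi hk
  · intro x hx
    refine cov_rect hSc x (fun j hj => ?_) (hcov x hx)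
    fin_cases j
    · exact hlt
    · have : (0:ℤ) < β 1 - α 1 := by rw [hquad]; linarith
      show α 1 < β 1
      linarith
    · exact absurd rfl hj
  · intro k hk q hq
    obtain ⟨k', hk', hqk⟩ := X.st.inBox q hq
    exact (hbox k' hk').mono hqk (squ_sub_Rg hSc hk)

end Vale.Agent.P073.H193
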