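import Vale.Agent.P073.H253.R1Parts
import Vale.Agent.P073.H233.FaceInt
import Vale.Agent.P073.H687.MinSum
import Vale.Agent.P073.H880.AsmS1

/-!
# P073, H193 ([PLANE-SUM]): from the energies of the squares to the integral over the plane
-/

open Set MeasureTheory Metric Topology Filter
open scoped ENNReal

namespace Vale.Agent.P073.H193

open Vale.Agent.P073.St (V)
open Vale.Agent.P073.SQ (ev cube)
open Vale.Agent.P073.AB Vale.Agent.P073.AB.P86
open Vale.Agent.P073.H73 (MinEdge segP onSeg faceL)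
open Vale.Agent.P073.H253 (rectN redgeN)
open _root_.P073 (ConHomeo)
open _root_.P073.Net (dyc dyo)

section part

variable {Ω : Set V} {v : V} {I : Set Idx}

/-- a minimal edge inside a minimal edge is the same edge -/
theorem eq_of_sub_minEdge (hI : Part Ω v I) {e e₀ : Idx × Fin 3} (he : MinEdge v I e)
    (he₀ : MinEdge v I e₀) (h : edge v e ⊆ edge v e₀) : e = e₀ := by
  by_contra hne
  have hm := Gr.mid_spec v e
  exact Gr.not_inner hI he he₀ hne hm.1 (h hm.1) hm.2

/-- the sum over the minimal edges of a square whose sides are minimal edges -/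
theorem tsum_minEdge_le (hΩ : IsOpen Ω) (hI : Part Ω v I) {s : Idx × Fin 3} (hs : MinSq v I s)
    (hsE : ∀ e ∈ sqE s, MinEdge v I e) (w : Idx × Fin 3 → ℝ≥0∞) :
    ∑' e : {e : Idx × Fin 3 // MinEdge v I e ∧ edge v e ⊆ squ v s}, w e.1 ≤
      ∑ e ∈ sqE s, w e := by
  rw [H687.tsum_minEdge hI hs w]
  refine Finset.sum_le_sum_of_subset fun e he => ?_
  have he' : MinEdge v I e ∧ edge v e ⊆ squ v s := by simpa using he
  obtain ⟨e₀, h1, h2⟩ := H687.minEdge_sub hΩ hI hs he'.1 he'.2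
  have h3 := mem_sqE.2 h1
  rw [eq_of_sub_minEdge hI he'.1 (hsE e₀ h3) h2]
  exact h3

end part

/-! ### The combinatorics of the rectangle -/

section comb

variable {l i : Fin 3} {a b : Fin 3 → ℤ} {n : ℕ} {k k' : Fin 3 → ℤ}

theorem mem_rectN : k ∈ rectN l a b ↔ k l = a l ∧ ∀ j, j ≠ l → a j ≤ k j ∧ k j < b j := by
  unfold rectN
  rw [Fintype.mem_piFinset]
  constructor
  · intro h
    refine ⟨?_, fun j hj => ?_⟩
    · have := h l
      rw [if_pos rfl] at this
      exact Finset.mem_singleton.1 this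
    · have := h j
      rw [if_neg hj] at this
      exact Finset.mem_Ico.1 this
  · rintro ⟨h1, h2⟩ j
    by_cases hj : j = l
    · subst hj
      rw [if_pos rfl]
      exact Finset.mem_singleton.2 h1
    · rw [if_neg hj]
      exact Finset.mem_Ico.2 (h2 j hj)

theorem mem_redgeN : k ∈ redgeN l a b i ↔ ∀ j, k j ∈ (if j = l then {a l} else
    if j = i then Finset.Ico (a j) (b j) else Finset.Icc (a j) (b j) : Finset ℤ) := by
  unfold redgeN
  rw [Fintype.mem_piFinset]

/-- the sides of a square of the rectangle -/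
theorem side_mem {e : Idx × Fin 3} (hk : k ∈ rectN l a b) (he : EdgeOfSq e ((n, k), l)) :
    e.1.1 = n ∧ e.2 ≠ l ∧ e.1.2 ∈ redgeN l a b e.2 := by
  obtain ⟨h1, h2, h3, h4, h5⟩ := he
  obtain ⟨g1, g2⟩ := mem_rectN.1 hk
  refine ⟨h1, h2, mem_redgeN.2 fun j => ?_⟩
  have h4 : e.1.2 l = k l := h4
  have h3 : e.1.2 e.2 = k e.2 := h3
  by_cases hj : j = l
  · subst hj
    rw [if_pos rfl, h4, g1]
    exact Finset.mem_singleton_self _
  · rw [if_neg hj]
    by_cases hj' : j = e.2
    · rw [if_pos hj', hj', h3, Finset.mem_Ico]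
      exact g2 _ h2
    · rw [if_neg hj', Finset.mem_Icc]
      have h6 := g2 j hj
      have h7 : e.1.2 j = k j ∨ e.1.2 j = k j + 1 := h5 j hj' hj
      omega

open Classical in
/-- the four sides of a square in the list of the edges of the rectangle -/
theorem sum_sqE_le (hk : k ∈ rectN l a b) (w : Idx × Fin 3 → ℝ≥0∞) :
    ∑ e ∈ sqE ((n, k), l), w e ≤ ∑ i ∈ Finset.univ.erase l, ∑ k' ∈ redgeN l a b i,
      if EdgeOfSq ((n, k'), i) ((n, k), l) then w ((n, k'), i) else 0 := by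
  set φ : (_ : Fin 3) × (Fin 3 → ℤ) → Idx × Fin 3 := fun x => ((n, x.2), x.1) with hφ
  have hinj : Function.Injective φ := by
    rintro ⟨i, k⟩ ⟨i', k'⟩ h
    have h1 : i = i' := congrArg Prod.snd h
    have h2 : k = k' := congrArg (fun z : Idx × Fin 3 => z.1.2) h
    rw [h1, h2]
  set P : Finset ((_ : Fin 3) × (Fin 3 → ℤ)) :=
    (Finset.univ.erase l).sigma fun i => (redgeN l a b i).filter fun k' =>
      EdgeOfSq ((n, k'), i) ((n, k), l) with hP
  have e1 : ∑ i ∈ Finset.univ.erase l, ∑ k' ∈ redgeN l a b i,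
      (if EdgeOfSq ((n, k'), i) ((n, k), l) then w ((n, k'), i) else 0) = ∑ x ∈ P, w (φ x) := by
    rw [hP, Finset.sum_sigma]
    refine Finset.sum_congr rfl fun i _ => ?_
    rw [Finset.sum_filter]
  rw [e1, ← Finset.sum_image (f := w) (g := φ) (fun x _ y _ h => hinj h)]
  refine Finset.sum_le_sum_of_subset fun e he => ?_
  have h1 := mem_sqE.1 he
  obtain ⟨h2, h3, h4⟩ := side_mem hk h1
  have h5 : φ ⟨e.2, e.1.2⟩ = e := Prod.ext (Prod.ext h2.symm rfl) rfl
  refine Finset.mem_image.2 ⟨⟨e.2, e.1.2⟩, ?_, h5⟩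
  rw [hP, Finset.mem_sigma, Finset.mem_erase, Finset.mem_filter]
  refine ⟨⟨h3, Finset.mem_univ _⟩, h4, ?_⟩
  have h6 : ((n, e.1.2), e.2) = e := h5
  rw [h6]
  exact h1

open Classical in
/-- an edge is a side of at most two squares of the plane -/
theorem card_sides_le (S : Finset (Fin 3 → ℤ)) (i : Fin 3) (k' : Fin 3 → ℤ) :
    (S.filter fun k => EdgeOfSq ((n, k'), i) ((n, k), l)).card ≤ 2 := by
  by_cases hil : i = l
  · have : (S.filter fun k => EdgeOfSq ((n, k'), i) ((n, k), l)) = ∅ := by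
      rw [Finset.filter_eq_empty_iff]
      intro k _ h
      exact h.2.1 hil
    rw [this]
    simp
  obtain ⟨m, hm1, hm2⟩ := H687.fin3_third i l hil
  have hall := H687.fin3_all l m i hm1 hil hm2.symm
  have hsub : (S.filter fun k => EdgeOfSq ((n, k'), i) ((n, k), l)) ⊆
      {k', Function.update k' m (k' m - 1)} := by
    intro k hk
    have h := (Finset.mem_filter.1 hk).2
    have h3 : k' i = k i := h.2.2.1
    have h4 : k' l = k l := h.2.2.2.1
    have h5 : k' m = k m ∨ k' m = k m + 1 := h.2.2.2.2 m hm2 hm1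
    rw [Finset.mem_insert, Finset.mem_singleton]
    rcases h5 with h5 | h5
    · left
      funext j
      rcases hall j with rfl | rfl | rfl
      · exact h4.symm
      · exact h5.symm
      · exact h3.symm
    · right
      funext j
      rcases hall j with rfl | rfl | rfl
      · rw [Function.update_of_ne hm1.symm]; exact h4.symm
      · rw [Function.update_self]; omega
      · rw [Function.update_of_ne hm2.symm]; exact h3.symm
  exact (Finset.card_le_card hsub).trans Finset.card_le_two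

open Classical in
/-- **every edge is counted at most twice** -/
theorem sum_squares_le {S : Finset (Fin 3 → ℤ)} (hS : S ⊆ rectN l a b)
    (w : Idx × Fin 3 → ℝ≥0∞) :
    ∑ k ∈ S, ∑ e ∈ sqE ((n, k), l), w e ≤ 2 * ∑ i ∈ Finset.univ.erase l,
      ∑ k' ∈ redgeN l a b i with ∃ k ∈ S, EdgeOfSq ((n, k'), i) ((n, k), l),
        w ((n, k'), i) := by
  calc ∑ k ∈ S, ∑ e ∈ sqE ((n, k), l), w e
      ≤ ∑ k ∈ S, ∑ i ∈ Finset.univ.erase l, ∑ k' ∈ redgeN l a b i,
          (if EdgeOfSq ((n, k'), i) ((n, k), l) then w ((n, k'), i) else 0) :=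
        Finset.sum_le_sum fun k hk => sum_sqE_le (hS hk) w
    _ = ∑ i ∈ Finset.univ.erase l, ∑ k' ∈ redgeN l a b i, ∑ k ∈ S,
          (if EdgeOfSq ((n, k'), i) ((n, k), l) then w ((n, k'), i) else 0) := by
        rw [Finset.sum_comm]
        refine Finset.sum_congr rfl fun i _ => ?_
        rw [Finset.sum_comm]
    _ ≤ ∑ i ∈ Finset.univ.erase l, ∑ k' ∈ redgeN l a b i,
          (if ∃ k ∈ S, EdgeOfSq ((n, k'), i) ((n, k), l) then 2 * w ((n, k'), i) else 0) := by
        refine Finset.sum_le_sum fun i _ => Finset.sum_le_sum fun k' _ => ?_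
        rw [← Finset.sum_filter, Finset.sum_const, nsmul_eq_mul]
        by_cases h : ∃ k ∈ S, EdgeOfSq ((n, k'), i) ((n, k), l)
        · rw [if_pos h]
          gcongr
          exact_mod_cast card_sides_le S i k'
        · rw [if_neg h]
          have : (S.filter fun k => EdgeOfSq ((n, k'), i) ((n, k), l)) = ∅ := by
            rw [Finset.filter_eq_empty_iff]
            intro k hk h'
            exact h ⟨k, hk, h'⟩
          rw [this]
          simp
    _ = _ := by
        rw [Finset.mul_sum]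
        refine Finset.sum_congr rfl fun i _ => ?_
        rw [Finset.mul_sum, Finset.sum_filter]

/-- the number of squares -/
theorem card_rectN_le (hab : ∀ j, j ≠ l → (b j - a j : ℝ) / 2 ^ n ≤ 1) :
    ((rectN l a b).card : ℝ) * (1 / 2 ^ n) ^ 2 ≤ 1 := by
  have hp : (0:ℝ) < 2 ^ n := by positivity
  have h1 : ∀ j, j ≠ l → (Finset.Ico (a j) (b j)).card ≤ 2 ^ n := by
    intro j hj
    rw [Int.card_Ico, Int.toNat_le]
    have h2 := hab j hj
    rw [div_le_one hp] at h2
    have h3 : ((b j - a j : ℤ) : ℝ) ≤ ((2 ^ n : ℕ) : ℤ) := by push_cast; exact h2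
    exact_mod_cast h3
  have h2 : (rectN l a b).card ≤ 2 ^ n * 2 ^ n := by
    unfold rectN
    rw [Fintype.card_piFinset]
    calc ∏ j, (if j = l then {a l} else Finset.Ico (a j) (b j) : Finset ℤ).card
        ≤ ∏ j, (if j = l then 1 else 2 ^ n) := by
          refine Finset.prod_le_prod' fun j _ => ?_
          by_cases hj : j = l
          · rw [if_pos hj, if_pos hj, Finset.card_singleton]
          · rw [if_neg hj, if_neg hj]; exact h1 j hj
      _ = 2 ^ n * 2 ^ n := by
          fin_cases l <;> simp [Fin.prod_univ_three]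
  have h3 : ((rectN l a b).card : ℝ) ≤ 2 ^ n * 2 ^ n := by exact_mod_cast h2
  calc ((rectN l a b).card : ℝ) * (1 / 2 ^ n) ^ 2 ≤ (2 ^ n * 2 ^ n) * (1 / 2 ^ n) ^ 2 := by gcongr
    _ = 1 := by field_simp

end comb

/-! ### The integrals -/

section Int

variable {v : V} {s : Idx × Fin 3}

/-- the part over one square -/
theorem lintegral_slab_le {H : V → ℝ≥0∞} (hH : Measurable H) {t₀ t₁ c : ℝ} (ht : t₁ ≤ t₀ + 1)
    (hc : c = sc v s s.2) :
    ∫⁻ x in {x : V | x s.2 ∈ Icc t₀ t₁ ∧ Function.update x s.2 c ∈ squ v s},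
      H (Function.update x s.2 c) ≤ ENNReal.ofReal (2 ^ s.1.1) *
        ∫⁻ x in cube (sc v s) (1 / 2 / 2 ^ s.1.1), H (Function.update x s.2 (sc v s s.2)) := by
  subst hc
  rw [H233.lintegral_square s hH, ← mul_assoc, ← ENNReal.ofReal_mul (by positivity)]
  have e1 : (2:ℝ) ^ s.1.1 * (1 / 2 ^ s.1.1) = 1 := by field_simp
  rw [e1, ENNReal.ofReal_one, one_mul]
  have hsub : {x : V | x s.2 ∈ Icc t₀ t₁ ∧ Function.update x s.2 (sc v s s.2) ∈ squ v s} ⊆
      {x : V | x s.2 ∈ Icc t₀ t₁ ∧ s.2.removeNth x ∈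
        SQ.Edge.sq (s.2.removeNth (sc v s)) (1 / 2 / 2 ^ s.1.1)} := by
    rintro x ⟨h1, h2⟩
    refine ⟨h1, H233.mem_sq_of_mem ?_⟩
    rwa [← SQ.Edge.update_eq_ins]
  refine (lintegral_mono_set hsub).trans ?_
  rw [SQ.Edge.fubini_const s.2 _ measurableSet_Icc (SQ.Edge.measurableSet_sq _ _) hH,
    Real.volume_Icc]
  calc ENNReal.ofReal (t₁ - t₀) * _ ≤ 1 * ∫⁻ y in SQ.Edge.sq (s.2.removeNth (sc v s))
        (1 / 2 / 2 ^ s.1.1), H (s.2.insertNth (sc v s s.2) y) := by
        gcongr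
        rw [← ENNReal.ofReal_one]
        exact ENNReal.ofReal_le_ofReal (by linarith)
    _ = _ := one_mul _

end Int

/-- **from the plane to the squares** -/
theorem plane_le {Ω Λ : Set V} (hΩ : IsOpen Ω) (g : ConHomeo Ω Λ) {p : ℝ} (hp0 : 0 < p)
    {l : Fin 3} {v : V} {n : ℕ} {a : Fin 3 → ℤ} {S : Finset (Fin 3 → ℤ)} {A : Set V}
    (hSa : ∀ k ∈ S, k l = a l) (hSΩ : ∀ k ∈ S, squ v ((n, k), l) ⊆ Ω)
    (hA : ∀ x ∈ A, ∃ k ∈ S, Function.update x l (v l + a l / 2 ^ n) ∈ squ v ((n, k), l))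
    {t₀ t₁ : ℝ} (ht : t₁ ≤ t₀ + 1) (hAt : ∀ x ∈ A, x l ∈ Icc t₀ t₁) :
    ∑ j ∈ Finset.univ.erase l, ∫⁻ x in A,
        ENNReal.ofReal (‖lineDeriv ℝ g.toFun (Function.update x l (v l + a l / 2 ^ n))
          (ev j)‖ ^ p) ≤
      ∑ k ∈ S, ENNReal.ofReal (2 ^ n) *
        faceL p g.toFun (sc v ((n, k), l)) l (1 / 2 / 2 ^ n) := by
  set c : ℝ := v l + a l / 2 ^ n with hc
  have hsc : ∀ k ∈ S, c = sc v ((n, k), l) l := by
    intro k hk
    simp only [sc, if_true, hSa k hk, hc]
  have hm : ∀ j : Fin 3, Measurable fun x => ENNReal.ofReal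
      (‖Ω.indicator (fun x => lineDeriv ℝ g.toFun x (ev j)) x‖ ^ p) := fun j =>
    ((H880.measurable_lineDeriv_on hΩ g.cont (ev j)).norm.pow_const p).ennreal_ofReal
  have h1 : ∀ j : Fin 3, ∫⁻ x in A, ENNReal.ofReal (‖lineDeriv ℝ g.toFun
      (Function.update x l c) (ev j)‖ ^ p) ≤
      ∑ k ∈ S, ENNReal.ofReal (2 ^ n) * ∫⁻ x in cube (sc v ((n, k), l)) (1 / 2 / 2 ^ n),
        ENNReal.ofReal (‖lineDeriv ℝ g.toFun (Function.update x l (sc v ((n, k), l) l))
          (ev j)‖ ^ p) := by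
    intro j
    have hsub : A ⊆ ⋃ k ∈ S, {x : V | x l ∈ Icc t₀ t₁ ∧
        Function.update x l c ∈ squ v ((n, k), l)} := by
      intro x hx
      obtain ⟨k, hk, h⟩ := hA x hx
      exact mem_iUnion₂.2 ⟨k, hk, hAt x hx, h⟩
    refine (lintegral_mono_set hsub).trans ((H233.lint_biUnion_le S _ _).trans ?_)
    refine Finset.sum_le_sum fun k hk => ?_
    have h2 := lintegral_slab_le (v := v) (s := ((n, k), l)) (hm j) ht (hsc k hk)
    have hmeas : MeasurableSet {x : V | x l ∈ Icc t₀ t₁ ∧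
        Function.update x l c ∈ squ v ((n, k), l)} := by
      refine (measurableSet_Icc.preimage (measurable_pi_apply l)).inter ?_
      have hu : Measurable fun x : V => Function.update x l c := by
        refine measurable_pi_iff.2 fun j => ?_
        by_cases hj : j = l
        · subst hj; simp
        · simp only [Function.update_of_ne hj]; exact measurable_pi_apply j
      exact hu (H233.isClosed_squ v ((n, k), l)).measurableSet
    have e1 : ∫⁻ x in {x : V | x l ∈ Icc t₀ t₁ ∧ Function.update x l c ∈ squ v ((n, k), l)},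
        ENNReal.ofReal (‖lineDeriv ℝ g.toFun (Function.update x l c) (ev j)‖ ^ p) =
        ∫⁻ x in {x : V | x l ∈ Icc t₀ t₁ ∧ Function.update x l c ∈ squ v ((n, k), l)},
        ENNReal.ofReal (‖Ω.indicator (fun x => lineDeriv ℝ g.toFun x (ev j))
          (Function.update x l c)‖ ^ p) := by
      refine setLIntegral_congr_fun hmeas fun x hx => ?_
      have hx' : Function.update x l c ∈ Ω := hSΩ k hk hx.2
      simp only [indicator_of_mem hx']
    rw [e1]
    refine h2.trans (mul_le_mul_right ?_ _)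
    refine lintegral_mono fun x => ?_
    by_cases hx : Function.update x l (sc v ((n, k), l) l) ∈ Ω
    · simp only [indicator_of_mem hx]
      exact le_rfl
    · simp only [indicator_of_notMem hx, norm_zero, Real.zero_rpow hp0.ne', ENNReal.ofReal_zero]
      exact bot_le
  calc _ ≤ ∑ j ∈ Finset.univ.erase l, ∑ k ∈ S, ENNReal.ofReal (2 ^ n) *
        ∫⁻ x in cube (sc v ((n, k), l)) (1 / 2 / 2 ^ n),
        ENNReal.ofReal (‖lineDeriv ℝ g.toFun (Function.update x l (sc v ((n, k), l) l))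
          (ev j)‖ ^ p) := Finset.sum_le_sum fun j _ => h1 j
    _ = _ := by
        rw [Finset.sum_comm]
        refine Finset.sum_congr rfl fun k _ => ?_
        rw [faceL, Finset.mul_sum]

open Classical in
/-- **[PLANE-SUM]** -/
theorem specPlaneSum : H253.SpecPlaneSum := by
  intro p hp
  refine ⟨2 * 2 ^ p, by positivity, ?_⟩
  intro l Ω Λ v I nS a b g ℓ D s hD hs hΩ hI hab hminS hminE hface S A hSr hA ⟨t₀, t₁, ht, hAt⟩
  have hp0 : 0 < p := by linarith
  set r : ℝ := 1 / 2 ^ nS with hr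
  have hr0 : 0 < r := by positivity
  have hside : ∀ k ∈ rectN l a b, ∀ e ∈ sqE ((nS, k), l), MinEdge v I e := by
    intro k hk e he
    obtain ⟨h1, h2, h3⟩ := side_mem hk (mem_sqE.1 he)
    have h4 := hminE e.2 h2 e.1.2 h3
    have h5 : ((nS, e.1.2), e.2) = e := Prod.ext (Prod.ext h1.symm rfl) rfl
    rwa [h5] at h4
  have hgen : ∀ k, ∀ e ∈ sqE ((nS, k), l), e.1.1 = nS := fun k e he => (mem_sqE.1 he).1
  have hΩs : ∀ k ∈ rectN l a b, squ v ((nS, k), l) ⊆ Ω := by
    intro k hk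
    obtain ⟨q, hq, hf⟩ := (hminS k hk).1
    have h1 : squ v ((nS, k), l) ⊆ dyc v q.1 q.2 := H233.face_sub_dyc hf
    exact h1.trans (hI.sub q hq)
  have hSa : ∀ k ∈ S, k l = a l := fun k hk => (mem_rectN.1 (hSr hk)).1
  refine (plane_le hΩ g hp0 hSa (fun k hk => hΩs k (hSr hk)) hA ht hAt).trans ?_
  -- one square
  have h1 : ∀ k ∈ S, ENNReal.ofReal (2 ^ nS) *
      faceL p g.toFun (sc v ((nS, k), l)) l (1 / 2 / 2 ^ nS) ≤
      ENNReal.ofReal (D * 2 ^ (p - 1)) * ∑ e ∈ sqE ((nS, k), l),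
        ENNReal.ofReal r * (ENNReal.ofReal (r ^ (1 - p)) * ℓ e ^ p) +
      ENNReal.ofReal (4 * (D * 2 ^ (p - 1) * s ^ p) * r ^ 2) := by
    intro k hk
    have hk' := hSr hk
    have h2 : ∑' e : {e : Idx × Fin 3 // MinEdge v I e ∧ edge v e ⊆ squ v ((nS, k), l)},
        ENNReal.ofReal ((1 / 2 ^ e.1.1.1) ^ (1 - p)) * (ℓ e.1 + ENNReal.ofReal (s / 2 ^ nS)) ^ p ≤
        ∑ e ∈ sqE ((nS, k), l), ENNReal.ofReal (r ^ (1 - p)) *
          (ℓ e + ENNReal.ofReal (s / 2 ^ nS)) ^ p := by
      refine (tsum_minEdge_le hΩ hI (hminS k hk') (hside k hk') fun e =>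
        ENNReal.ofReal ((1 / 2 ^ e.1.1) ^ (1 - p)) *
          (ℓ e + ENNReal.ofReal (s / 2 ^ nS)) ^ p).trans (le_of_eq ?_)
      refine Finset.sum_congr rfl fun e he => ?_
      rw [hgen k e he]
    have h3 : ∀ e ∈ sqE ((nS, k), l), ENNReal.ofReal (r ^ (1 - p)) *
        (ℓ e + ENNReal.ofReal (s / 2 ^ nS)) ^ p ≤ ENNReal.ofReal (2 ^ (p - 1)) *
          (ENNReal.ofReal (r ^ (1 - p)) * ℓ e ^ p) +
          ENNReal.ofReal (2 ^ (p - 1) * s ^ p * r) := by
      intro e _
      have h4 := ENNReal.rpow_add_le_mul_rpow_add_rpow (ℓ e) (ENNReal.ofReal (s / 2 ^ nS)) hp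
      have e4 : (2:ℝ≥0∞) ^ (p - 1) = ENNReal.ofReal (2 ^ (p - 1)) := by
        rw [← ENNReal.ofReal_rpow_of_pos (by norm_num)]
        simp
      have e5 : ENNReal.ofReal (s / 2 ^ nS) ^ p = ENNReal.ofReal (s ^ p * r ^ p) := by
        rw [ENNReal.ofReal_rpow_of_nonneg (by positivity) hp0.le, ← Real.mul_rpow hs hr0.le, hr]
        congr 2
        ring
      rw [e4, e5] at h4
      calc ENNReal.ofReal (r ^ (1 - p)) * (ℓ e + ENNReal.ofReal (s / 2 ^ nS)) ^ p
          ≤ ENNReal.ofReal (r ^ (1 - p)) * (ENNReal.ofReal (2 ^ (p - 1)) *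
            (ℓ e ^ p + ENNReal.ofReal (s ^ p * r ^ p))) := by gcongr
        _ = ENNReal.ofReal (2 ^ (p - 1)) * (ENNReal.ofReal (r ^ (1 - p)) * ℓ e ^ p) +
            ENNReal.ofReal (r ^ (1 - p)) * (ENNReal.ofReal (2 ^ (p - 1)) *
              ENNReal.ofReal (s ^ p * r ^ p)) := by ring
        _ = _ := by
            congr 1
            rw [← ENNReal.ofReal_mul (by positivity), ← ENNReal.ofReal_mul (by positivity)]
            congr 1
            have e6 : r ^ (1 - p) * r ^ p = r := by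
              rw [← Real.rpow_add hr0, sub_add_cancel, Real.rpow_one]
            calc r ^ (1 - p) * (2 ^ (p - 1) * (s ^ p * r ^ p)) =
                2 ^ (p - 1) * s ^ p * (r ^ (1 - p) * r ^ p) := by ring
              _ = _ := by rw [e6]
    have hcard : (sqE ((nS, k), l)).card ≤ 4 := by
      unfold sqE
      refine Finset.card_biUnion_le.trans ?_
      calc ∑ a ∈ Finset.univ.erase l, ({sqEdge ((nS, k), l) a 0, sqEdge ((nS, k), l) a 1} :
            Finset (Idx × Fin 3)).card ≤ ∑ a ∈ Finset.univ.erase l, 2 :=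
            Finset.sum_le_sum fun a _ => Finset.card_le_two
        _ = 4 := by
            rw [Finset.sum_const, Finset.card_erase_of_mem (Finset.mem_univ l), Finset.card_univ,
              Fintype.card_fin]
            rfl
    calc ENNReal.ofReal (2 ^ nS) * faceL p g.toFun (sc v ((nS, k), l)) l (1 / 2 / 2 ^ nS)
        ≤ ENNReal.ofReal (2 ^ nS) * (ENNReal.ofReal (D * r ^ 2) *
          ∑ e ∈ sqE ((nS, k), l), (ENNReal.ofReal (2 ^ (p - 1)) *
            (ENNReal.ofReal (r ^ (1 - p)) * ℓ e ^ p) +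
            ENNReal.ofReal (2 ^ (p - 1) * s ^ p * r))) := by
          gcongr
          refine (hface k hk').trans ?_
          gcongr
          exact h2.trans (Finset.sum_le_sum h3)
      _ = ENNReal.ofReal (D * r) * (ENNReal.ofReal (2 ^ (p - 1)) *
            (∑ e ∈ sqE ((nS, k), l), ENNReal.ofReal (r ^ (1 - p)) * ℓ e ^ p) +
            (sqE ((nS, k), l)).card * ENNReal.ofReal (2 ^ (p - 1) * s ^ p * r)) := by
          rw [← mul_assoc, ← ENNReal.ofReal_mul (by positivity), Finset.sum_add_distrib,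
            Finset.sum_const, nsmul_eq_mul, ← Finset.mul_sum]
          congr 2
          rw [hr]
          field_simp
      _ ≤ ENNReal.ofReal (D * r) * (ENNReal.ofReal (2 ^ (p - 1)) *
            (∑ e ∈ sqE ((nS, k), l), ENNReal.ofReal (r ^ (1 - p)) * ℓ e ^ p) +
            ENNReal.ofReal 4 * ENNReal.ofReal (2 ^ (p - 1) * s ^ p * r)) := by
          gcongr
          have : ((sqE ((nS, k), l)).card : ℝ≥0∞) ≤ (4 : ℕ) := by exact_mod_cast hcard
          refine this.trans (le_of_eq ?_)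
          simp
      _ = _ := by
          have e9 : ∑ e ∈ sqE ((nS, k), l), ENNReal.ofReal r *
              (ENNReal.ofReal (r ^ (1 - p)) * ℓ e ^ p) = ENNReal.ofReal r *
              ∑ e ∈ sqE ((nS, k), l), (ENNReal.ofReal (r ^ (1 - p)) * ℓ e ^ p) :=
            (Finset.mul_sum _ _ _).symm
          rw [e9]
          generalize (∑ e ∈ sqE ((nS, k), l), ENNReal.ofReal (r ^ (1 - p)) * ℓ e ^ p) = Y
          have f1 : ENNReal.ofReal (D * 2 ^ (p - 1)) * (ENNReal.ofReal r * Y) =
              ENNReal.ofReal (D * 2 ^ (p - 1) * r) * Y := by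
            rw [ENNReal.ofReal_mul (p := D * 2 ^ (p - 1)) (by positivity), mul_assoc]
          have f2 : ENNReal.ofReal (D * r) * (ENNReal.ofReal (2 ^ (p - 1)) * Y) =
              ENNReal.ofReal (D * r * 2 ^ (p - 1)) * Y := by
            rw [ENNReal.ofReal_mul (p := D * r) (by positivity), mul_assoc]
          rw [mul_add, f1, f2, ← ENNReal.ofReal_mul (by norm_num),
            ← ENNReal.ofReal_mul (by positivity)]
          congr 1
          · congr 2
            ring
          · congr 1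
            ring
  calc ∑ k ∈ S, ENNReal.ofReal (2 ^ nS) *
        faceL p g.toFun (sc v ((nS, k), l)) l (1 / 2 / 2 ^ nS)
      ≤ ∑ k ∈ S, (ENNReal.ofReal (D * 2 ^ (p - 1)) * ∑ e ∈ sqE ((nS, k), l),
        ENNReal.ofReal r * (ENNReal.ofReal (r ^ (1 - p)) * ℓ e ^ p) +
      ENNReal.ofReal (4 * (D * 2 ^ (p - 1) * s ^ p) * r ^ 2)) := Finset.sum_le_sum h1
    _ = ENNReal.ofReal (D * 2 ^ (p - 1)) * (∑ k ∈ S, ∑ e ∈ sqE ((nS, k), l),
        ENNReal.ofReal r * (ENNReal.ofReal (r ^ (1 - p)) * ℓ e ^ p)) +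
        S.card * ENNReal.ofReal (4 * (D * 2 ^ (p - 1) * s ^ p) * r ^ 2) := by
        rw [Finset.sum_add_distrib, Finset.sum_const, nsmul_eq_mul, ← Finset.mul_sum]
    _ ≤ ENNReal.ofReal (D * 2 ^ (p - 1)) * (2 * ∑ i ∈ Finset.univ.erase l,
        ∑ k ∈ redgeN l a b i with ∃ k' ∈ S, EdgeOfSq ((nS, k), i) ((nS, k'), l),
          ENNReal.ofReal r * (ENNReal.ofReal (r ^ (1 - p)) * ℓ ((nS, k), i) ^ p)) +
        ENNReal.ofReal (2 * 2 ^ p * D * s ^ p) := by
        refine add_le_add (mul_le_mul_right (sum_squares_le hSr _) _) ?_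
        have h5 : (S.card : ℝ) * r ^ 2 ≤ 1 := by
          refine le_trans ?_ (card_rectN_le hab)
          have : (S.card : ℝ) ≤ (rectN l a b).card := by exact_mod_cast Finset.card_le_card hSr
          gcongr
        have e6 : (S.card : ℝ≥0∞) = ENNReal.ofReal (S.card : ℝ) := by simp
        rw [e6, ← ENNReal.ofReal_mul (by positivity)]
        refine ENNReal.ofReal_le_ofReal ?_
        have e7 : (2:ℝ) ^ p = 2 * 2 ^ (p - 1) := by
          rw [Real.rpow_sub_one (by norm_num)]
          ring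
        have e8 : 0 ≤ D * 2 ^ (p - 1) * s ^ p := by positivity
        rw [e7]
        nlinarith [mul_le_mul_of_nonneg_left h5 e8]
    _ ≤ _ := by
        refine add_le_add ?_ le_rfl
        have e7 : (2:ℝ) ^ p = 2 * 2 ^ (p - 1) := by
          rw [Real.rpow_sub_one (by norm_num)]
          ring
        have e8 : (2:ℝ≥0∞) = ENNReal.ofReal 2 := by simp
        rw [← mul_assoc, e8, ← ENNReal.ofReal_mul (by positivity)]
        refine mul_le_mul_left (ENNReal.ofReal_le_ofReal ?_) _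
        rw [e7]
        have : 0 ≤ D * 2 ^ (p - 1) := by positivity
        nlinarith

end Vale.Agent.P073.H193
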