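import Vale.Agent.P073.H73.K2A

/-!
# P073, A14.3 [EDG], part 1: convex polygons given by inequalities

`hs ν t` is the set of all `x` with `ν i x ≤ t i`.
-/

open Set Metric Topology Filter

namespace Vale.Agent.P073.H193

open Vale.Agent.P073.St (V)

variable {n : ℕ} {ν : Fin n → V →L[ℝ] ℝ} {t : Fin n → ℝ}

/-- a polyhedral set -/
def hs (ν : Fin n → V →L[ℝ] ℝ) (t : Fin n → ℝ) : Set V := {x | ∀ i, ν i x ≤ t i}

/-- the inequality `i` is an equality on the whole set, or not -/
def Act (ν : Fin n → V →L[ℝ] ℝ) (t : Fin n → ℝ) (i : Fin n) : Prop := ∃ y ∈ hs ν t, ν i y < t i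

/-- a side -/
def side (ν : Fin n → V →L[ℝ] ℝ) (t : Fin n → ℝ) (i : Fin n) : Set V := {x | x ∈ hs ν t ∧ ν i x = t i}

/-- the set is contained in a line -/
def InLine (S : Set V) : Prop := ∃ d : V, d ≠ 0 ∧ ∀ x ∈ S, ∀ y ∈ S, ∃ s : ℝ, y - x = s • d

theorem InLine.mono {S T : Set V} (h : InLine T) (hS : S ⊆ T) : InLine S := by
  obtain ⟨d, hd, h⟩ := h
  exact ⟨d, hd, fun x hx y hy => h x (hS hx) y (hS hy)⟩

theorem isClosed_hs : IsClosed (hs ν t) := by
  have : hs ν t = ⋂ i, {x | ν i x ≤ t i} := by ext x; simp [hs]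
  rw [this]
  exact isClosed_iInter fun i => isClosed_le (ν i).continuous continuous_const

theorem convex_hs : Convex ℝ (hs ν t) := by
  intro x hx y hy a b ha hb hab i
  rw [map_add, map_smul, map_smul, smul_eq_mul, smul_eq_mul]
  have h1 := mul_le_mul_of_nonneg_left (hx i) ha
  have h2 := mul_le_mul_of_nonneg_left (hy i) hb
  calc a * ν i x + b * ν i y ≤ a * t i + b * t i := add_le_add h1 h2
    _ = t i := by rw [← add_mul, hab, one_mul]

theorem side_sub (i : Fin n) : side ν t i ⊆ hs ν t := fun _ hx => hx.1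

theorem isClosed_side (i : Fin n) : IsClosed (side ν t i) :=
  isClosed_hs.inter (isClosed_eq (ν i).continuous continuous_const)

theorem convex_side (i : Fin n) : Convex ℝ (side ν t i) := by
  intro x hx y hy a b ha hb hab
  refine ⟨convex_hs hx.1 hy.1 ha hb hab, ?_⟩
  rw [map_add, map_smul, map_smul, smul_eq_mul, smul_eq_mul, hx.2, hy.2, ← add_mul, hab, one_mul]

/-- the inequalities which are not active are equalities -/
theorem eq_of_not_act {i : Fin n} (hi : ¬ Act ν t i) {x : V} (hx : x ∈ hs ν t) : ν i x = t i :=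
  le_antisymm (hx i) (not_lt.1 fun h => hi ⟨x, hx, h⟩)

theorem eq_span_of_not_act {i : Fin n} (hi : ¬ Act ν t i) {x : V}
    (hx : x ∈ affineSpan ℝ (hs ν t)) : ν i x = t i := by
  have h : affineSpan ℝ (hs ν t) ≤
      AffineSubspace.comap ((ν i : V →ₗ[ℝ] ℝ).toAffineMap) (AffineSubspace.mk' (t i) ⊥) := by
    refine affineSpan_le.2 fun y hy => ?_
    rw [AffineSubspace.coe_comap, mem_preimage, SetLike.mem_coe, AffineSubspace.mem_mk',
      Submodule.mem_bot]
    show ν i y - t i = 0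
    rw [eq_of_not_act hi hy, sub_self]
  have h1 := h hx
  rw [AffineSubspace.mem_comap, AffineSubspace.mem_mk', Submodule.mem_bot] at h1
  have h2 : ν i x - t i = 0 := h1
  linarith

/-- **the relative interior** -/
theorem mem_rel {x : V} :
    x ∈ intrinsicInterior ℝ (hs ν t) ↔ x ∈ hs ν t ∧ ∀ i, Act ν t i → ν i x < t i := by
  constructor
  · intro hx
    refine ⟨intrinsicInterior_subset hx, ?_⟩
    rintro i ⟨z, hz, hzi⟩
    obtain ⟨y, hy, rfl⟩ := hx
    have hmem : ∀ s : ℝ, AffineMap.lineMap (y : V) z (-s) ∈ affineSpan ℝ (hs ν t) := fun s =>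
      AffineMap.lineMap_mem _ y.2 (subset_affineSpan _ _ hz)
    let g : ℝ → affineSpan ℝ (hs ν t) := fun s => ⟨AffineMap.lineMap (y : V) z (-s), hmem s⟩
    have hg : Continuous g := by
      refine Continuous.subtype_mk ?_ _
      exact AffineMap.lineMap_continuous.comp continuous_neg
    have hg0 : g 0 = y := by
      apply Subtype.ext
      show AffineMap.lineMap (y : V) z (-(0:ℝ)) = y
      rw [neg_zero, AffineMap.lineMap_apply_zero]
    have h1 : ∀ᶠ s in 𝓝 (0:ℝ), g s ∈ ((↑) ⁻¹' hs ν t : Set (affineSpan ℝ (hs ν t))) := by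
      have h2 : ContinuousAt g 0 := hg.continuousAt
      apply h2
      rw [hg0]
      exact mem_interior_iff_mem_nhds.1 hy
    obtain ⟨ε, hε, h3⟩ := Metric.eventually_nhds_iff.1 h1
    have h4 := h3 (y := ε / 2) (by rw [Real.dist_eq, sub_zero, abs_of_pos (by positivity)]; linarith)
    have h5 : ν i (AffineMap.lineMap (y : V) z (-(ε / 2))) ≤ t i := h4 i
    rw [AffineMap.lineMap_apply, vsub_eq_sub, vadd_eq_add, map_add, map_smul, map_sub,
      smul_eq_mul] at h5
    nlinarith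
  · rintro ⟨hx, h⟩
    refine ⟨⟨x, subset_affineSpan _ _ hx⟩, ?_, rfl⟩
    rw [mem_interior]
    refine ⟨⋂ i ∈ {i | Act ν t i}, {y : affineSpan ℝ (hs ν t) | ν i y < t i}, ?_, ?_, ?_⟩
    · intro y hy i
      by_cases hi : Act ν t i
      · exact (mem_iInter₂.1 hy i hi).le
      · exact (eq_span_of_not_act hi y.2).le
    · refine (toFinite _).isOpen_biInter fun i _ => ?_
      exact isOpen_lt ((ν i).continuous.comp continuous_subtype_val) continuous_const
    · exact mem_iInter₂.2 fun i hi => h i hi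

/-- **the relative boundary** -/
theorem mem_fr {x : V} :
    x ∈ intrinsicFrontier ℝ (hs ν t) ↔ ∃ i, Act ν t i ∧ x ∈ side ν t i := by
  rw [← closure_sdiff_intrinsicInterior, isClosed_hs.closure_eq, mem_diff, mem_rel]
  constructor
  · rintro ⟨hx, h⟩
    by_contra hcon
    refine h ⟨hx, fun i hi => lt_of_le_of_ne (hx i) fun he => hcon ⟨i, hi, hx, he⟩⟩
  · rintro ⟨i, hi, hx, he⟩
    exact ⟨hx, fun h => (h.2 i hi).ne he⟩

/-- a convex subset which does not meet the relative interior is contained in a side -/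
theorem sub_side {J : Set V} (hJ : Convex ℝ J) (hne : J.Nonempty) (hsub : J ⊆ hs ν t)
    (hd : Disjoint J (intrinsicInterior ℝ (hs ν t))) : ∃ i, Act ν t i ∧ J ⊆ side ν t i := by
  by_contra hcon
  push Not at hcon
  have key : ∀ s : Finset (Fin n), ∃ x ∈ J, ∀ i ∈ s, Act ν t i → ν i x < t i := by
    intro s
    induction s using Finset.induction_on with
    | empty =>
      obtain ⟨x, hx⟩ := hne
      exact ⟨x, hx, by simp⟩
    | insert i s his ih =>
      obtain ⟨x, hx, h⟩ := ih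
      by_cases hi : Act ν t i
      · obtain ⟨y, hy, hyi⟩ := not_subset.1 (hcon i hi)
        have hyi' : ν i y < t i := lt_of_le_of_ne (hsub hy i) fun he => hyi ⟨hsub hy, he⟩
        refine ⟨(1/2:ℝ) • x + (1/2:ℝ) • y, hJ hx hy (by norm_num) (by norm_num) (by norm_num), ?_⟩
        intro j hj hj'
        rw [map_add, map_smul, map_smul, smul_eq_mul, smul_eq_mul]
        have h1 := hsub hx j
        have h2 := hsub hy j
        rcases Finset.mem_insert.1 hj with rfl | hj
        · linarith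
        · have := h j hj hj'
          linarith
      · refine ⟨x, hx, fun j hj hj' => ?_⟩
        rcases Finset.mem_insert.1 hj with rfl | hj
        · exact absurd hj' hi
        · exact h j hj hj'
  obtain ⟨x, hx, h⟩ := key Finset.univ
  exact Set.disjoint_left.1 hd hx (mem_rel.2 ⟨hsub hx, fun i hi => h i (Finset.mem_univ i) hi⟩)

/-- a side of a polygon in a plane is contained in a line -/
theorem inLine_side {ν₀ : V →L[ℝ] ℝ} {t₀ : ℝ} (hν : ν₀ ≠ 0) (hpl : ∀ x ∈ hs ν t, ν₀ x = t₀)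
    {i : Fin n} (hi : Act ν t i) : InLine (side ν t i) := by
  rcases (side ν t i).eq_empty_or_nonempty with he | ⟨x₀, hx₀⟩
  · refine ⟨fun _ => 1, fun h => ?_, fun x hx => ?_⟩
    · have := congrFun h 0
      norm_num at this
    · rw [he] at hx
      exact absurd hx (notMem_empty _)
  obtain ⟨z, hz, hzi⟩ := hi
  set L : V →ₗ[ℝ] ℝ × ℝ := (ν₀ : V →ₗ[ℝ] ℝ).prod (ν i : V →ₗ[ℝ] ℝ) with hL
  have hLv : ∀ x, L x = (ν₀ x, ν i x) := fun x => rfl
  obtain ⟨u, hu⟩ : ∃ u, ν₀ u ≠ 0 := by
    by_contra hcon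
    push Not at hcon
    exact hν (ContinuousLinearMap.ext hcon)
  have hv0 : ν₀ (z - x₀) = 0 := by rw [map_sub, hpl z hz, hpl x₀ hx₀.1, sub_self]
  have hvi : ν i (z - x₀) ≠ 0 := by
    rw [map_sub, hx₀.2]
    exact (sub_neg.2 hzi).ne
  have hsurj : Function.Surjective L := by
    rintro ⟨α, β⟩
    refine ⟨(α / ν₀ u) • u + ((β - α / ν₀ u * ν i u) / ν i (z - x₀)) • (z - x₀), ?_⟩
    rw [hLv]
    simp only [map_add, map_smul, smul_eq_mul, hv0]
    rw [Prod.mk.injEq]
    constructor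
    · field_simp
      ring
    · rw [div_mul_cancel₀ _ hvi]
      ring
  have hker : Module.finrank ℝ (LinearMap.ker L) = 1 := by
    have h1 := L.finrank_range_add_finrank_ker
    rw [LinearMap.range_eq_top.2 hsurj, finrank_top, Module.finrank_prod, Module.finrank_self,
      Module.finrank_fin_fun] at h1
    omega
  obtain ⟨d, hd, hd'⟩ := finrank_eq_one_iff'.1 hker
  refine ⟨d, fun h => hd (Subtype.ext h), fun x hx y hy => ?_⟩
  have hm : y - x ∈ LinearMap.ker L := by
    rw [LinearMap.mem_ker, hLv, map_sub, map_sub, hpl y hy.1, hpl x hx.1, hx.2, hy.2, sub_self,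
      sub_self]
    rfl
  obtain ⟨c, hc⟩ := hd' ⟨y - x, hm⟩
  exact ⟨c, (congrArg Subtype.val hc).symm⟩

/-- a nonempty compact convex subset of a line is a segment -/
theorem exists_seg {S : Set V} (hS : IsCompact S) (hc : Convex ℝ S) (hne : S.Nonempty)
    (hl : InLine S) : ∃ p q, S = segment ℝ p q := by
  obtain ⟨d, hd, hl⟩ := hl
  obtain ⟨x₀, hx₀⟩ := hne
  obtain ⟨k, hk⟩ : ∃ k, d k ≠ 0 := by
    by_contra hcon
    push Not at hcon
    exact hd (funext hcon)
  set g : V → ℝ := fun x => (x k - x₀ k) / d k with hg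
  have hgc : Continuous g := by
    exact ((continuous_apply k).sub continuous_const).div_const _
  have hinv : ∀ x ∈ S, x₀ + g x • d = x := by
    intro x hx
    obtain ⟨s, hs⟩ := hl x₀ hx₀ x hx
    have h1 : x k - x₀ k = s * d k := by
      have := congrFun hs k
      simpa using this
    have h2 : g x = s := by
      rw [hg]
      show (x k - x₀ k) / d k = s
      rw [h1, mul_div_assoc, div_self hk, mul_one]
    rw [h2, ← hs, add_sub_cancel]
  have hI := eq_Icc_of_connected_compact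
    ((show IsConnected S from ⟨⟨x₀, hx₀⟩, hc.isPreconnected⟩).image g hgc.continuousOn)
    (hS.image hgc)
  set α := sInf (g '' S)
  set β := sSup (g '' S)
  have hle : α ≤ β := by
    have h1 : (Icc α β).Nonempty := by rw [← hI]; exact ⟨_, x₀, hx₀, rfl⟩
    exact nonempty_Icc.1 h1
  refine ⟨x₀ + α • d, x₀ + β • d, ?_⟩
  have h1 : S = (fun s : ℝ => x₀ + s • d) '' Icc α β := by
    rw [← hI, image_image]
    ext x
    constructor
    · intro hx
      exact ⟨x, hx, hinv x hx⟩
    · rintro ⟨y, hy, rfl⟩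
      show x₀ + g y • d ∈ S
      rw [hinv y hy]
      exact hy
  rw [h1, ← segment_eq_Icc hle]
  have h2 := image_segment (𝕜 := ℝ) (AffineMap.lineMap x₀ (x₀ + d) : ℝ →ᵃ[ℝ] V) α β
  have h3 : ∀ s : ℝ, (AffineMap.lineMap x₀ (x₀ + d) : ℝ →ᵃ[ℝ] V) s = x₀ + s • d := by
    intro s
    rw [AffineMap.lineMap_apply, vsub_eq_sub, vadd_eq_add, add_sub_cancel_left, add_comm]
  rw [h3, h3] at h2
  rw [← h2]
  exact image_congr fun s _ => (h3 s).symm

theorem inLine_segment (p q : V) (h : p ≠ q) : InLine (segment ℝ p q) := by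
  refine ⟨q - p, sub_ne_zero.2 h.symm, ?_⟩
  intro x hx y hy
  rw [segment_eq_image'] at hx hy
  obtain ⟨s, -, rfl⟩ := hx
  obtain ⟨r, -, rfl⟩ := hy
  exact ⟨r - s, by simp only [sub_smul]; abel⟩

/-- the end points of a segment are extreme points -/
theorem left_mem_extreme (p q : V) : p ∈ (segment ℝ p q).extremePoints ℝ := by
  refine ⟨left_mem_segment ℝ p q, ?_⟩
  intro x hx y hy hp
  rw [segment_eq_image'] at hx hy
  obtain ⟨s, hs, rfl⟩ := hx
  obtain ⟨r, hr, rfl⟩ := hy
  obtain ⟨a, b, ha, hb, hab, he⟩ := hp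
  by_cases hpq : p = q
  · subst hpq; simp
  have h1 : (a * s + b * r) • (q - p) = 0 := by
    have h2 : a • (p + s • (q - p)) + b • (p + r • (q - p)) =
        p + (a * s + b * r) • (q - p) := by
      have h3 : a • p + b • p = p := by rw [← add_smul, hab, one_smul]
      calc _ = (a • p + b • p) + (a * s + b * r) • (q - p) := by
            rw [smul_add, smul_add, smul_smul, smul_smul, add_smul]; abel
        _ = _ := by rw [h3]
    rw [h2] at he
    exact add_eq_left.1 he
  rcases smul_eq_zero.1 h1 with h2 | h2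
  · have h3 : s = 0 := by
      have := hs.1
      have := hr.1
      nlinarith [mul_nonneg ha.le hs.1, mul_nonneg hb.le hr.1]
    rw [h3]; simp
  · exact absurd (sub_eq_zero.1 h2).symm hpq

theorem right_mem_extreme (p q : V) : q ∈ (segment ℝ p q).extremePoints ℝ := by
  rw [segment_symm]; exact left_mem_extreme q p

/-- the extreme points of a segment -/
theorem extreme_segment_sub (p q : V) : (segment ℝ p q).extremePoints ℝ ⊆ {p, q} := by
  intro x hx
  have h := mem_extremePoints_iff_forall_segment.1 hx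
  rcases h.2 p (left_mem_segment ℝ p q) q (right_mem_segment ℝ p q) h.1 with h1 | h1
  · exact Or.inl h1.symm
  · exact Or.inr h1.symm

/-- an exposed face is extreme -/
theorem isExtreme_eq {A : Set V} {μ : V →L[ℝ] ℝ} {c : ℝ} (h : ∀ x ∈ A, μ x ≤ c) :
    IsExtreme ℝ A {x | x ∈ A ∧ μ x = c} := by
  refine ⟨fun x hx => hx.1, ?_⟩
  rintro x hx y hy z ⟨-, hz⟩ ⟨a, b, ha, hb, hab, rfl⟩
  refine ⟨hx, le_antisymm (h x hx) ?_⟩
  rw [map_add, map_smul, map_smul, smul_eq_mul, smul_eq_mul] at hz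
  have h1 := h y hy
  have h2 := h x hx
  by_contra hcon
  push Not at hcon
  have h3 : a * μ x < a * c := mul_lt_mul_of_pos_left hcon ha
  have h4 : b * μ y ≤ b * c := mul_le_mul_of_nonneg_left h1 hb.le
  have h5 : a * c + b * c = c := by rw [← add_mul, hab, one_mul]
  linarith

/-- through every boundary point of a polygon there is a nondegenerate side -/
theorem exists_side (hnl : ¬ InLine (hs ν t)) {i : Fin n} (hi : Act ν t i) {x : V}
    (hx : x ∈ side ν t i) : ∃ j, Act ν t j ∧ x ∈ side ν t j ∧ ∃ y ∈ side ν t j, y ≠ x := by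
  obtain ⟨y₀, hy₀⟩ : (intrinsicInterior ℝ (hs ν t)).Nonempty :=
    Set.Nonempty.intrinsicInterior convex_hs ⟨x, hx.1⟩
  have h0 := mem_rel.1 hy₀
  obtain ⟨v, hv⟩ : ∃ v, v = y₀ - x := ⟨_, rfl⟩
  have hvA : ∀ j, Act ν t j → ν j x = t j → ν j v < 0 := by
    intro j hj hjx
    rw [hv, map_sub, hjx]
    linarith [h0.2 j hj]
  have hvi := hvA i hi hx.2
  have hv0 : v ≠ 0 := by
    intro h
    rw [h, map_zero] at hvi
    exact lt_irrefl _ hvi
  obtain ⟨x₁, hx₁, x₂, hx₂, hw⟩ : ∃ x₁ ∈ hs ν t, ∃ x₂ ∈ hs ν t, ∀ s : ℝ, x₂ - x₁ ≠ s • v := by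
    by_contra hcon
    push Not at hcon
    exact hnl ⟨v, hv0, hcon⟩
  set δ : ℝ := -ν i v / (2 * (|ν i (x₂ - x₁)| + 1)) with hδ
  have hδ0 : 0 < δ := div_pos (by linarith) (by positivity)
  obtain ⟨w, hwd⟩ : ∃ w, w = δ • (x₂ - x₁) := ⟨_, rfl⟩
  have hwi : 0 < ν i w - ν i v := by
    rw [hwd, map_smul, smul_eq_mul]
    have h1 : δ * |ν i (x₂ - x₁)| ≤ -ν i v / 2 := by
      rw [hδ, div_mul_eq_mul_div, div_le_div_iff₀ (by positivity) (by norm_num)]
      nlinarith [abs_nonneg (ν i (x₂ - x₁))]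
    have h2 : -(δ * |ν i (x₂ - x₁)|) ≤ δ * ν i (x₂ - x₁) := by
      have := neg_abs_le (ν i (x₂ - x₁))
      nlinarith
    linarith
  -- the candidates
  classical
  set A : Finset (Fin n) := Finset.univ.filter fun j => Act ν t j ∧ ν j x = t j ∧
    0 < ν j w - ν j v with hA
  have hiA : i ∈ A := by
    rw [hA, Finset.mem_filter]
    exact ⟨Finset.mem_univ _, hi, hx.2, hwi⟩
  obtain ⟨j₀, hj₀A, hmin⟩ := A.exists_min_image
    (fun j => -ν j v / (ν j w - 2 * ν j v)) ⟨i, hiA⟩
  obtain ⟨-, hj₀, hj₀x, hj₀w⟩ := Finset.mem_filter.1 hj₀A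
  have hden : ∀ j, Act ν t j → ν j x = t j → 0 < ν j w - ν j v → 0 < ν j w - 2 * ν j v := by
    intro j h1 h2 h3
    have := hvA j h1 h2
    linarith
  set s : ℝ := -ν j₀ v / (ν j₀ w - 2 * ν j₀ v) with hs'
  have hs0 : 0 < s := div_pos (by linarith [hvA j₀ hj₀ hj₀x]) (hden j₀ hj₀ hj₀x hj₀w)
  have hs1 : s < 1 := by
    rw [hs', div_lt_one (hden j₀ hj₀ hj₀x hj₀w)]
    linarith [hvA j₀ hj₀ hj₀x]
  obtain ⟨u, hu⟩ : ∃ u, u = v + s • (w - (2:ℝ) • v) := ⟨_, rfl⟩
  have hνu : ∀ j, ν j u = ν j v + s * (ν j w - 2 * ν j v) := by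
    intro j
    rw [hu, map_add, map_smul, map_sub, map_smul, smul_eq_mul, smul_eq_mul]
  have hu0 : u ≠ 0 := by
    intro h
    have h1 : (s * δ) • (x₂ - x₁) = (2 * s - 1) • v := by
      have h2 : v + s • (w - (2:ℝ) • v) = 0 := hu ▸ h
      rw [hwd, smul_sub, smul_smul, smul_smul] at h2
      have h3 : (s * δ) • (x₂ - x₁) = (s * 2) • v - v := by
        have h4 : (s * δ) • (x₂ - x₁) =
            (v + ((s * δ) • (x₂ - x₁) - (s * 2) • v)) + (s * 2) • v - v := by abel
        rw [h2, zero_add] at h4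
        exact h4
      rw [h3, sub_smul, one_smul, mul_comm s 2]
    have h2 : s * δ ≠ 0 := (mul_pos hs0 hδ0).ne'
    refine hw ((s * δ)⁻¹ * (2 * s - 1)) ?_
    rw [mul_smul, ← h1, smul_smul, inv_mul_cancel₀ h2, one_smul]
  have hle : ∀ j, Act ν t j → ν j x = t j → ν j u ≤ 0 := by
    intro j hj hjx
    have hvj := hvA j hj hjx
    rw [hνu]
    by_cases h3 : 0 < ν j w - ν j v
    · have h4 := hmin j (by rw [hA, Finset.mem_filter]; exact ⟨Finset.mem_univ _, hj, hjx, h3⟩)
      have h5 : s ≤ -ν j v / (ν j w - 2 * ν j v) := h4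
      rw [le_div_iff₀ (hden j hj hjx h3)] at h5
      linarith
    · push Not at h3
      nlinarith
  have hequ : ν j₀ u = 0 := by
    rw [hνu, hs', div_mul_cancel₀ _ (hden j₀ hj₀ hj₀x hj₀w).ne']
    ring
  have hna : ∀ j, ¬ Act ν t j → ν j u = 0 := by
    intro j hj
    have h1 : ν j v = 0 := by
      rw [hv, map_sub, eq_of_not_act hj h0.1, eq_of_not_act hj hx.1, sub_self]
    have h2 : ν j w = 0 := by
      rw [hwd, map_smul, map_sub, eq_of_not_act hj hx₂, eq_of_not_act hj hx₁, sub_self, smul_zero]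
    rw [hνu, h1, h2]
    ring
  have hev : ∀ᶠ ε in 𝓝 (0:ℝ), ∀ j, ν j x < t j → ν j (x + ε • u) < t j := by
    rw [eventually_all]
    intro j
    by_cases h : ν j x < t j
    · have hc : Continuous fun ε : ℝ => ν j (x + ε • u) := by fun_prop
      have h1 : ∀ᶠ ε in 𝓝 (0:ℝ), ν j (x + ε • u) < t j :=
        hc.continuousAt.eventually_lt continuousAt_const (by simpa using h)
      filter_upwards [h1] with ε hε _
      exact hε
    · exact Eventually.of_forall fun ε h' => absurd h' h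
  obtain ⟨ε, hε, hev⟩ := Metric.eventually_nhds_iff.1 hev
  have hev' := hev (y := ε / 2)
    (by rw [Real.dist_eq, sub_zero, abs_of_pos (by positivity)]; linarith)
  have hmem : x + (ε / 2) • u ∈ hs ν t := by
    intro j
    by_cases hj : Act ν t j
    · by_cases hjx : ν j x = t j
      · rw [map_add, map_smul, smul_eq_mul, hjx]
        have := hle j hj hjx
        nlinarith
      · exact (hev' j (lt_of_le_of_ne (hx.1 j) hjx)).le
    · rw [map_add, map_smul, hna j hj, smul_zero, add_zero]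
      exact hx.1 j
  refine ⟨j₀, hj₀, ⟨hx.1, hj₀x⟩, x + (ε / 2) • u, ⟨hmem, ?_⟩, ?_⟩
  · rw [map_add, map_smul, hequ, smul_zero, add_zero, hj₀x]
  · intro h
    have h1 : (ε / 2) • u = 0 := add_eq_left.1 h
    rcases smul_eq_zero.1 h1 with h2 | h2
    · linarith
    · exact hu0 h2

end Vale.Agent.P073.H193
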