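import Vale.Agent.P073.AB.Part86
import Vale.Agent.P073.H194.MeshDefs

/-!
# P073, block A03-MESH: the refined partition is a partition (`SpecRefine`)

Also: the classification of the minimal squares of the refined partition.
-/

namespace Vale.Agent.P073.H193

open MeasureTheory Set Filter Topology Metric Vale.Agent.P073.St
open Vale.Agent.P073.SQ (ev)
open Vale.Agent.P073.AB (Idx Part pt edge eInt squ FaceOf EdgeOf EdgeOfSq MinSq)
open Vale.Agent.P073.AB.P86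
open Vale.Agent.P073.H194 (refine Big SpecRefine eIn eInSq)
open P073.Net (dyc dyo)
open P073.Net.NC (dyA dyB fine_sub fine_sub' dyc_sub)
open scoped ENNReal

/-! ### Dyadic cubes -/

/-- open cubes of nested cubes are nested -/
theorem dyo_sub {v : V} {m m' : ℕ} {z z' : Fin 3 → ℤ} (h : dyc v m' z' ⊆ dyc v m z) :
    dyo v m' z' ⊆ dyo v m z := by
  intro x hx k
  have h1 := sub_ineq h k
  have h2 := hx k
  constructor <;> linarith [h1.1, h1.2, h2.1, h2.2]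

/-- a point of a dyadic cube lies in a dyadic subcube of any higher generation -/
theorem exists_sub {v : V} {q : Idx} {n : ℕ} (hn : q.1 ≤ n) {x : V} (hx : x ∈ dyc v q.1 q.2) :
    ∃ z : Fin 3 → ℤ, x ∈ dyc v n z ∧ dyc v n z ⊆ dyc v q.1 q.2 := by
  obtain ⟨d, rfl⟩ := Nat.exists_eq_add_of_le hn
  have h2 : (0:ℝ) < 2 ^ q.1 := by positivity
  have h3 : (0:ℝ) < 2 ^ d := by positivity
  have h4 : (0:ℝ) < 2 ^ (q.1 + d) := by positivity
  have key : ∀ k, ∃ z : ℤ, (v k + z / 2 ^ (q.1 + d) ≤ x k ∧ x k ≤ v k + (z + 1) / 2 ^ (q.1 + d)) ∧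
      (q.2 k : ℝ) / 2 ^ q.1 ≤ z / 2 ^ (q.1 + d) ∧
      ((z : ℝ) + 1) / 2 ^ (q.1 + d) ≤ (q.2 k + 1) / 2 ^ q.1 := by
    intro k
    obtain ⟨hx1, hx2⟩ := hx k
    -- `z` is the minimum of the floor and the last position
    have ha : ((2 ^ d * q.2 k : ℤ) : ℝ) / 2 ^ (q.1 + d) = q.2 k / 2 ^ q.1 := by
      push_cast; rw [pow_add]; field_simp
    have hb : ((2 ^ d * (q.2 k + 1) - 1 : ℤ) + 1 : ℝ) / 2 ^ (q.1 + d) = (q.2 k + 1) / 2 ^ q.1 := by
      push_cast; rw [pow_add]; field_simp; ring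
    have hpow : (1 : ℤ) ≤ 2 ^ d := one_le_pow₀ (by norm_num)
    set y : ℝ := (x k - v k) * 2 ^ (q.1 + d) with hy
    have hya : ((2 ^ d * q.2 k : ℤ) : ℝ) ≤ y := by
      have : ((2 ^ d * q.2 k : ℤ) : ℝ) / 2 ^ (q.1 + d) ≤ x k - v k := by rw [ha]; linarith
      rwa [div_le_iff₀ h4] at this
    have hyb : y ≤ ((2 ^ d * (q.2 k + 1) - 1 : ℤ) + 1 : ℝ) := by
      have : x k - v k ≤ ((2 ^ d * (q.2 k + 1) - 1 : ℤ) + 1 : ℝ) / 2 ^ (q.1 + d) := by
        rw [hb]; linarith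
      rwa [le_div_iff₀ h4] at this
    refine ⟨min ⌊y⌋ (2 ^ d * (q.2 k + 1) - 1), ⟨?_, ?_⟩, ?_, ?_⟩
    · have h5 : ((min ⌊y⌋ (2 ^ d * (q.2 k + 1) - 1) : ℤ) : ℝ) ≤ y :=
        le_trans (by exact_mod_cast min_le_left _ _) (Int.floor_le y)
      have h6 : ((min ⌊y⌋ (2 ^ d * (q.2 k + 1) - 1) : ℤ) : ℝ) / 2 ^ (q.1 + d) ≤ x k - v k := by
        rw [div_le_iff₀ h4]; exact h5
      linarith
    · have h5 : y ≤ ((min ⌊y⌋ (2 ^ d * (q.2 k + 1) - 1) : ℤ) : ℝ) + 1 := by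
        rcases le_total ⌊y⌋ (2 ^ d * (q.2 k + 1) - 1) with h | h
        · rw [min_eq_left h]; exact (Int.lt_floor_add_one y).le
        · rw [min_eq_right h]; exact hyb
      have h6 : x k - v k ≤ (((min ⌊y⌋ (2 ^ d * (q.2 k + 1) - 1) : ℤ) : ℝ) + 1) / 2 ^ (q.1 + d) := by
        rw [le_div_iff₀ h4]; exact h5
      linarith
    · rw [← ha]
      apply div_le_div_of_nonneg_right _ h4.le
      have h5 : (2 ^ d * q.2 k : ℤ) ≤ ⌊y⌋ := Int.le_floor.2 hya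
      have h6 : (2 ^ d * q.2 k : ℤ) ≤ 2 ^ d * (q.2 k + 1) - 1 := by nlinarith
      exact_mod_cast le_min h5 h6
    · rw [← hb]
      apply div_le_div_of_nonneg_right _ h4.le
      have := min_le_right ⌊y⌋ (2 ^ d * (q.2 k + 1) - 1)
      have h5 : ((min ⌊y⌋ (2 ^ d * (q.2 k + 1) - 1) : ℤ) : ℝ) ≤ ((2 ^ d * (q.2 k + 1) - 1 : ℤ) : ℝ) := by
        exact_mod_cast this
      linarith
  choose z hz1 hz2 using key
  exact ⟨z, fun k => hz1 k, dyc_sub fun k => hz2 k⟩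

/-- the dyadic subcubes of bounded generation of a dyadic cube are finitely many -/
theorem finite_sub (v : V) (q : Idx) (n : ℕ) :
    {r : Idx | r.1 ≤ n ∧ dyc v r.1 r.2 ⊆ dyc v q.1 q.2}.Finite := by
  have h : ∀ m ∈ Finset.range (n + 1),
      {r : Idx | r.1 = m ∧ dyc v r.1 r.2 ⊆ dyc v q.1 q.2}.Finite := by
    intro m _
    refine ((Set.finite_singleton m).prod (Set.Finite.pi' (fun k : Fin 3 =>
      Set.finite_Icc (-(2 ^ m * |q.2 k|) : ℤ) (2 ^ m * (|q.2 k| + 1))))).subset ?_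
    rintro ⟨m', z⟩ ⟨hm, hs⟩
    simp only at hm hs
    subst hm
    refine ⟨rfl, ?_⟩
    intro k
    have h1 := sub_ineq hs k
    have h2 : (1:ℝ) ≤ 2 ^ q.1 := one_le_pow₀ (by norm_num)
    have h2' : (0:ℝ) < 2 ^ q.1 := by positivity
    have h3 : (0:ℝ) < 2 ^ m' := by positivity
    have h4 : -|(q.2 k : ℝ)| ≤ (q.2 k : ℝ) / 2 ^ q.1 := by
      rw [le_div_iff₀ h2']
      have := neg_abs_le (q.2 k : ℝ)
      have h5 := abs_nonneg (q.2 k : ℝ)
      nlinarith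
    have h5 : ((q.2 k : ℝ) + 1) / 2 ^ q.1 ≤ |(q.2 k : ℝ)| + 1 := by
      rw [div_le_iff₀ h2']
      have := le_abs_self (q.2 k : ℝ)
      have h5 := abs_nonneg (q.2 k : ℝ)
      nlinarith
    have h6 : -(2 ^ m' * |(q.2 k : ℝ)|) ≤ z k := by
      have := (h4.trans h1.1)
      rw [le_div_iff₀ h3] at this
      linarith
    have h7 : (z k : ℝ) ≤ 2 ^ m' * (|(q.2 k : ℝ)| + 1) := by
      have := (h1.2.trans h5)
      rw [div_le_iff₀ h3] at this
      linarith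
    simp only [Set.mem_Icc]
    constructor
    · exact_mod_cast h6
    · exact_mod_cast h7
  refine ((Finset.range (n + 1)).finite_toSet.biUnion (t := fun m =>
    {r : Idx | r.1 = m ∧ dyc v r.1 r.2 ⊆ dyc v q.1 q.2}) (fun m hm => h m hm)).subset ?_
  rintro r ⟨h1, h2⟩
  exact mem_biUnion (x := r.1) (by simpa [Nat.lt_succ_iff] using h1) ⟨rfl, h2⟩

section

variable {Ω : Set V} {v : V} {I P B : Set Idx} {n : Idx → ℕ}

/-- the cubes of the refined partition lie in cubes of the partition -/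
theorem refine_cases (hB : Big v I P B n) {r : Idx} (hr : r ∈ refine v I P B n) :
    r ∈ P ∨ ∃ q ∈ I \ P, dyc v r.1 r.2 ⊆ dyc v q.1 q.2 ∧
      ((r ∈ B ∧ dyc v r.1 r.2 ⊆ dyo v q.1 q.2 ∧ r.1 ≤ n q) ∨
        (r.1 = n q ∧ ∀ b ∈ B, ¬ dyc v r.1 r.2 ⊆ dyc v b.1 b.2)) := by
  rcases hr with (h | h) | ⟨q, hq, h1, h2, h3⟩
  · exact Or.inl h
  · obtain ⟨q, hq, h1, h2⟩ := hB.big r h
    exact Or.inr ⟨q, hq, h1.trans dyo_sub_dyc, Or.inl ⟨h, h1, h2⟩⟩
  · exact Or.inr ⟨q, hq, h2, Or.inr ⟨h1, h3⟩⟩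

/-- **(PART)** -/
theorem specRefine : SpecRefine := by
  intro Ω v I P B n hΩ hI hB
  refine ⟨?_, ?_, ?_, ?_⟩
  · intro r hr
    rcases refine_cases hB hr with h | ⟨q, hq, h, -⟩
    · exact hI.sub r (hB.sub h)
    · exact h.trans (hI.sub q hq.1)
  · intro x hx
    obtain ⟨q, hq, hxq⟩ := hI.cover x hx
    by_cases hqP : q ∈ P
    · exact ⟨q, Or.inl (Or.inl hqP), hxq⟩
    obtain ⟨z, hz, hzq⟩ := exists_sub (hB.gen q ⟨hq, hqP⟩) hxq
    by_cases hb : ∃ b ∈ B, dyc v (n q) z ⊆ dyc v b.1 b.2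
    · obtain ⟨b, hb, hzb⟩ := hb
      exact ⟨b, Or.inl (Or.inr hb), hzb hz⟩
    · push Not at hb
      exact ⟨(n q, z), Or.inr ⟨q, ⟨hq, hqP⟩, rfl, hzq, hb⟩, hz⟩
  · intro r hr r' hr' hne
    rw [Set.disjoint_left]
    intro x hx hx'
    apply hne
    rcases refine_cases hB hr with h | ⟨q, hq, h, h0⟩ <;>
      rcases refine_cases hB hr' with h' | ⟨q', hq', h', h0'⟩
    · exact eq_of_mem hI (hB.sub h) (hB.sub h') hx hx'
    · have := eq_of_mem hI (hB.sub h) hq'.1 hx (h' hx')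
      exact absurd (this ▸ h) hq'.2
    · have := eq_of_mem hI hq.1 (hB.sub h') (dyo_sub h hx) hx'
      exact absurd (this ▸ h') hq.2
    · have hqq := eq_of_mem hI hq.1 hq'.1 (dyo_sub h hx) (h' hx')
      subst hqq
      rcases h0 with ⟨hb, -, hle⟩ | ⟨heq, hno⟩ <;> rcases h0' with ⟨hb', -, hle'⟩ | ⟨heq', hno'⟩
      · by_contra hc
        exact Set.disjoint_left.1 (hB.disj r hb r' hb' hc) (dyo_sub_dyc hx) hx'
      · exact absurd (dyc_sub (fine_sub (by rw [heq']; exact hle) hx hx')) (hno' r hb)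
      · exact absurd (dyc_sub (fine_sub' (by rw [heq]; exact hle') hx hx')) (hno r' hb')
      · have hg : r.1 = r'.1 := by rw [heq, heq']
        have h1 : dyc v r'.1 r'.2 ⊆ dyc v r.1 r.2 := dyc_sub (fine_sub hg.le hx hx')
        refine Prod.ext hg ?_
        rw [← hg] at h1
        exact (eq_of_sub_same h1).symm
  · intro K hK hKc
    have h1 := hI.fin K hK hKc
    refine ((h1.biUnion (t := fun q => {r : Idx | r.1 ≤ n q ∧ dyc v r.1 r.2 ⊆ dyc v q.1 q.2})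
      (fun q _ => finite_sub v q (n q))).union h1).subset ?_
    rintro r ⟨hr, y, hy, hyK⟩
    rcases refine_cases hB hr with h | ⟨q, hq, h, h0⟩
    · exact Or.inr ⟨hB.sub h, y, hy, hyK⟩
    · refine Or.inl (mem_biUnion (x := q) ⟨hq.1, y, h hy, hyK⟩ ⟨?_, h⟩)
      rcases h0 with ⟨-, -, h0⟩ | ⟨h0, -⟩
      · exact h0
      · exact h0.le

end

end Vale.Agent.P073.H193
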