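import Vale.Agent.P073.H79.PEfinal
import Vale.Agent.P073.H193.PE3

/-!
# P073, [PRE-2], [E3]: the literal Prop
-/

namespace Vale.Agent.P073.H193

theorem specE3 (p : ℝ) : H340.SpecE3 p := by
  intro ε δ Φ Ω Λ g f F D R hK hE
  exact ⟨D.cond R hK, D.wle R hK hE⟩

end Vale.Agent.P073.H193
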