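import Vale.Agent.P073.H193.Paths
import Vale.Agent.P073.H193.Fill
import Vale.Agent.P073.H234.P2Defs

/-!
# P073, block P2h: `SpecPaths`

The set of the points which must never enter a neck cube is connected.
-/

open Set Filter Topology Metric

namespace Vale.Agent.P073.H193

open Vale.Agent.P073.St (V)
open Vale.Agent.P073.SQ (ev)
open Vale.Agent.P073.AB
open _root_.P073.Net (dyc dyo)
open _root_.P073 (ConBall)
open Vale.Agent.P073.AB.P86 (rel lo lo_same lo_other)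
open Vale.Agent.P073.H234 (Clean NSet NExt NSq NCi NEd NRay dbox ownQ ownO dn SpecPaths)

variable {v : V} {N : ℕ}

theorem dn_eq (s : Idx × Fin 3) : dn s = lo s := by
  funext k
  by_cases hk : k = s.2
  · subst hk; rw [lo_same]; simp [dn]
  · rw [lo_other s hk]; simp [dn, hk]

/-- the points of a dyadic edge -/
theorem mem_edge' {e : Idx × Fin 3} {x : V} : x ∈ edge v e ↔
    (∀ l, l ≠ e.2 → x l = v l + e.1.2 l / 2 ^ e.1.1) ∧
      v e.2 + e.1.2 e.2 / 2 ^ e.1.1 ≤ x e.2 ∧ x e.2 ≤ v e.2 + (e.1.2 e.2 + 1) / 2 ^ e.1.1 := by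
  have hp : (0:ℝ) < 2 ^ e.1.1 := by positivity
  rw [edge, segment_eq_image']
  constructor
  · rintro ⟨t, ht, rfl⟩
    refine ⟨fun l hl => ?_, ?_, ?_⟩
    · simp [pt, ev, Pi.single_eq_of_ne hl]
    · simp only [add_sub_cancel_left, Pi.add_apply, Pi.smul_apply, ev, Pi.single_eq_same,
        smul_eq_mul, mul_one, pt]
      have : 0 ≤ t * (1 / 2 ^ e.1.1) := mul_nonneg ht.1 (by positivity)
      linarith
    · simp only [add_sub_cancel_left, Pi.add_apply, Pi.smul_apply, ev, Pi.single_eq_same,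
        smul_eq_mul, mul_one, pt]
      have : t * (1 / 2 ^ e.1.1) ≤ 1 * (1 / 2 ^ e.1.1) :=
        mul_le_mul_of_nonneg_right ht.2 (by positivity)
      rw [add_div]; linarith
  · rintro ⟨h1, h2, h3⟩
    refine ⟨(x e.2 - (v e.2 + e.1.2 e.2 / 2 ^ e.1.1)) * 2 ^ e.1.1, ⟨?_, ?_⟩, ?_⟩
    · exact mul_nonneg (by linarith) hp.le
    · have h4 : x e.2 - (v e.2 + e.1.2 e.2 / 2 ^ e.1.1) ≤ 1 / 2 ^ e.1.1 := by
        rw [add_div] at h3; linarith
      have := mul_le_mul_of_nonneg_right h4 hp.le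
      rwa [div_mul_cancel₀ _ hp.ne'] at this
    · funext l
      by_cases hl : l = e.2
      · subst hl
        simp only [add_sub_cancel_left, Pi.add_apply, Pi.smul_apply, ev, Pi.single_eq_same,
          smul_eq_mul, mul_one, pt]
        field_simp
        ring
      · simp [pt, ev, Pi.single_eq_of_ne hl, h1 l hl]

theorem conBall_pre {n : ℕ} {C B : Set V} (h : ConBall n C B) : IsPreconnected C := by
  obtain ⟨_, φ, _⟩ := h
  have h1 : C = φ.invFun '' closedBall 0 1 := (φ.symm.image_eq).symm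
  rw [h1]
  exact (convex_closedBall _ _).isPreconnected.image _ φ.cont_inv

theorem conBall_bd_pre {n : ℕ} (hn : 2 ≤ n) {C B : Set V} (h : ConBall n C B) :
    IsPreconnected B := by
  obtain ⟨hB, φ, hφ⟩ := h
  have h1 : B = φ.invFun '' sphere 0 1 := by
    rw [← hφ]
    ext x
    constructor
    · exact fun hx => ⟨φ.toFun x, ⟨x, hx, rfl⟩, φ.left_inv (hB hx)⟩
    · rintro ⟨_, ⟨y, hy, rfl⟩, rfl⟩
      rwa [φ.left_inv (hB hy)]
  rw [h1]
  refine IsPreconnected.image ?_ _ (φ.cont_inv.mono sphere_subset_closedBall)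
  refine isPreconnected_sphere ?_ 0 1
  rw [rank_fin_fun]
  exact_mod_cast hn

theorem conBall_compact {n : ℕ} {C B : Set V} (h : ConBall n C B) : IsCompact C := by
  obtain ⟨_, φ, _⟩ := h
  have h1 : C = φ.invFun '' closedBall 0 1 := (φ.symm.image_eq).symm
  rw [h1]
  exact (isCompact_closedBall _ _).image_of_continuousOn φ.cont_inv

/-- the path along an edge, away from `o`, to a vertex -/
theorem edge_path {e : Idx × Fin 3} (he : e.1.1 = N) {x o : V} {c : ℝ} (hx : x ∈ edge v e)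
    (hc : c < ‖x - o‖) :
    ∃ (a : Fin 3 → ℤ) (P : Set V), IsPreconnected P ∧ x ∈ P ∧ pt v N a ∈ P ∧ P ⊆ edge v e ∧
      ∀ y ∈ P, c < ‖y - o‖ := by
  rw [mem_edge'] at hx
  obtain ⟨h1, h2, h3⟩ := hx
  set k := e.2 with hk
  set f : ℝ → V := fun t => Function.update x k t with hf
  have hfc : Continuous f := continuous_const.update k continuous_id
  set t1 := endv v o e x k with ht1
  have hei : x k ∈ Icc (v k + (e.1.2 k : ℝ) / 2 ^ e.1.1) (v k + (e.1.2 k + 1) / 2 ^ e.1.1) :=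
    ⟨h2, h3⟩
  have huI : uIcc (x k) t1 ⊆ Icc (v k + (e.1.2 k : ℝ) / 2 ^ e.1.1)
      (v k + (e.1.2 k + 1) / 2 ^ e.1.1) := uIcc_subset_Icc hei endv_mem
  refine ⟨Function.update e.1.2 k (endz o e x k), f '' uIcc (x k) t1,
    isPreconnected_uIcc.image _ hfc.continuousOn, ⟨x k, left_mem_uIcc, by simp [hf]⟩,
    ⟨t1, right_mem_uIcc, ?_⟩, ?_, ?_⟩
  · funext l
    by_cases hl : l = k
    · subst hl; simp only [hf, Function.update_self, pt, ht1, endv, he]
    · simp only [hf, Function.update_of_ne hl, pt]; rw [h1 l hl, he]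
  · rintro _ ⟨t, ht, rfl⟩
    rw [mem_edge']
    refine ⟨fun l hl => ?_, ?_⟩
    · simp only [hf]; rw [Function.update_of_ne hl]; exact h1 l hl
    · simp only [hf]; rw [Function.update_self]; exact huI ht
  · rintro _ ⟨t, ht, rfl⟩
    refine hc.trans_le (norm_le_of_coord (i := k) (fun l hl => ?_) ?_)
    · simp only [hf]; rw [Function.update_of_ne hl]
    · simp only [hf]; rw [Function.update_self]; exact away hei ht

/-- the ray of `H234.NRay` -/
theorem ray_eq {a o : V} {k : Fin 3} {t : ℝ} (ht : 0 ≤ t * (a k - o k)) (h0 : a k - o k ≠ 0) :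
    a + t • ev k = ray a o k |t| := by
  unfold ray
  have h1 : |t| * sg (a k - o k) = t := by
    unfold sg
    split_ifs with h
    · have h2 : 0 < a k - o k := lt_of_le_of_ne h (Ne.symm h0)
      have h3 : 0 ≤ t := by
        by_contra hn
        have := mul_neg_of_neg_of_pos (not_le.1 hn) h2
        linarith
      rw [mul_one, abs_of_nonneg h3]
    · have h2 : a k - o k < 0 := not_le.1 h
      have h3 : t ≤ 0 := by
        by_contra hn
        have := mul_neg_of_pos_of_neg (not_le.1 hn) h2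
        linarith
      rw [mul_neg_one, abs_of_nonpos h3, neg_neg]
  rw [h1]

theorem sg_mul_self (t : ℝ) : sg t * t = |t| := by
  unfold sg
  split_ifs with h
  · rw [one_mul, abs_of_nonneg h]
  · rw [abs_of_neg (not_le.1 h)]; ring

theorem abs_sg (t : ℝ) : |sg t| = 1 := by unfold sg; split_ifs <;> simp

/-- **[PATHS]** -/
theorem specPaths : SpecPaths := by
  intro Ω v m j J t₀ ι D c s o R hΩo hΩ hfin hR ht₀ hj hz0 hball hJΩ hvert hcl hbl hdisj hsub hop
  have hpm : (0:ℝ) < 2 ^ m := by positivity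
  have ht0 : 0 < t₀ := lt_of_lt_of_le (by positivity) ht₀
  set N := m + j with hN
  have hE : (2:ℝ) ^ N = 2 ^ m * 2 ^ j := pow_add 2 m j
  have hpj : (0:ℝ) < 2 ^ j := by positivity
  -- the disc family
  have DF : DiscFam v N s D c :=
    { gen := fun i => by obtain ⟨z, _, h⟩ := hcl i; exact h.1
      closed := fun i => (conBall_compact (hbl i)).isClosed
      sub := hsub
      opn := hop
      circ_sub := fun i => (hbl i).1
      circ := fun i => conBall_bd_pre le_rfl (hbl i)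
      disc := fun i => conBall_pre (hbl i)
      disj := hdisj }
  -- a far point of a disc gives a far point of the circle
  have hfarc : ∀ i, (∃ y ∈ D i, R < ‖y - o‖) → ∃ y ∈ c i, R < ‖y - o‖ := by
    rintro i ⟨y, hy, hyR⟩
    by_contra hn
    push Not at hn
    have h1 := hull2 (conBall_compact (hbl i)) (hsub i) (hop i) (o := o) (R := R)
      (fun x hx => by rw [mem_closedBall_iff_norm]; exact hn x hx) hy
    rw [mem_closedBall_iff_norm] at h1
    linarith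
  -- the box
  set A : Fin 3 → ℤ := fun k => (⌊2 ^ m * (o k - v k)⌋ - ⌈2 ^ m * t₀⌉) * 2 ^ j with hA
  set B : Fin 3 → ℤ := fun k => (⌊2 ^ m * (o k - v k)⌋ + 1 + ⌈2 ^ m * t₀⌉) * 2 ^ j with hB
  have hceil : (1:ℤ) ≤ ⌈2 ^ m * t₀⌉ := Int.one_le_ceil_iff.2 (by positivity)
  have hceil2 : (⌈2 ^ m * t₀⌉ : ℝ) < 2 ^ m * t₀ + 1 := Int.ceil_lt_add_one _
  have hfl1 : ∀ k, (⌊2 ^ m * (o k - v k)⌋ : ℝ) ≤ 2 ^ m * (o k - v k) := fun k => Int.floor_le _
  have hfl2 : ∀ k, 2 ^ m * (o k - v k) < ⌊2 ^ m * (o k - v k)⌋ + 1 := fun k =>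
    Int.lt_floor_add_one _
  have hptA : ∀ k, pt v N A k = v k + ((⌊2 ^ m * (o k - v k)⌋ : ℝ) - ⌈2 ^ m * t₀⌉) / 2 ^ m := by
    intro k
    simp only [pt, hA, hE]
    push_cast
    rw [mul_comm ((2:ℝ) ^ m) (2 ^ j), ← div_div, mul_div_cancel_right₀ _ hpj.ne']
  have hptB : ∀ k, pt v N B k =
      v k + ((⌊2 ^ m * (o k - v k)⌋ : ℝ) + 1 + ⌈2 ^ m * t₀⌉) / 2 ^ m := by
    intro k
    simp only [pt, hB, hE]
    push_cast
    rw [mul_comm ((2:ℝ) ^ m) (2 ^ j), ← div_div, mul_div_cancel_right₀ _ hpj.ne']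
  have hdbox : dbox v m t₀ o = lbo v N A B := by
    ext x
    simp only [dbox, lbo, obx, mem_ofPred_eq, hptA, hptB]
  -- the size of the box
  have h4 : 4 ≤ 2 ^ m * t₀ := by
    rw [div_le_iff₀ hpm] at ht₀; linarith
  have hlow : ∀ k, o k - 3 / 2 * t₀ ≤ pt v N A k := by
    intro k
    rw [hptA, ← sub_nonneg]
    have h1 : 0 ≤ (⌊2 ^ m * (o k - v k)⌋ : ℝ) - ⌈2 ^ m * t₀⌉ - 2 ^ m * (o k - v k - 3 / 2 * t₀) := by
      have := hfl2 k
      nlinarith
    have h2 : v k + ((⌊2 ^ m * (o k - v k)⌋ : ℝ) - ⌈2 ^ m * t₀⌉) / 2 ^ m - (o k - 3 / 2 * t₀) =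
        ((⌊2 ^ m * (o k - v k)⌋ : ℝ) - ⌈2 ^ m * t₀⌉ - 2 ^ m * (o k - v k - 3 / 2 * t₀)) / 2 ^ m := by
      field_simp
      ring
    rw [h2]
    positivity
  have hupp : ∀ k, pt v N B k ≤ o k + 3 / 2 * t₀ := by
    intro k
    rw [hptB, ← sub_nonneg]
    have h1 : 0 ≤ 2 ^ m * (o k - v k + 3 / 2 * t₀) -
        ((⌊2 ^ m * (o k - v k)⌋ : ℝ) + 1 + ⌈2 ^ m * t₀⌉) := by
      have := hfl1 k
      nlinarith
    have h2 : o k + 3 / 2 * t₀ - (v k + ((⌊2 ^ m * (o k - v k)⌋ : ℝ) + 1 + ⌈2 ^ m * t₀⌉) / 2 ^ m) =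
        (2 ^ m * (o k - v k + 3 / 2 * t₀) -
        ((⌊2 ^ m * (o k - v k)⌋ : ℝ) + 1 + ⌈2 ^ m * t₀⌉)) / 2 ^ m := by
      field_simp
      ring
    rw [h2]
    positivity
  have hAB : ∀ k, A k < B k := fun k => by
    have h2 : (0:ℤ) < 2 ^ j := by positivity
    exact mul_lt_mul_of_pos_right (by omega) h2
  have hlbc : lbc v N A B ⊆ Ω := by
    refine Subset.trans (fun x hx => ?_) hball
    rw [mem_closedBall_iff_norm, pi_norm_le_iff_of_nonneg (by positivity)]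
    intro k
    have h1 := hx k
    have h2 := hlow k
    have h3 := hupp k
    rw [Pi.sub_apply, Real.norm_eq_abs, abs_le]
    constructor <;> linarith [h1.1, h1.2]
  -- the own cubes
  have hQfin : (ownQ v m j J).Finite := by
    have h1 : ownQ v m j J ⊆ ⋃ z ∈ J, {w : Fin 3 → ℤ | dyc v N w ⊆ dyc v m z} := by
      rintro w ⟨z, hz, h⟩
      exact mem_iUnion₂.2 ⟨z, hz, h⟩
    refine (J.finite_toSet.biUnion fun z _ => ?_).subset h1
    refine (Set.finite_Icc (fun k => z k * 2 ^ j : Fin 3 → ℤ) (fun k => (z k + 1) * 2 ^ j)).subset ?_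
    intro w hw
    have h1 : pt v N w ∈ dyc v N w := fun k => by
      have hp : (0:ℝ) < 1 / 2 ^ N := by positivity
      simp only [pt]
      rw [add_div]
      constructor <;> linarith
    have h2 : pt v N w ∈ dyc v m z := hw h1
    constructor
    · intro k
      have h3 := (h2 k).1
      simp only [pt, hE] at h3
      have h5 : (z k : ℝ) / 2 ^ m ≤ w k / (2 ^ m * 2 ^ j) := by linarith
      rw [div_le_div_iff₀ hpm (by positivity)] at h5
      have h6 : (z k : ℝ) * 2 ^ j ≤ w k := by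
        have : 2 ^ m * ((z k : ℝ) * 2 ^ j) ≤ 2 ^ m * w k := by linarith
        exact le_of_mul_le_mul_left this hpm
      exact_mod_cast h6
    · intro k
      have h3 := (h2 k).2
      simp only [pt, hE] at h3
      have h5 : (w k : ℝ) / (2 ^ m * 2 ^ j) ≤ (z k + 1) / 2 ^ m := by linarith
      rw [div_le_div_iff₀ (by positivity) hpm] at h5
      have h6 : (w k : ℝ) ≤ (z k + 1) * 2 ^ j := by
        have : 2 ^ m * (w k : ℝ) ≤ 2 ^ m * ((z k + 1) * 2 ^ j) := by linarith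
        exact le_of_mul_le_mul_left this hpm
      exact_mod_cast h6
  have hQΩ : ∀ w ∈ ownQ v m j J, dyc v N w ⊆ Ω := by
    rintro w ⟨z, hz, h⟩
    exact h.trans (hJΩ z hz)
  have hs1 : ∀ i, (s i).1.2 ∈ ownQ v m j J := fun i => by
    obtain ⟨z, hz, h⟩ := hcl i
    exact ⟨z, hz, h.2.1⟩
  have hs2 : ∀ i, lo (s i) ∈ ownQ v m j J := fun i => by
    obtain ⟨z, hz, h⟩ := hcl i
    rw [← dn_eq]
    exact ⟨z, hz, h.2.2⟩
  have hExt : NExt v m j J t₀ D c Ω o = outer Ω v N A B (ownQ v m j J) D c := by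
    ext x
    simp only [NExt, outer, ownO, hdbox, mem_ofPred_eq, Set.mem_sdiff, mem_union, mem_iUnion,
      not_or, not_exists]
    constructor
    · rintro ⟨h1, h2, h3, h4⟩
      exact ⟨⟨h1, h4, h2⟩, h3⟩
    · rintro ⟨⟨h1, h4⟩, h3⟩
      exact ⟨h1, h4.2, h3, h4.1⟩
  have hO : IsPreconnected (NExt v m j J t₀ D c Ω o) := by
    rw [hExt]
    exact ext_disc hΩ hAB hlbc hQfin hQΩ DF.gen hs1 hs2 DF.closed DF.sub DF.opn DF.circ_sub
      DF.circ DF.disj
  -- rays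
  have hray : ∀ z ∈ J, ∀ a : Fin 3 → ℤ, pt v N a ∈ dyc v m z → R < ‖pt v N a - o‖ → ∀ k : Fin 3,
      |pt v N a k - o k| = ‖pt v N a - o‖ →
      ∃ C ⊆ NRay v m j J t₀ o R, IsPreconnected C ∧
        (∀ t ∈ Icc 0 (2 * t₀), ray (pt v N a) o k t ∈ C) ∧
        (C ∩ NExt v m j J t₀ D c Ω o).Nonempty := by
    intro z hz a ha haR k hk
    have ht2 : 0 ≤ 2 * t₀ := by positivity
    refine ⟨ray (pt v N a) o k '' Icc 0 (2 * t₀), ?_,
      isPreconnected_Icc.image _ (continuous_ray _ _ _).continuousOn,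
      fun t ht => mem_image_of_mem _ ht, ray (pt v N a) o k (2 * t₀),
      mem_image_of_mem _ (right_mem_Icc.2 ht2), ?_⟩
    · rintro _ ⟨t, ht, rfl⟩
      refine ⟨z, hz, a, ha, k, t * sg (pt v N a k - o k), ?_, rfl, ?_, hk, haR⟩
      · rw [abs_mul, abs_sg, mul_one, abs_of_nonneg ht.1]; exact ht.2
      · rw [mul_assoc, sg_mul_self]; exact mul_nonneg ht.1 (abs_nonneg _)
    · rw [hExt]
      refine DF.skel_outer (skel_ray _) ?_ ?_
      · apply hvert z hz a ha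
        rw [mem_closedBall_iff_norm, norm_ray_sub ht2]
        linarith
      · intro hx
        have h1 := hx k
        have h2 := hlow k
        have h3 := hupp k
        have h5 := abs_ray (a := pt v N a) (o := o) (i := k) ht2
        have h6 : |ray (pt v N a) o k (2 * t₀) k - o k| ≤ 3 / 2 * t₀ := by
          rw [abs_le]; constructor <;> linarith [h1.1, h1.2]
        have h7 := abs_nonneg (pt v N a k - o k)
        linarith
  have hcoord : ∀ y : V, ∃ k : Fin 3, |y k| = ‖y‖ := by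
    intro y
    by_contra hn
    push Not at hn
    have h1 : ‖y‖ < ‖y‖ := by
      by_cases hy : ‖y‖ = 0
      · exfalso
        have h2 := norm_le_pi_norm y 0
        rw [hy, Real.norm_eq_abs] at h2
        exact hn 0 (by rw [hy]; exact le_antisymm h2 (abs_nonneg _))
      · have hy' : 0 < ‖y‖ := lt_of_le_of_ne (norm_nonneg _) (Ne.symm hy)
        rw [pi_norm_lt_iff hy']
        intro k
        exact lt_of_le_of_ne (norm_le_pi_norm y k) (hn k)
    exact lt_irrefl _ h1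
  -- from a vertex to the outside
  have hvx : ∀ z ∈ J, ∀ a : Fin 3 → ℤ, pt v N a ∈ dyc v m z → R < ‖pt v N a - o‖ →
      ∃ C ⊆ NSet v m j J t₀ D c Ω o R, IsPreconnected C ∧ pt v N a ∈ C ∧
        (C ∩ NExt v m j J t₀ D c Ω o).Nonempty := by
    intro z hz a ha haR
    obtain ⟨k, hk⟩ := hcoord (pt v N a - o)
    obtain ⟨C, hC, hCp, hC1, hC2⟩ := hray z hz a ha haR k hk
    refine ⟨C, hC.trans fun x hx => Or.inr hx, hCp, ?_, hC2⟩
    have := hC1 0 (left_mem_Icc.2 (by positivity))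
    rwa [ray_zero] at this
  -- a path in a square and a ray
  have hpath : ∀ z ∈ J, ∀ q : Idx × Fin 3, Clean v m j z q → ∀ e ∈ squ v q, R < ‖e - o‖ →
      ∃ C ⊆ NSet v m j J t₀ D c Ω o R, IsPreconnected C ∧
        ((∀ i, e ∉ D i) → e ∈ C) ∧ (∀ i, e ∈ D i → c i ⊆ C) ∧
        (C ∩ NExt v m j J t₀ D c Ω o).Nonempty := by
    intro z hz q hq e he hec
    obtain ⟨w, P, hP, hwP, hws, hwc, hPs, h1, h2⟩ := DF.exists_path hq.1 he hec
    have hwz : pt v N w ∈ dyc v m z := by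
      apply hq.2.1
      have := P86.squ_sub_hi hws
      rw [hq.1] at this; exact this
    obtain ⟨C, hC, hCp, hwC, y, hy1, hy2⟩ := hvx z hz w hwz hwc
    refine ⟨P ∪ C, union_subset (fun x hx => ?_) hC, hP.union _ hwP hwC hCp,
      fun h => Or.inl (h1 h), fun i hi => (h2 i hi).trans subset_union_left, y, Or.inr hy1, hy2⟩
    obtain ⟨hxs, _, h | ⟨i, hi, hxi, y', hy', hyc⟩⟩ := hPs x hx
    · exact Or.inl (Or.inl (Or.inl (Or.inr ⟨⟨z, hz, q, hq, hxs⟩, h.1, h.2⟩)))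
    · obtain ⟨y'', hy'', hyR⟩ := hfarc i ⟨y', hy', hyc⟩
      exact Or.inl (Or.inl (Or.inr ⟨i, hxi, y'', hy'', hyR⟩))
  refine isPreconnected_of_hub hO (fun x hx => Or.inl (Or.inl (Or.inl (Or.inl hx)))) ?_
  rintro x ((((hx | hx) | hx) | hx) | hx)
  · exact ⟨_, fun y hy => Or.inl (Or.inl (Or.inl (Or.inl hy))), hO, hx, x, hx, hx⟩
  · obtain ⟨⟨z, hz, q, hq, hxq⟩, hxD, hxR⟩ := hx
    obtain ⟨C, hC, hCp, h1, _, h3⟩ := hpath z hz q hq x hxq hxR
    exact ⟨C, hC, hCp, h1 hxD, h3⟩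
  · obtain ⟨i, hxi, y, hy, hyR⟩ := hx
    obtain ⟨z, hz, hq⟩ := hcl i
    have hyD := (hbl i).1 hy
    obtain ⟨C, hC, hCp, _, h2, h3⟩ := hpath z hz (s i) hq y (P86.rel_sub (hsub i hyD)) hyR
    exact ⟨C, hC, hCp, h2 i hyD hxi, h3⟩
  · obtain ⟨⟨z, hz, e, he, hez, hxe⟩, hxR⟩ := hx
    obtain ⟨a, P, hP, hxP, haP, hPe, hPR⟩ := edge_path he hxe hxR
    obtain ⟨C, hC, hCp, hwC, y, hy1, hy2⟩ := hvx z hz a (hez (hPe haP)) (hPR _ haP)
    refine ⟨P ∪ C, union_subset (fun x hx => ?_) hC, hP.union _ haP hwC hCp, Or.inl hxP, y,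
      Or.inr hy1, hy2⟩
    exact Or.inl (Or.inr ⟨⟨z, hz, e, he, hez, hPe hx⟩, hPR x hx⟩)
  · obtain ⟨z, hz, a, ha, k, t, ht, rfl, hsgn, hk, haR⟩ := hx
    obtain ⟨C, hC, hCp, hC1, hC2⟩ := hray z hz a ha haR k hk
    refine ⟨C, hC.trans fun x hx => Or.inr hx, hCp, ?_, hC2⟩
    have h0 : pt v N a k - o k ≠ 0 := fun h => by
      rw [h, abs_zero] at hk
      linarith
    rw [ray_eq hsgn h0]
    exact hC1 _ ⟨abs_nonneg t, ht⟩

end Vale.Agent.P073.H193
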