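import Vale.Agent.P073.H267.K3St2

/-!
# P073, block H193 ([CELL3]): **[STRIP]**, the drawn faces in the strip around the plate `PB 1 s`

* `wallW`: the side walls, at distance `a s / 2` from the corners, are in the full zones of the
  boxes of round T;
* `strip_tube`: a face in the strip which meets a band of the coordinate `tg s β` is deep in a
  box of round T of the same direction.
-/

open Set Metric Topology Filter

namespace Vale.Agent.P073.H193

open _root_.P073 _root_.P073.Net _root_.P073.PA691 _root_.P073.H236 _root_.P073.H579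
open _root_.P073.H345 (PK tg tg_ne tg_bt bt tg_cases tg_ne_not PLev PB_sub_PK bt_tg)
open _root_.P073.H155 (RelT Band3)
open _root_.P073.H142 (FStar)
open Vale.Agent.P073.St (V)
open Vale.Agent.P073.H471 Vale.Agent.P073.H267 Vale.Agent.P073.H267.Geo
open Vale.Agent.P073.H73 (Mesh)
open Vale.Agent.P073.H926
open Vale.Agent.P073.H238.K3
open Vale.Agent.P073.H267.K3

section wall

variable {Λ : Set V} {v : V} {K : BoxCx Λ v} {S : Rad K} {W : Wid K S} {B : Boxes W} {G : Geo B}
  {y : V}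

/-- **the side walls of the plates**, weak form, with the cross section of the box -/
theorem wallW {s : K.S} {k l : Fin 3} {β : Bool} (k_n : k ≠ K.nrm s) (l_n : l ≠ K.nrm s)
    (k_l : k ≠ l)
    (hn : |y (K.nrm s) - K.slo s (K.nrm s)| ≤ 1 / 2 * B.τ s)
    (hu1 : 3 / 4 * G.p s ≤ (if β then K.shi s k - y k else y k - K.slo s k))
    (hu2 : (if β then K.shi s k - y k else y k - K.slo s k) ≤ 3 / 2 * G.p s)
    (lo : K.slo s l + G.a s / 2 < y l) (hi : y l < K.shi s l - G.a s / 2) :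
    ∃ b : TBx K, RelT s l b ∧ b.ax = l ∧ (G.tlo true b l ≤ y l ∧ y l ≤ G.thi true b l) ∧
      ∀ z : V, |z (K.nrm s) - K.slo s (K.nrm s)| ≤ 1 / 2 * B.τ s →
        3 / 4 * G.p s ≤ (if β then K.shi s k - z k else z k - K.slo s k) →
        (if β then K.shi s k - z k else z k - K.slo s k) ≤ 3 / 2 * G.p s →
        G.tlo true b l ≤ z l → z l ≤ G.thi true b l → z ∈ G.TB true b := by
  have ha := a_pos (G := G) s
  have hcase := fin3_cases k_n k_l l_n.symm
  set m : ℝ := if β then K.shi s k else K.slo s k with hm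
  have hle := TM.slo_le_shi K s
  have hm1 : K.slo s k ≤ m ∧ m ≤ K.shi s k ∧ (m = K.slo s k ∨ m = K.shi s k) := by
    rw [hm]; cases β
    · rw [if_neg Bool.false_ne_true]; exact ⟨le_rfl, hle k, Or.inl rfl⟩
    · rw [if_pos rfl]; exact ⟨hle k, le_rfl, Or.inr rfl⟩
  have hp := G.p_pos s
  have humZ : ∀ z : V, 3 / 4 * G.p s ≤ (if β then K.shi s k - z k else z k - K.slo s k) →
      (if β then K.shi s k - z k else z k - K.slo s k) ≤ 3 / 2 * G.p s →
      |z k - m| ≤ 3 / 2 * G.p s := by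
    intro z h1 h2
    rw [hm]
    cases β
    · simp only [Bool.false_eq_true, if_false] at h1 h2 ⊢
      rw [abs_le]; constructor <;> linarith
    · simp only [if_true] at h1 h2 ⊢
      rw [abs_le]; constructor <;> linarith
  -- the point of the side
  set x : V := Function.update (Function.update (K.slo s) l (y l)) k m with hx
  have xk : x k = m := by simp [hx]
  have xl : x l = y l := by simp [hx, k_l.symm]
  have xn : x (K.nrm s) = K.slo s (K.nrm s) := by
    rw [hx, Function.update_of_ne k_n.symm, Function.update_of_ne l_n.symm]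
  have hxs : x ∈ K.sq s := by
    have : ∀ j, K.slo s j ≤ x j ∧ x j ≤ K.shi s j := by
      intro j
      rcases hcase j with rfl | rfl | rfl
      · rw [xk]; exact ⟨hm1.1, hm1.2.1⟩
      · rw [xn]; exact ⟨le_rfl, hle _⟩
      · rw [xl]; exact ⟨by linarith, by linarith⟩
    exact ⟨fun j => (this j).1, fun j => (this j).2⟩
  obtain ⟨e, he, hxe⟩ := K.sq_bd s x hxs ⟨k, k_n, by rw [xk]; exact hm1.2.2⟩
  have hes : K.edge e ⊆ K.sq s := he
  have hwa := hes (TM.wa_mem K e)
  have hwb := hes (TM.wb_mem K e)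
  have hwan := TM.nrm_eq hwa
  have hdn : K.dir e ≠ K.nrm s := (nrm_ne_dir hes).symm
  have hdl : K.dir e = l := by
    by_contra hdl
    have hdk : K.dir e = k := by
      rcases hcase (K.dir e) with hh | hh | hh
      · exact hh
      · exact absurd hh hdn
      · exact absurd hh hdl
    -- the midpoint of the edge is in the open square
    have hab := K.ab_dir e
    set y' : V := Function.update (K.w (K.a e)) (K.dir e)
      ((K.w (K.a e) (K.dir e) + K.w (K.b e) (K.dir e)) / 2) with hy'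
    have hye : y' ∈ K.edge e := by
      have : ∀ j, K.w (K.a e) j ≤ y' j ∧ y' j ≤ K.w (K.b e) j := by
        intro j
        by_cases hj : j = K.dir e
        · rw [hj, hy', Function.update_self]; constructor <;> linarith
        · rw [hy', Function.update_of_ne hj]; exact ⟨le_rfl, (wab K e hj).le⟩
      exact ⟨fun j => (this j).1, fun j => (this j).2⟩
    refine K.sqo_edge s y' ?_ (fun j hj => ?_) e hye
    · rw [hy', Function.update_of_ne hdn.symm]; exact hwan
    · rcases hcase j with hjk | hjn | hjl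
      · rw [hjk, ← hdk, hy', Function.update_self]
        constructor
        · linarith [hwa.1 (K.dir e)]
        · linarith [hwb.2 (K.dir e)]
      · exact absurd hjn hj
      · have hld : l ≠ K.dir e := Ne.symm hdl
        rw [hjl, hy', Function.update_of_ne hld, ← edge_coord hxe hld, xl]
        constructor <;> linarith
  have hkd : k ≠ K.dir e := by rw [hdl]; exact k_l
  have hek : K.w (K.a e) k = m := by rw [← edge_coord hxe hkd, xk]
  have hxl1 := hxe.1 l
  have hxl2 := hxe.2 l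
  rw [xl] at hxl1 hxl2
  have hpu := G.p_uT s e hes
  have hτp := G.τ_p s
  have hτ0 := B.τ_pos s
  -- hanging vertices
  have hang : ∀ i, (i = K.a e ∨ i = K.b e) → |y l - K.w i l| ≤ G.be i →
      ∃ b : TBx K, RelT s l b ∧ b.ax = l ∧ (G.tlo true b l ≤ y l ∧ y l ≤ G.thi true b l) ∧
      ∀ z : V, |z (K.nrm s) - K.slo s (K.nrm s)| ≤ 1 / 2 * B.τ s →
        3 / 4 * G.p s ≤ (if β then K.shi s k - z k else z k - K.slo s k) →
        (if β then K.shi s k - z k else z k - K.slo s k) ≤ 3 / 2 * G.p s →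
        G.tlo true b l ≤ z l → z l ≤ G.thi true b l → z ∈ G.TB true b := by
    intro i hi' hyi
    have hie : K.w i ∈ K.edge e := by
      rcases hi' with rfl | rfl
      · exact TM.wa_mem K e
      · exact TM.wb_mem K e
    have his := hes hie
    have hba := G.be_a s i his
    have hyi' := abs_le.1 hyi
    have hbe := G.be_pos i
    let b : Hang K :=
      { i := i, s := s, k := k, l := l, β := β, k_n := k_n, l_n := l_n, k_l := k_l
        nrm := TM.nrm_eq his
        side := by rw [edge_coord hie hkd, hek]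
        lo := by linarith
        hi := by linarith }
    have e1 : G.tlo true (.inr b) l = K.w i l - G.be i := by
      simp only [Geo.tlo]
      rw [if_pos rfl]
    have e2 : G.thi true (.inr b) l = K.w i l + G.be i := by
      simp only [Geo.thi]
      rw [if_pos rfl]
    refine ⟨.inr b, ⟨rfl, rfl⟩, rfl, by rw [e1, e2]; constructor <;> linarith,
      fun z hz1 hz2 hz3 hz4 hz5 => ?_⟩
    rw [e1] at hz4
    rw [e2] at hz5
    rw [mem_inr]
    simp only [if_true]
    exact ⟨abs_le.2 ⟨by change _ ≤ z l - K.w i l; linarith, by change z l - K.w i l ≤ _; linarith⟩,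
      ⟨hz2, hz3⟩, hz1⟩
  by_cases h1 : K.w (K.a e) l + G.be (K.a e) ≤ y l
  · by_cases h2 : y l ≤ K.w (K.b e) l - G.be (K.b e)
    · have e1 : G.tlo true (.inl e) l = K.w (K.a e) l + G.be (K.a e) := by
        simp only [Geo.tlo]
        rw [if_pos hdl.symm]
      have e2 : G.thi true (.inl e) l = K.w (K.b e) l - G.be (K.b e) := by
        simp only [Geo.thi]
        rw [if_pos hdl.symm]
      refine ⟨.inl e, ⟨hes, hdl⟩, hdl, by rw [e1, e2]; exact ⟨h1, h2⟩,
        fun z hz1 hz2 hz3 hz4 hz5 => ?_⟩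
      rw [e1] at hz4
      rw [e2] at hz5
      rw [mem_inl]
      refine ⟨by rw [hdl]; exact ⟨hz4, hz5⟩, fun j hj => ?_⟩
      simp only [if_true]
      rcases hcase j with rfl | rfl | rfl
      · rw [hek]
        have := humZ z hz2 hz3
        linarith
      · rw [hwan]
        linarith
      · exact absurd hdl.symm hj
    · push Not at h2
      exact hang (K.b e) (Or.inr rfl) (by
        rw [abs_le]; constructor <;> linarith [G.be_pos (K.b e)])
  · push Not at h1
    exact hang (K.a e) (Or.inl rfl) (by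
      rw [abs_le]; constructor <;> linarith [G.be_pos (K.a e)])

end wall

section tube

variable {c₀ n δ : ℝ} {j : ℕ} {Ω Λ : Set V} {v w : V} {ρ : V → ℝ} {M : Mesh Ω} {h : ConHomeo Ω Λ}
  {J₀ J : Set (ℕ × (Fin 3 → ℤ))} {P Z : Set M.ι} {K : BoxCx Λ w}
  {D : KIn3 c₀ n j δ v w ρ M h J₀ J P Z} {C : Cells ρ w K} {C₀ μT : ℝ}

/-- the oscillation is small at the related boxes -/
theorem ω3T_τ (D : KIn3 c₀ n j δ v w ρ M h J₀ J P Z) (C : Cells ρ w K) {s : K.S} {l : Fin 3}
    {b : TBx K} (hb : RelT s l b) : 16777216000 * ω3T δ C b ≤ (D.B C).τ s := by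
  have h1 := D.ω3T_oT C b
  rcases b with e | H
  · have h2 := (D.G C).oG_τ s e hb.1
    change 16777216 * ω3T δ C (.inl e) ≤ (D.G C).oG e at h1
    linarith
  · have h3 : K.w H.i ∈ K.sq s := by
      have := Geo.hang_mem H
      rwa [hb.1] at this
    have h2 := (D.G C).oW_τ s H.i h3
    change 16777216 * ω3T δ C (.inr H) ≤ (D.G C).oW H.i at h1
    linarith

/-- **[STRIP]**: a face of a drawn cell in the strip around the plate which meets a band of the
coordinate `tg s β` is deep in a box of round T of the same direction -/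
theorem strip_tube' (X : S1 D C C₀ μT) (hfat : ∀ b : pB C J₀, 2048 * ω3T δ C b.1 ≤ X.fat b)
    {L : PLev (D.G C)} (hband : Band3 L (pS C J₀) X.slp)
    {i : M.ι} (hi : i ∈ Zd D) {s : K.S} (hs : s ∈ pS C J₀) {k : M.κ} (hk : M.F k ⊆ M.Q i)
    (hpb : ∀ x ∈ M.F k, X.h1.toFun x ∈ (D.G C).PB (29 / 32) s)
    (hno : ∀ x ∈ M.F k, X.h1.toFun x ∉ (D.G C).PB 1 s) (β : Bool) :
    (∃ b : pB C J₀, RelT s (tg s β) b.1 ∧ b.1.ax = tg s β ∧
      InTm 64 (D.G C) M h (ω3T δ C) b.1 k ∧ ∀ x ∈ M.F k,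
        (D.G C).tlo true b.1 b.1.ax + 1023 * ω3T δ C b.1 ≤ h.toFun x b.1.ax ∧
        h.toFun x b.1.ax ≤ (D.G C).thi true b.1 b.1.ax - 1023 * ω3T δ C b.1) ∨
      ∀ x ∈ M.F k, ∀ a ∈ L.lv s (tg s β), L.c s β ≤ |X.h1.toFun x (tg s β) - a| := by
  by_cases hex : ∃ x ∈ M.F k, ∃ a ∈ L.lv s (tg s β), |X.h1.toFun x (tg s β) - a| < L.c s β
  swap
  · push Not at hex
    exact Or.inr hex
  left
  obtain ⟨x₀, hx₀, a, ha, hxa⟩ := hex
  obtain ⟨-, m, hm, hma⟩ := PLev.mem_lv.1 ha
  rw [bt_tg] at hm hma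
  have hw := L.win s β hm
  rw [hma] at hw
  have hc := (L.lvs s β).c0
  have hxa' := abs_lt.1 hxa
  have hiP : i ∉ P := hi.1
  have hn := D.nearC_drawn C X.out.near hi
  have hxPK : X.h1.toFun x₀ ∈ PK (D.G C) s := PB_sub_PK (by norm_num) s (hpb x₀ hx₀)
  have hnrm := (D.drawn_PK C hi hn (hk hx₀) hxPK).2
  have hosc : ∀ z ∈ M.Q i, ‖h.toFun z - X.h1.toFun x₀‖ ≤ 6 * (D.G C).oS s := fun z hz =>
    (D.pos_PK C hs hiP hn (hk hx₀) hxPK hz).1
  have hoS := (D.G C).oS_τ s
  have hτ := (D.B C).τ_pos s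
  have hτp := (D.G C).τ_p s
  have hpa := Geo.p_a (G := D.G C) s
  have hp := Geo.p_pos (G := D.G C) s
  obtain ⟨hPB1, -⟩ := Geo.mem_PB.1 (hpb x₀ hx₀)
  have h2 : X.h1.toFun x₀ (tg s (!β)) < K.slo s (tg s (!β)) + (D.G C).p s ∨
      K.shi s (tg s (!β)) - (D.G C).p s < X.h1.toFun x₀ (tg s (!β)) := by
    by_contra hcon
    push Not at hcon
    apply hno x₀ hx₀
    refine Geo.mem_PB.2 ⟨fun k hk => ?_, by linarith⟩
    rcases tg_cases s β hk with rfl | rfl
    · constructor <;> linarith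
    · constructor <;> linarith [hcon.1, hcon.2]
  have hPu := hPB1 _ (tg_ne s (!β))
  obtain ⟨β', hβ1, hβ2⟩ : ∃ β' : Bool, 29 / 32 * (D.G C).p s ≤ (if β' then
      K.shi s (tg s (!β)) - X.h1.toFun x₀ (tg s (!β)) else
      X.h1.toFun x₀ (tg s (!β)) - K.slo s (tg s (!β))) ∧ (if β' then
      K.shi s (tg s (!β)) - X.h1.toFun x₀ (tg s (!β)) else
      X.h1.toFun x₀ (tg s (!β)) - K.slo s (tg s (!β))) ≤ (D.G C).p s := by
    rcases h2 with h2 | h2
    · refine ⟨false, ?_, ?_⟩
      · simp only [Bool.false_eq_true, if_false]; linarith [hPu.1]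
      · simp only [Bool.false_eq_true, if_false]; linarith
    · refine ⟨true, ?_, ?_⟩
      · simp only [if_true]; linarith [hPu.2]
      · simp only [if_true]; linarith
  -- coordinates of a point near `h1 x₀`
  have hcoo : ∀ z : V, ∀ r : ℝ, ‖z - X.h1.toFun x₀‖ ≤ r → ∀ l, |z l - X.h1.toFun x₀ l| ≤ r := by
    intro z r hz l
    have := norm_le_pi_norm (z - X.h1.toFun x₀) l
    rw [Pi.sub_apply, Real.norm_eq_abs] at this
    exact this.trans hz
  have hcross : ∀ z : V, ‖z - X.h1.toFun x₀‖ ≤ (D.B C).τ s / 4 →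
      |z (K.nrm s) - K.slo s (K.nrm s)| ≤ 1 / 2 * (D.B C).τ s ∧
      3 / 4 * (D.G C).p s ≤ (if β' then K.shi s (tg s (!β)) - z (tg s (!β)) else
        z (tg s (!β)) - K.slo s (tg s (!β))) ∧
      (if β' then K.shi s (tg s (!β)) - z (tg s (!β)) else
        z (tg s (!β)) - K.slo s (tg s (!β))) ≤ 3 / 2 * (D.G C).p s := by
    intro z hz
    have e1 := abs_le.1 (hcoo z _ hz (K.nrm s))
    have e2 := abs_le.1 (hcoo z _ hz (tg s (!β)))
    have e3 := abs_le.1 hnrm
    refine ⟨abs_le.2 ⟨by linarith, by linarith⟩, ?_, ?_⟩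
    · cases β'
      · simp only [Bool.false_eq_true, if_false] at hβ1 ⊢
        linarith
      · simp only [if_true] at hβ1 ⊢
        linarith
    · cases β'
      · simp only [Bool.false_eq_true, if_false] at hβ2 ⊢
        linarith
      · simp only [if_true] at hβ2 ⊢
        linarith
  have hx6 := hosc x₀ (hk hx₀)
  have hx4 : ‖h.toFun x₀ - X.h1.toFun x₀‖ ≤ (D.B C).τ s / 4 := hx6.trans (by linarith)
  obtain ⟨c1, c2, c3⟩ := hcross _ hx4
  have hv6 := abs_le.1 (hcoo _ _ hx6 (tg s β))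
  obtain ⟨b, hRel, hax, ⟨hb1, hb2⟩, hb3⟩ := wallW (G := D.G C) (y := h.toFun x₀) (β := β')
    (tg_ne s (!β)) (tg_ne s β) (tg_ne_not s β).symm c1 c2 c3 (by linarith) (by linarith)
  have hbG : b ∈ pB C J₀ := X.dpre.rel s hs _ b hRel
  have hxT : h.toFun x₀ ∈ (D.G C).TB false b :=
    Geo.TB_true_subset b (hb3 _ c1 c2 c3 hb1 hb2)
  have hω := D.ω3T_pos C b
  have hωτ := ω3T_τ D C hRel
  have hd := X.out.dispT x₀ (M.sub i (hk hx₀)) b hbG hxT
  rw [norm_sub_rev] at hd
  have hdv := abs_le.1 (hcoo _ _ hd (tg s β))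
  -- the bands avoid the ends
  have hft := hfat ⟨b, hbG⟩
  change 2048 * ω3T δ C b ≤ _ at hft
  have k1 := hband s hs β m hm ⟨b, hbG⟩ hRel ((D.G C).tlo true b b.ax - X.fat ⟨b, hbG⟩,
    (D.G C).tlo true b b.ax + X.fat ⟨b, hbG⟩) (by
      unfold S1.slp
      exact Finset.mem_union_right _ (by simp))
  have k2 := hband s hs β m hm ⟨b, hbG⟩ hRel ((D.G C).thi true b b.ax - X.fat ⟨b, hbG⟩,
    (D.G C).thi true b b.ax + X.fat ⟨b, hbG⟩) (by
      unfold S1.slp
      exact Finset.mem_union_right _ (by simp))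
  rw [hax, hma] at k1 k2
  simp only at k1 k2
  have f1 : (D.G C).tlo true b (tg s β) + 2048 * ω3T δ C b < X.h1.toFun x₀ (tg s β) := by
    rcases k1 with k1 | k1
    · linarith
    · linarith
  have f2 : X.h1.toFun x₀ (tg s β) < (D.G C).thi true b (tg s β) - 2048 * ω3T δ C b := by
    rcases k2 with k2 | k2
    · linarith
    · linarith
  refine ⟨⟨b, hbG⟩, hRel, hax, fun x hx z hz => ?_, fun x hx => ?_⟩
  swap
  · have g1 : ‖h.toFun x₀ - h.toFun x‖ ≤ ω3T δ C b := D.osc_T C hbG hiP (hk hx₀) (hk hx) hxT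
    have g2 := norm_le_pi_norm (h.toFun x₀ - h.toFun x) (tg s β)
    rw [Pi.sub_apply, Real.norm_eq_abs] at g2
    have g3 := abs_le.1 (g2.trans g1)
    rw [hax]
    constructor
    · change (D.G C).tlo true b (tg s β) + 1023 * ω3T δ C b ≤ h.toFun x (tg s β)
      linarith [g3.1, g3.2, hdv.1, hdv.2]
    · change h.toFun x (tg s β) ≤ (D.G C).thi true b (tg s β) - 1023 * ω3T δ C b
      linarith [g3.1, g3.2, hdv.1, hdv.2]
  rw [mem_closedBall, dist_eq_norm] at hz
  have g1 : ‖h.toFun x₀ - h.toFun x‖ ≤ ω3T δ C b := D.osc_T C hbG hiP (hk hx₀) (hk hx) hxT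
  have g2 : ‖z - X.h1.toFun x₀‖ ≤ 1089 * ω3T δ C b := by
    calc ‖z - X.h1.toFun x₀‖ = ‖(z - h.toFun x) - (h.toFun x₀ - h.toFun x) +
          (h.toFun x₀ - X.h1.toFun x₀)‖ := by congr 1; abel
      _ ≤ ‖z - h.toFun x‖ + ‖h.toFun x₀ - h.toFun x‖ + ‖h.toFun x₀ - X.h1.toFun x₀‖ :=
        (norm_add_le _ _).trans (add_le_add (norm_sub_le _ _) le_rfl)
      _ ≤ _ := by linarith
  obtain ⟨d1, d2, d3⟩ := hcross z (g2.trans (by linarith))
  have hzv := abs_le.1 (hcoo z _ g2 (tg s β))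
  exact hb3 z d1 d2 d3 (by linarith) (by linarith)

/-- **[STRIP]**: a face of a drawn cell in the strip around the plate which meets a band of the
coordinate `tg s β` is deep in a box of round T of the same direction -/
theorem strip_tube (X : S1 D C C₀ μT) (hfat : ∀ b : pB C J₀, 2048 * ω3T δ C b.1 ≤ X.fat b)
    {L : PLev (D.G C)} (hband : Band3 L (pS C J₀) X.slp)
    {i : M.ι} (hi : i ∈ Zd D) {s : K.S} (hs : s ∈ pS C J₀) {k : M.κ} (hk : M.F k ⊆ M.Q i)
    (hpb : ∀ x ∈ M.F k, X.h1.toFun x ∈ (D.G C).PB (29 / 32) s)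
    (hno : ∀ x ∈ M.F k, X.h1.toFun x ∉ (D.G C).PB 1 s) (β : Bool) :
    (∃ b : pB C J₀, b.1.ax = tg s β ∧ InTm 64 (D.G C) M h (ω3T δ C) b.1 k) ∨
      ∀ x ∈ M.F k, ∀ a ∈ L.lv s (tg s β), L.c s β ≤ |X.h1.toFun x (tg s β) - a| := by
  rcases strip_tube' X hfat hband hi hs hk hpb hno β with ⟨b, -, h1, h2, -⟩ | h1
  · exact Or.inl ⟨b, h1, h2⟩
  · exact Or.inr h1

end tube

end Vale.Agent.P073.H193
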