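import Vale.Agent.P073.H193.CellTop
import Vale.Agent.P073.H429.FaceTP

/-!
# P073, block H193 ([CELL3]): the faces of the cells drawn in the tubes

* `TGiv`: the faces which are in no protected cell and not peeled;
* `tFaces_of`: all faces, from `TGiv` and the faces of the protected cells and the peeled faces
  (H429/FaceTP).
-/

open Set Metric Topology Filter MeasureTheory
open scoped ENNReal

set_option linter.unusedSectionVars false

namespace Vale.Agent.P073.H193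

open _root_.P073 _root_.P073.Net _root_.P073.PA691 _root_.P073.H936 _root_.P073.H936.K3
  _root_.P073.H142 _root_.P073.H880 _root_.P073.H880.RP _root_.P073.H345 _root_.P073.H236
  _root_.P073.H579 _root_.P073.H919 _root_.P073.H228 _root_.P073.H429
open Vale.Agent.P073
open Vale.Agent.P073.St (V)
open Vale.Agent.P073.AB (Idx squ)
open Vale.Agent.P073.H73 (Mesh onSeg)
open Vale.Agent.P073.H471 Vale.Agent.P073.H267
open Vale.Agent.P073.H926
open Vale.Agent.P073.H238.K3 (Zd Wc Act TOut3)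
open Vale.Agent.P073.H267.K3

variable {c₀ n δ : ℝ} {j : ℕ} {Ω Λ : Set V} {v w : V} {ρ : V → ℝ} {M : Mesh Ω} {h : ConHomeo Ω Λ}
  {J₀ J : Set (ℕ × (Fin 3 → ℤ))} {P Z : Set M.ι} {K : BoxCx Λ w}
  {D : KIn3 c₀ n j δ v w ρ M h J₀ J P Z} {C : Cells ρ w K} {C₀ μT : ℝ}
  {X : S1 D C C₀ μT} {Y₂ : S2 X} {Ys : Set M.κ} {sc : Sharp} {Y₃ : S3 Y₂ Ys sc} {Y₄ : S4 Y₃}

/-- **the clauses of the faces of the cells drawn in the tubes which are in no protected cell and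
not peeled** -/
def TGiv (Y₅ : S5 Y₄) (kG : ℝ) : Prop :=
  ∀ (b : pG C J₀) i, i ∈ ZbT Y₄ b → ∀ k, M.F k ⊆ M.Q i → (∀ i' ∈ P, ¬ M.F k ⊆ M.Q i') →
    k ∉ (D.dat C).Peel (D.G C) X.h1 → ∀ bb : (edges M).ε → ℝ,
    (∀ e, (edges M).seg e ⊆ M.F k → X.bn e ≤ bb e) →
    (∀ i' ∈ Wc D C, M.F k ⊆ M.Q i' → ∃ L > 0,
      (∀ x ∈ M.Q i', ∀ y ∈ M.Q i', ‖h.toFun x - h.toFun y‖ ≤ L * ‖x - y‖) ∧
      ∀ e, (edges M).seg e ⊆ M.F k → L * ‖(edges M).b e - (edges M).a e‖ ≤ bb e) →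
      FaceCl M k (X.T k) bb kG kG (fun x y => bds (Y₅.Th b) (Y₄.f5.toFun x (K.dir b.1))
        (Y₄.f5.toFun y (K.dir b.1)))

/-- the constants of the faces of the cells drawn in the tubes -/
noncomputable def kTF (C₀ q kG : ℝ) : ℝ := max (547 * C₀) (max (55 * (624 * q + 1)) kG)

/-- the constants on the sharp faces -/
noncomputable def kTF' (C₀ q kG K : ℝ) : ℝ :=
  max (547 * C₀) (max (55 * (4 * (FW31.DK K * q) + 1)) kG)

/-- **the faces of the cells drawn in the tubes** -/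
theorem tFaces_of (Y₅ : S5 Y₄) {τ ε : M.κ → ℝ} {t4 : (D.dat C).S₀ → ℝ} {t5 : pG C J₀ → ℝ}
    (N : RowNum Y₅ τ ε t4 t5) (hq : 0 ≤ Y₃.q) {kG : ℝ} (hG : TGiv Y₅ kG) :
    TFaces Y₅ (kTF C₀ Y₃.q kG) (kTF' C₀ Y₃.q kG sc.K) := by
  intro b i hi k hk bb hb1 hb2 hb3 Cc h1 h2
  obtain ⟨sq, hsq⟩ := D.face_Zmax hi.1.1 hk
  have hn := D.pos
  have hn1 := N.n1
  have hr : ∀ s, 3 / 4 ≤ Y₄.r s := fun s => by
    have := N.r s
    linarith
  have hq' : ∀ s, 3 / 4 ≤ Y₄.q s := fun s => by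
    have := N.q s
    linarith
  have hb0 : ∀ e, (edges M).seg e ⊆ M.F k → 0 ≤ bb e := fun e he =>
    (X.num.b_pos e).le.trans (hb1 e he)
  have hle : ∀ x ∈ M.F k, ∀ y ∈ M.F k, bds (Y₅.Th b) (Y₄.f5.toFun x (K.dir b.1))
      (Y₄.f5.toFun y (K.dir b.1)) ≤
      1 * |Y₄.f5.toFun x (K.dir b.1) - Y₄.f5.toFun y (K.dir b.1)| := fun x _ y _ => by
    rw [one_mul]
    exact bds_le _ _ _
  have hC547 : 547 * C₀ ≤ Cc := by
    by_cases hY : k ∈ Ys
    · exact (le_max_left _ _).trans (h2 hY)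
    · exact (le_max_left _ _).trans (h1 hY)
  have hkG : kG ≤ Cc := by
    by_cases hY : k ∈ Ys
    · exact ((le_max_right _ _).trans (le_max_right _ _)).trans (h2 hY)
    · exact ((le_max_right _ _).trans (le_max_right _ _)).trans (h1 hY)
  by_cases hkP : ∃ i' ∈ P, M.F k ⊆ M.Q i'
  · obtain ⟨i', hi', hk'⟩ := hkP
    exact (faceCl_Tprot Y₄ N.C₀1 (Y₃.theta_of N.Ds N.cs) (Y₄.rq_of hr hq') (Y₄.tausg_of N.st)
      (fun i hi q hq hiso s hs => (N.ε4 s).trans (N.tP4 i hi q hq hiso s hs)) hi hk hi' hk' hsq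
      hb2 hC547).mono hb0 hle le_rfl le_rfl
  · push Not at hkP
    by_cases hkn : k ∈ (D.dat C).Peel (D.G C) X.h1
    · obtain ⟨s, hs⟩ := hkn
      refine (faceCl_Tpeel Y₄ hi hk hs hsq (Y₄.rq_of hr hq' _) hb0 hq
        (fun e he => (Y₃.Lq e).trans (mul_le_mul_of_nonneg_left (hb1 e he) hq))
        (fun e he => (Y₃.Wq e).trans (mul_le_mul_of_nonneg_left (hb1 e he) hq))
        (fun e he => ?_)
        (fun hY => ((le_max_left _ _).trans (le_max_right _ _)).trans (h1 hY))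
        (fun hY => ((le_max_left _ _).trans (le_max_right _ _)).trans (h2 hY))).mono hb0 hle
          le_rfl le_rfl
      have e1 := N.ε5 s k hs
      have e2 := N.τe k e he
      have e3 := hb1 e he
      have e4 := norm_nonneg ((edges M).b e - (edges M).a e)
      have e5 : 0 ≤ Y₄.ε ⟨s, hs.1⟩ := by
        have h8 := Y₄.ςK true ⟨s, hs.1⟩
        have h9 := mul_pos (Y₄.ς0 true ⟨s, hs.1⟩) (Y₄.K₂0 ⟨s, hs.1⟩)
        linarith
      have e6 : Y₄.ε ⟨s, hs.1⟩ * ‖(edges M).b e - (edges M).a e‖ ≤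
          τ k * ‖(edges M).b e - (edges M).a e‖ :=
        mul_le_mul_of_nonneg_right (by linarith) e4
      linarith
    · exact (hG b i hi k hk hkP hkn bb hb1 hb3).mono hb0 (fun _ _ _ _ => le_rfl) hkG hkG

end Vale.Agent.P073.H193
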