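import Vale.Agent.P073.H193.TFace
import Vale.Agent.P073.H194.FaceTg
import Vale.Agent.P073.H194.HTg

/-!
# P073, block H193 ([CELL3]): all faces of the cells drawn in the tubes

* `TBd`: the estimate of the bands on the faces which are not peeled (H194/HTg);
* `tGiv_of`, `tFaces`.
-/

open Set Metric Topology Filter MeasureTheory
open scoped ENNReal

set_option linter.unusedSectionVars false

namespace Vale.Agent.P073.H193

open _root_.P073 _root_.P073.Net _root_.P073.PA691 _root_.P073.H936 _root_.P073.H936.K3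
  _root_.P073.H142 _root_.P073.H880 _root_.P073.H880.RP _root_.P073.H345 _root_.P073.H236
  _root_.P073.H579 _root_.P073.H919 _root_.P073.H228 _root_.P073.H429
open Vale.Agent.P073
open Vale.Agent.P073.St (V)
open Vale.Agent.P073.AB (Idx squ)
open Vale.Agent.P073.H73 (Mesh onSeg)
open Vale.Agent.P073.H471 Vale.Agent.P073.H267
open Vale.Agent.P073.H926
open Vale.Agent.P073.H238.K3 (Zd Wc Act TOut3)
open Vale.Agent.P073.H267.K3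

variable {c₀ n δ : ℝ} {j : ℕ} {Ω Λ : Set V} {v w : V} {ρ : V → ℝ} {M : Mesh Ω} {h : ConHomeo Ω Λ}
  {J₀ J : Set (ℕ × (Fin 3 → ℤ))} {P Z : Set M.ι} {K : BoxCx Λ w}
  {D : KIn3 c₀ n j δ v w ρ M h J₀ J P Z} {C : Cells ρ w K} {C₀ μT : ℝ}
  {X : S1 D C C₀ μT} {Y₂ : S2 X} {Ys : Set M.κ} {sc : Sharp} {Y₃ : S3 Y₂ Ys sc} {Y₄ : S4 Y₃}

/-- **the estimate of the bands of the tubes on the drawn faces which are not peeled** -/
def TBd (Y₅ : S5 Y₄) (a₁ : ℝ) (τ : M.κ → ℝ) : Prop :=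
  ∀ b : pG C J₀, ∀ k, k ∈ (D.dat C).DF → k ∉ (D.dat C).Peel (D.G C) X.h1 → ∀ x ∈ M.F k,
    Y₄.f5.toFun x ∈ YB (YT (D.G C) (pS C J₀)) b.1 → ∀ᶠ y in 𝓝[M.F k] x,
      bds (Y₅.Th b) (Y₄.f5.toFun y (K.dir b.1)) (Y₄.f5.toFun x (K.dir b.1)) ≤
        a₁ * wcst D C X.h1.toFun k x y + τ k * ‖y - x‖

theorem tGiv_of (Y₅ : S5 Y₄) (hC : 1 ≤ C₀) {a₁ : ℝ} (ha₁ : 1 ≤ a₁) {τ : M.κ → ℝ}
    (hτe : ∀ k e, (edges M).seg e ⊆ M.F k → τ k * ‖(edges M).b e - (edges M).a e‖ ≤ X.bn e)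
    (hTg : TBd Y₅ a₁ τ) {kG : ℝ} (hkG : 55 * (6 * a₁ * C₀ + 1) ≤ kG) : TGiv Y₅ kG :=
  fun b _ hi _ hk hkP hkn _ hb hL => faceCl_Tgiv Y₅ hC ha₁ hτe (hTg b) hi hk hkP hkn hb hL hkG

/-- the constant of the faces of the cells drawn in the tubes -/
noncomputable def kT (C₀ q : ℝ) : ℝ := kTF C₀ q (55 * (600 * C₀ + 1))

/-- the constant on the sharp faces -/
noncomputable def kT' (C₀ q K : ℝ) : ℝ := kTF' C₀ q (55 * (600 * C₀ + 1)) K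

/-- **all faces of the cells drawn in the tubes** -/
theorem tFaces (Y₅ : S5 Y₄) {τ ε : M.κ → ℝ} {t4 : (D.dat C).S₀ → ℝ} {t5 : pG C J₀ → ℝ}
    (N : RowNum Y₅ τ ε t4 t5) (hq : 0 ≤ Y₃.q) (hTg : TBd Y₅ 100 τ) :
    TFaces Y₅ (kT C₀ Y₃.q) (kT' C₀ Y₃.q sc.K) :=
  tFaces_of Y₅ N hq (tGiv_of Y₅ N.C₀1 (by norm_num) N.τe hTg (by linarith))

end Vale.Agent.P073.H193
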